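import Vale.Agent.P363.Ext.Growth.BarrierRun

/-!
P363, Kohn-Sham side, `GrowthStmt`: bounds in the band and in the core spread to the whole region.
-/

noncomputable section

namespace Vale.Agent.P363.Ext.Growth

open MeasureTheory Filter Set
open scoped BigOperators Topology

variable {S : Setup}

/-- The constants exist. -/
lemma exists_shape (S : Setup) : ∃ s₀ Sw Cc β b c : ℝ, Shape S s₀ Sw Cc β b c := by
  have ha := S.data.a_pos
  set s₀ : ℝ := 1 / (4 * (1 + 4 * S.a)) with hs₀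
  have hs0 : 0 < s₀ := by positivity
  have hs1 : s₀ ≤ 1 / 4 := one_div_le_one_div_of_le (by norm_num) (by linarith)
  have hc : 0 ≤ 30 / S.a := by positivity
  have hCc : 4096 ≤ 4096 / s₀ := (le_div_iff₀ hs0).2 (by linarith)
  refine ⟨s₀, 1 + 2 * (30 / S.a), 4096 / s₀, 4 * S.a + 2, 1 / (2 * s₀), 30 / S.a,
    hs0, hs1, ?_, rfl, ?_, rfl, by field_simp, by linarith, ?_, hCc, by field_simp; rfl⟩
  · rw [hs₀, div_pow, one_pow, one_div_mul_eq_div, div_le_one (by positivity)]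
    linarith [sq_nonneg S.a]
  · rw [hs₀, div_pow, one_pow, ← mul_div_assoc, mul_one, div_le_iff₀ (by positivity)]
    linarith [sq_nonneg S.a]
  · linarith [sq_nonneg (2 * (30 / S.a))]

/-- `mirror` preserves the norm. -/
lemma norm_mirror (x : Space) : ‖mirror x‖ = ‖x‖ := by
  have := (axIso true 0).norm_map x
  simpa [axMap, rot_zero_angle] using this

/-- The band and the core control everything. -/
theorem barrier_of (hS : SmallProfilesStmt) (hG : GroundStmt) (hB : BulkOneStmt) : BarrierStmt := by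
  intro S
  have ha := S.data.a_pos
  obtain ⟨C₀, hC₀, hap⟩ := exists_apriori S
  obtain ⟨cb, hcb, hex⟩ := excess_linear hS hG hB S
  obtain ⟨Rc, -, hcmp⟩ := compare S
  obtain ⟨s₀, Sw, Cc, β, b, c, hsh⟩ := exists_shape S
  have hs0 := hsh.s_pos
  have hs1 := hsh.s_le
  have hCc0 : 0 < Cc := by linarith [hsh.Cc_ge]
  have hSw1 := hsh.Sw_ge
  refine ⟨s₀, Sw, Cc, 4 * C₀ + 8, hs0, by linarith, by linarith [hsh.Cc_ge], by positivity,
    fun K q hK hq => ?_⟩
  have hK0 : 0 ≤ K := le_trans (by positivity) hK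
  set e₀ : ℝ := min q 1 / ((1 + Sw) ^ 8 * (K + 2)) with he₀
  have he0 : 0 < e₀ := by positivity
  set ε : ℝ := min (min cb 1) (cb ^ 2 * e₀ / 2)
  have hε0 : 0 < ε := lt_min (lt_min hcb one_pos) (by positivity)
  have hε1 : ε ≤ 1 := (min_le_left _ _).trans (min_le_right _ _)
  set lam : ℝ := ε / cb with hlam
  have hlam0 : 0 ≤ lam := by positivity
  have hlam1 : lam ≤ 1 := (div_le_one hcb).2 ((min_le_left _ _).trans (min_le_left _ _))
  set e : ℝ := 2 * ε / cb ^ 2 with he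
  have hee : e ≤ e₀ := by
    rw [he, div_le_iff₀ (by positivity)]
    linarith [min_le_right (min cb 1) (cb ^ 2 * e₀ / 2)]
  have he' : 0 ≤ e := by positivity
  have hSw8 : 1 ≤ (1 + Sw) ^ 8 := one_le_pow₀ (by linarith)
  have heK : e * (K + 1) ≤ 1 := by
    calc e * (K + 1) ≤ e₀ * ((1 + Sw) ^ 8 * (K + 2)) := by
          refine mul_le_mul hee ?_ (by linarith) he0.le
          calc K + 1 ≤ 1 * (K + 2) := by linarith
            _ ≤ _ := mul_le_mul_of_nonneg_right hSw8 (by linarith)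
      _ = min q 1 := by rw [he₀]; field_simp
      _ ≤ 1 := min_le_right _ _
  have heq : e * (1 + Sw) ^ 8 ≤ q := by
    calc e * (1 + Sw) ^ 8 ≤ e₀ * ((1 + Sw) ^ 8 * (K + 2)) := by
          refine mul_le_mul hee ?_ (by positivity) he0.le
          exact le_mul_of_one_le_right (by positivity) (by linarith)
      _ = min q 1 := by rw [he₀]; field_simp
      _ ≤ q := min_le_left _ _
  obtain ⟨δ₁, R₁', hδ₁, hδ₁4, hR₁', hexc⟩ := hex ε hε0
  set q' : ℝ := Cc * q with hq'
  have hq'0 : 0 < q' := by positivity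
  set Cd := max S.C 0
  set Λ : ℝ := (|curv S Cd 1 0| + 4 / q' + 1) / S.a with hΛ
  have hΛa : S.a * Λ = |curv S Cd 1 0| + 4 / q' + 1 := by rw [hΛ]; field_simp
  set Y : ℝ := |curv S Cd 8 0| + 2 + 512 / q' with hY
  have hY0 : 2 ≤ Y := by
    have : 0 ≤ |curv S Cd 8 0| + 512 / q' := by positivity
    linarith
  refine ⟨min δ₁ (1 / Y), by positivity, fun δ hδ hδ' L hL => ?_⟩
  have hδ4 : δ ≤ 1 / 4 := hδ'.trans ((min_le_left _ _).trans hδ₁4)
  have hδY : Y * δ ^ 2 ≤ 2 := by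
    have h1 : δ * Y ≤ 1 := (le_div_iff₀ (by linarith)).1 (hδ'.trans (min_le_right _ _))
    have := mul_le_mul h1 hδ4 hδ.le zero_le_one
    linarith
  set X : ℝ := 2 + |curv S Cd 0 4| + β * |curv S Cd 2 3| + |curv S Cd 1 1| / S.a +
    2 * (|curv S Cd 1 (7 / 2)| + b * |curv S Cd 2 3| + 512 / q') + c * |curv S Cd 6 1| +
    2 * Λ + 1 / δ ^ 2
  refine ⟨max (max R₁' Rc) (max (max X 2) (S.R₁ + 1)), fun R hR =>
    ⟨K + 1 + 24 * (C₀ + 1) * ((L * R) ^ 4 + (δ ^ 7)⁻¹), ?_⟩⟩
  intro M M₁ η hP hLev hqM hA hplane hcore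
  simp only [max_le_iff] at hR
  obtain ⟨⟨hRR₁, hRRc⟩, ⟨hRX, hR2⟩, hRS⟩ := hR
  have hη := hP.η_nonneg
  have hM := hP.M_nonneg
  have hRL : R ≤ L * R := le_mul_of_one_le_left (by linarith) (by linarith)
  have hA1 : 24 * (C₀ + 1) * ((L * R) ^ 4 + (δ ^ 7)⁻¹) ≤ M₁ := by linarith
  have hP0 : 0 ≤ 24 * (C₀ + 1) * ((L * R) ^ 4 + (δ ^ 7)⁻¹) := by positivity
  have hM₁K : K + 1 ≤ M₁ := by linarith
  have hM₁0 : 0 ≤ M₁ := by linarith
  have hbig1 : 24 * C₀ * (L * R) ^ 4 ≤ M₁ := le_trans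
    (mul_le_mul (by linarith) (le_add_of_nonneg_right (by positivity)) (by positivity)
      (by positivity)) hA1
  have hbig2 : 24 * C₀ * (δ ^ 7)⁻¹ ≤ M₁ := le_trans
    (mul_le_mul (by linarith) (le_add_of_nonneg_left (by positivity)) (by positivity)
      (by positivity)) hA1
  -- small side bound
  have side : ∀ (ν : ℝ) (f : Space → ℝ), Profile S ν f → ∀ x : Space, R ≤ ‖x‖ →
      1 / ‖x‖ ≤ height x → height x ≤ δ * ‖x‖ →
      |f x| ≤ lam * S.φu x ∧ |f x| + lam * excess S x ≤ ‖x‖ * S.G x *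
        (|tred S f ‖x‖⁻¹ (height x / ‖x‖)| +
          e * ((K + 1) * ‖x‖⁻¹ ^ 4 + M * lin η ‖x‖⁻¹ (height x / ‖x‖))) := by
    intro ν f hf x hx hz hzd
    have hr : 0 < ‖x‖ := by linarith
    have hτ : 0 < ‖x‖⁻¹ := inv_pos.2 hr
    have hτ1 : ‖x‖⁻¹ ≤ 1 := inv_le_one_of_one_le₀ (by linarith)
    have hrG : 0 < ‖x‖ * S.G x := mul_pos hr (tailG_pos _ _ hr)
    obtain ⟨h1, h2, h3⟩ := hexc δ R K M η hK0 hM hη (hδ'.trans (min_le_left _ _)) hRR₁ hLev x hx
      hz hzd
    refine ⟨(h2 ν f hf).trans ?_, ?_⟩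
    · rw [hlam, div_mul_eq_mul_div, le_div_iff₀ hcb]
      have := mul_le_mul_of_nonneg_left h1 hε0.le
      linarith
    · have hfx : |f x| = ‖x‖ * S.G x * |tred S f ‖x‖⁻¹ (height x / ‖x‖)| := by
        conv_lhs => rw [eq_mul_tred (S := S) hf.axial hr]
        rw [abs_mul, abs_of_pos hrG]
      rw [hfx, mul_add]
      refine add_le_add le_rfl ((mul_le_mul_of_nonneg_left h3 hlam0).trans ?_)
      set τ := ‖x‖⁻¹
      set θ := height x / ‖x‖
      have e1 : lam * (2 / cb * (‖x‖ * S.G x * (ε * bd K M η τ θ + τ ^ 5))) =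
          ‖x‖ * S.G x * (ε * (ε * 2 / cb ^ 2) * bd K M η τ θ + ε * 2 / cb ^ 2 * τ ^ 5) := by
        rw [hlam]; field_simp
      rw [e1, show ε * 2 / cb ^ 2 = e by rw [he]; ring]
      refine mul_le_mul_of_nonneg_left ?_ hrG.le
      have a2 : τ ^ 5 ≤ τ ^ 4 := pow_le_pow_of_le_one hτ.le hτ1 (by norm_num)
      have a3 := mul_le_mul_of_nonneg_right (mul_le_of_le_one_left he' hε1) (bd_nonneg hK0 hM hη τ θ)
      have a5 := mul_le_mul_of_nonneg_left a2 he'
      simp only [bd] at a3 ⊢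
      linarith
  have run : Run S s₀ Sw Cc β b c C₀ Rc lam e q' Λ δ L R K M M₁ η :=
    { shape := hsh, C₀_nonneg := hC₀, apriori := hap, compare := hcmp
      K_ge := le_trans (le_add_of_nonneg_left (by positivity)) hK
      C₀_K := le_trans (le_add_of_nonneg_right (by norm_num)) hK
      η_nonneg := hη, M_nonneg := hM, δ_pos := hδ, δ_le := hδ4, δ_q := hδY
      q_pos := hq'0, Λ_eq := hΛa, R_two := hR2, R_far := by linarith, R_cmp := hRRc
      L_ge := hRL, R_large := hRX, lam_nonneg := hlam0, lam_le := hlam1, e_nonneg := he'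
      e_K := heK, e_M := (mul_le_mul_of_nonneg_right heq hM).trans hqM, M₁_ge := hM₁K
      M_le := by
        rw [le_div_iff₀ hq'0, hq']
        calc M * (Cc * q) = Cc * (q * M) := by ring
          _ ≤ _ := mul_le_mul_of_nonneg_left hqM hCc0.le
      big_R := hbig1, big_δ := hbig2, level := hLev, plane := hplane, core := hcore, side := side }
  -- the bound on the upper half
  have upper : ∀ (ν : ℝ) (f : Space → ℝ), Profile S ν f → ∀ x : Space, R ≤ ‖x‖ → 0 ≤ height x →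
      height x ≤ δ * ‖x‖ →
      |f x| ≤ ‖x‖ * S.G x * bd K (Cc * M₁) η ‖x‖⁻¹ (height x / ‖x‖) := by
    intro ν f hf x hxR hz hzd
    obtain ⟨hr, hτ, hτ1, -, hrG, -⟩ := run.facts hxR
    set τ := ‖x‖⁻¹ with hτdef
    set θ := height x / ‖x‖ with hθdef
    have hθ0 : 0 ≤ θ := div_nonneg hz hr.le
    have hlin := low_le_lin hη hτ.le hθ0
    have hM' : 4096 * M₁ ≤ Cc * M₁ := mul_le_mul_of_nonneg_right hsh.Cc_ge hM₁0
    have hbelt := (run.belt hxR hz hzd).2
    rcases lt_or_ge ‖x‖ (L * R) with hnear | hfar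
    · refine (hf.abs_le_sqrt hbelt).trans ((hap x hbelt.1.le).trans ?_)
      rw [abs_of_nonneg hz]
      refine mul_le_mul_of_nonneg_left ?_ hrG.le
      show C₀ * (θ + τ ^ 4) ≤ K * τ ^ 4 + Cc * M₁ * lin η τ θ
      rw [mul_add, add_comm]
      refine add_le_add (mul_le_mul_of_nonneg_right (by linarith [run.C₀_K]) (by positivity)) ?_
      have h1 : 1 ≤ (L * R) ^ 4 * τ ^ 4 := by
        rw [← mul_pow]
        refine one_le_pow₀ ?_
        rw [hτdef, ← div_eq_mul_inv, le_div_iff₀ hr]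
        linarith
      calc C₀ * θ ≤ C₀ * ((L * R) ^ 4 * τ ^ 4) * θ :=
            mul_le_mul_of_nonneg_right (le_mul_of_one_le_right hC₀ h1) hθ0
        _ = C₀ * (L * R) ^ 4 * (θ * τ ^ 4) := by ring
        _ ≤ Cc * M₁ * (θ * (τ ^ 3 * Real.sqrt τ + η)) := by
          refine mul_le_mul ?_ (mul_le_mul_of_nonneg_left
            (le_add_of_le_of_nonneg (le_sqrt_pow hτ.le hτ1) hη) hθ0) (by positivity)
            (by positivity)
          have : 0 ≤ C₀ * (L * R) ^ 4 := by positivity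
          linarith
        _ ≤ _ := mul_le_mul_of_nonneg_left hlin.1 (by positivity)
    have hLτ : L * R * τ ≤ 1 := by rw [hτdef, ← div_eq_mul_inv, div_le_one hr]; exact hfar
    have hfx : |f x| = ‖x‖ * S.G x * |tred S f τ θ| := by
      conv_lhs => rw [eq_mul_tred (S := S) hf.axial hr]
      rw [abs_mul, abs_of_pos hrG]
    by_cases hzr : height x * ‖x‖ ≤ 1
    · have hθ2 : |θ| ≤ 2 * τ ^ 2 := by
        rw [abs_of_nonneg hθ0, hθdef, hτdef, div_le_iff₀ hr,
          show 2 * ‖x‖⁻¹ ^ 2 * ‖x‖ = 2 / ‖x‖ by field_simp, le_div_iff₀ hr]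
        linarith
      rw [hfx]
      refine mul_le_mul_of_nonneg_left ((hplane ν f hf τ θ hτ hLτ hθ2).trans ?_) hrG.le
      exact add_le_add (mul_le_mul_of_nonneg_right (by linarith) (by positivity))
        (mul_le_mul_of_nonneg_right (by linarith) (lin_nonneg hη _ _))
    rw [not_le] at hzr
    rcases le_or_gt (height x) (s₀ * Real.sqrt ‖x‖) with hlow | hhigh
    · exact run.lower hf hfar hzr.le hlow
    rcases le_or_gt (height x) (Sw * Real.sqrt ‖x‖) with hmid | htop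
    · have hsr := sqrt_mul_inv hr
      have h1 : s₀ * Real.sqrt τ ≤ |θ| := by
        rw [abs_of_nonneg hθ0, hθdef, le_div_iff₀ hr, mul_assoc, hsr]; exact hhigh.le
      have h2 : |θ| ≤ Sw * Real.sqrt τ := by
        rw [abs_of_nonneg hθ0, hθdef, div_le_iff₀ hr, mul_assoc, hsr]; exact hmid
      rw [hfx]
      refine mul_le_mul_of_nonneg_left ((hcore ν f hf τ θ hτ hLτ h1 h2).trans ?_) hrG.le
      rw [abs_of_nonneg hθ0] at h1
      have h3 : s₀ * (τ ^ 4 + η * Real.sqrt τ) ≤ θ * (τ ^ 3 * Real.sqrt τ + η) := by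
        refine le_trans (le_of_eq ?_) (mul_le_mul_of_nonneg_right h1 (by positivity))
        rw [show s₀ * Real.sqrt τ * (τ ^ 3 * Real.sqrt τ + η) =
          s₀ * (τ ^ 3 * Real.sqrt τ ^ 2 + η * Real.sqrt τ) by ring, Real.sq_sqrt hτ.le]
        ring
      calc M₁ * (τ ^ 4 + η * Real.sqrt τ)
          ≤ Cc * M₁ * s₀ * (τ ^ 4 + η * Real.sqrt τ) := by
            refine mul_le_mul_of_nonneg_right ?_ (by positivity)
            have := mul_le_mul_of_nonneg_right hsh.Cc_s hM₁0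
            linarith
        _ ≤ Cc * M₁ * lin η τ θ := by
            rw [mul_assoc]
            exact mul_le_mul_of_nonneg_left (h3.trans hlin.1) (by positivity)
        _ ≤ _ := le_add_of_nonneg_left (by positivity)
    · exact run.upper hf hfar htop.le hzd
  intro ν f hf x hx hxd
  rcases le_or_gt 0 (height x) with hz | hz
  · exact upper ν f hf x hx hz ((le_abs_self _).trans hxd)
  · have hm : height (mirror x) = -height x := height_mirror x
    have hn := norm_mirror x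
    have := upper ν f hf (mirror x) (by rw [hn]; exact hx) (by linarith)
      (by rw [hn, hm]; exact (neg_le_abs _).trans hxd)
    rw [hf.axial.2, hn, hm, neg_div, bd, lin_neg] at this
    simpa [bd, Setup.G, hn] using this

end Vale.Agent.P363.Ext.Growth
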