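import Vale.Agent.P363.Ext.Growth.CoreSteps

/-!
P363, Kohn-Sham side: `CoreStmt`. A value is its box average up to the oscillation, the box
average is that of the heat average of the late data up to the jump, and five traces on the plane
control the latter at the parabolic scale.
-/

noncomputable section

namespace Vale.Agent.P363.Ext.Growth

open MeasureTheory Filter Set
open scoped BigOperators Topology

/-- The conditions on the time hold for `8 (N + c) R τ ≤ 1` and large `R`. -/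
lemma coreTime_of_large (S : Setup) {w D c N δ ε : ℝ} (hw : 1 ≤ w) (hD : 1 ≤ D)
    (hc : c = 5 * w ^ 2) (hN : 10 * c ≤ N) (hδ : 0 < δ) (hδ' : δ ≤ 1 / 4) (hε : 0 < ε) :
    ∃ R₀ : ℝ, ∀ R τ : ℝ, R₀ ≤ R → 0 < τ → 8 * (N + c) * R * τ ≤ 1 →
      CoreTime S w D c N R δ τ ∧ Real.sqrt τ ≤ ε := by
  have hc1 : 1 ≤ c := by rw [hc]; nlinarith
  set e := min ε (δ / (4 * (D * c + w))) with he
  have he0 : 0 < e := by positivity
  refine ⟨max (S.R₁ + 1) (1 / e ^ 2), fun R τ hR hτ hτR => ?_⟩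
  simp only [max_le_iff] at hR
  obtain ⟨hR1, hRe⟩ := hR
  have hR0 : 0 < R := by linarith [one_le_R₁ S]
  have hNc : 1 ≤ 8 * (N + c) := by linarith
  have h1 : R * τ ≤ 1 := le_trans (mul_le_mul_of_nonneg_right
    (le_mul_of_one_le_left hR0.le hNc) hτ.le) hτR
  have hse : Real.sqrt τ ≤ e := by
    refine (Real.sqrt_le_left he0.le).2 ?_
    rw [div_le_iff₀ (by positivity)] at hRe
    nlinarith [mul_le_mul_of_nonneg_left h1 (sq_nonneg e), mul_le_mul_of_nonneg_left hRe hτ.le]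
  set s := Real.sqrt τ
  have hs0 : 0 ≤ s := Real.sqrt_nonneg _
  have hsum : s * (4 * (D * c + w)) ≤ δ :=
    (le_div_iff₀ (by positivity)).1 (hse.trans (min_le_right _ _))
  have a1 : s * w ≤ δ / 4 := by
    linarith [mul_nonneg hs0 (mul_nonneg (zero_le_one.trans hD) (zero_le_one.trans hc1))]
  have a2 : s * (D * c) ≤ δ / 4 := by linarith [mul_nonneg hs0 (zero_le_one.trans hw)]
  have hs1 : s ≤ 1 := le_trans (le_mul_of_one_le_right hs0 hw) (by linarith)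
  have hτs : τ ≤ s := Real.le_sqrt_of_sq_le (by
    have : τ ≤ 1 := le_trans (le_mul_of_one_le_left hτ.le (by linarith [one_le_R₁ S])) h1
    nlinarith)
  have a3 : D * (c * τ) ≤ δ / 4 :=
    le_trans (mul_le_mul_of_nonneg_left (mul_le_mul_of_nonneg_left hτs (by linarith))
      (by linarith)) (by linarith)
  have a4 : c * τ ≤ δ / 4 :=
    le_trans (le_mul_of_one_le_left (by positivity) hD) a3
  have hcR : 0 ≤ c * R * τ := by positivity
  have hNR : 0 ≤ N * R * τ := mul_nonneg (mul_nonneg (by linarith) hR0.le) hτ.le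
  exact ⟨⟨hτ, hw, hD, hc, hN, by linarith, hδ', by linarith, by linarith, by linarith, a4,
    by linarith⟩, hse.trans (min_le_left _ _)⟩

/-- The trace bound from its three parts. -/
lemma trace_sum {A q K M u c₄ X Y Z v : ℝ} (hc : 1 ≤ c₄) (hA : 0 ≤ A) (hq : 0 ≤ q) (hK : 0 ≤ K)
    (hM : 0 ≤ M) (hu : 0 ≤ u) (hv : v ≤ c₄ * u) (hX : X ≤ q * (K + M) * u)
    (hY : Y ≤ (A + q * M) * v + q * (K + M) * v) (hZ : Z ≤ (K + M * q) * v) :
    X + Y + Z ≤ c₄ * ((A + K + 2 * q * K) + 4 * q * M) * u := by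
  have b1 : q * (K + M) * u ≤ c₄ * (q * (K + M) * u) :=
    le_mul_of_one_le_left (by positivity) hc
  have b2 := mul_le_mul_of_nonneg_left hv (by positivity :
    (0 : ℝ) ≤ A + q * M + q * (K + M) + (K + M * q))
  linarith

/-- The share of the expansion remainder. -/
lemma node_share {Cn Cd Ad w N τ K M u q : ℝ} (hCn : 0 ≤ Cn) (hτ : 0 < τ) (hN : 0 < N)
    (hKu : 0 ≤ (K + M) * u) (hA : Ad ≤ Cd * (K + M) * (N ^ 4 * u))
    (hq : Cn * Cd * w ^ 10 / N ≤ q / 8) :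
    Cn * (Ad * (w ^ 2 * τ / (N * τ)) ^ 5) ≤ q / 8 * (K + M) * u := by
  have e : (w ^ 2 * τ / (N * τ)) ^ 5 = w ^ 10 / N ^ 5 := by
    rw [mul_div_mul_right _ _ hτ.ne', div_pow]; ring
  have h0 : 0 ≤ w ^ 10 / N ^ 5 :=
    div_nonneg (by rw [show w ^ 10 = (w ^ 5) ^ 2 by ring]; exact sq_nonneg _) (pow_nonneg hN.le 5)
  rw [e]
  calc Cn * (Ad * (w ^ 10 / N ^ 5)) ≤ Cn * (Cd * (K + M) * (N ^ 4 * u) * (w ^ 10 / N ^ 5)) :=
        mul_le_mul_of_nonneg_left (mul_le_mul_of_nonneg_right hA h0) hCn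
    _ = Cn * Cd * w ^ 10 / N * ((K + M) * u) := by field_simp
    _ ≤ q / 8 * ((K + M) * u) := mul_le_mul_of_nonneg_right hq hKu
    _ = _ := by ring

/-- The value from its parts. -/
lemma value_sum {A q q₁ p Cn c₄ K M u V B sc x : ℝ} (hq₁ : 0 ≤ q₁) (hq : 0 ≤ q) (hK : 0 ≤ K)
    (hM : 0 ≤ M) (hu : 0 ≤ u) (he : q₁ * (p + 1 + 4 * Cn * c₄) = q / 2) (hsc : sc ≤ p * u)
    (hV : V ≤ Cn * B + q / 8 * (K + M) * u)
    (hB : B = c₄ * ((A + K + 2 * q₁ * K) + 4 * q₁ * M) * u)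
    (hx : x ≤ V + ((A + q₁ * M) * u + q₁ * (K + M) * sc)) :
    x ≤ ((q₁ * p + q / 8) * K + A + Cn * c₄ * (A + K + 2 * q₁ * K) + q * M) * u := by
  have hs2 := mul_le_mul_of_nonneg_left hsc (by positivity : (0 : ℝ) ≤ q₁ * (K + M))
  have hqM : (q₁ * (p + 1 + 4 * Cn * c₄) + q / 8) * (M * u) ≤ q * (M * u) := by
    rw [he]; exact mul_le_mul_of_nonneg_right (by linarith) (by positivity)
  rw [hB] at hV
  linarith

/-- The core. -/
theorem core (hJ : JumpEstStmt) (hO : OscStmt) : CoreStmt := by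
  intro S Sw K q hSw hK hq
  have hκ : 0 < S.κ := by
    have := S.data.a_pos
    rw [Setup.κ]; positivity
  obtain ⟨Cn', hnode⟩ := Heat.node S.κ hκ 10
  obtain ⟨Cd, hCd, hdata⟩ := exists_late_data
  obtain ⟨Ca, hCa, hlip⟩ := exists_avg_lip hκ 10
  set Cn := |Cn'| with hCn
  set w := Sw + 1 with hw
  set c := 5 * w ^ 2 with hc
  have hw1 : 1 ≤ w := by linarith
  have hc1 : 1 ≤ c := by nlinarith
  set c4 := c ^ 4 with hc4
  have hc41 : 1 ≤ c4 := one_le_pow₀ hc1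
  set N := max (10 * c) (Cn * Cd * w ^ 10 * (8 / q)) with hNdef
  have hN10 : 10 * c ≤ N := le_max_left _ _
  have hN1 : 1 ≤ N := by linarith
  have hN0 : 0 < N := by linarith
  have hNq : Cn * Cd * w ^ 10 / N ≤ q / 8 := by
    rw [div_le_iff₀ hN0]
    have h := le_max_right (10 * c) (Cn * Cd * w ^ 10 * (8 / q))
    rw [← hNdef] at h
    calc Cn * Cd * w ^ 10 = q / 8 * (Cn * Cd * w ^ 10 * (8 / q)) := by field_simp
      _ ≤ q / 8 * N := mul_le_mul_of_nonneg_left h (by positivity)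
  set p := (1 + Sw) ^ 8 with hp
  set q₁ := q / (2 * (p + 1 + 4 * Cn * c4)) with hq₁
  have hq1 : 0 < q₁ := by positivity
  have hq1e : q₁ * (p + 1 + 4 * Cn * c4) = q / 2 := by
    have : 0 < p + 1 + 4 * Cn * c4 := by positivity
    rw [hq₁]; field_simp
  obtain ⟨D₀, hJ⟩ := hJ S Sw K N q₁ hSw hK (by linarith) hq1
  set D := max D₀ 1
  have hD1 : 1 ≤ D := le_max_right _ _
  obtain ⟨δJ, hδJ, hJ⟩ := hJ D (le_max_left _ _) hD1
  obtain ⟨δO, hδO, hO⟩ := hO S D q₁ hD1 hq1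
  refine ⟨min (min δJ δO) (1 / 4), by positivity, fun δ hδ hδ' => ?_⟩
  simp only [le_min_iff] at hδ'
  obtain ⟨⟨hδ1, hδ2⟩, hδ3⟩ := hδ'
  obtain ⟨RJ, hJ⟩ := hJ δ hδ hδ1
  set A₁ := q₁ * (1 + K) with hA₁
  obtain ⟨RO, hO⟩ := hO δ hδ hδ2
  set G := Ca * Cd * N ^ 4 * (D * c ^ 2 + c) with hG
  obtain ⟨RT, hRT⟩ := coreTime_of_large S hw1 hD1 hc hN10 hδ hδ3
    (ε := q₁ / (G + c)) (by positivity)
  refine ⟨max (max RJ RO) RT, 8 * (N + c),
    (q₁ * p + q / 8) * K + |A₁| + Cn * c4 * (|A₁| + K + 2 * q₁ * K), by linarith,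
    fun R M η hP hL ν f hf τ θ hτ hτR hθ => ?_⟩
  have hR := hP.R_ge
  simp only [max_le_iff] at hR
  obtain ⟨⟨hRJ, hRO⟩, hR'⟩ := hR
  obtain ⟨hct, hse⟩ := hRT R τ hR' hτ hτR
  have hPJ : Params RJ δJ δ R M η := ⟨hδ, hδ1, hRJ, hP.M_nonneg, hP.η_nonneg, hP.η_le⟩
  have hPO : Params RO δO δ R M η := ⟨hδ, hδ2, hRO, hP.M_nonneg, hP.η_nonneg, hP.η_le⟩
  have hM := hP.M_nonneg
  have hη := hP.η_nonneg
  set s := Real.sqrt τ with hs
  have hse1 : s * (G + c) ≤ q₁ := (le_div_iff₀ (by positivity)).1 hse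
  have hs0 : 0 ≤ s := Real.sqrt_nonneg _
  have hsG : G * s ≤ q₁ := by linarith [mul_nonneg hs0 (zero_le_one.trans hc1)]
  have hsc : c * s ≤ q₁ := by linarith [mul_nonneg hs0 (show (0 : ℝ) ≤ G by positivity)]
  set T := N * τ with hT
  have hT0 : 0 < T := hct.data_pos
  have hTR := hct.late
  have hRpos : 0 < R := by linarith [hct.one_R]
  set g := late S f δ T with hg
  set u := τ ^ 4 + η * s with hu
  have hu0 : 0 ≤ u := by positivity
  set Ad := Cd * (K + M) * (T ^ 4 + η * Real.sqrt T) with hAd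
  have hgd : Heat.LateData g 10 T Ad :=
    hdata S δ R K M η T hδ hδ3 hct.R_gt hK hM hη hT0 (by linarith [mul_pos hT0 hRpos]) hL ν f hf
  have hAd' : Ad ≤ Cd * (K + M) * (N ^ 4 * u) :=
    mul_le_mul_of_nonneg_left (core_size_le hη hT0.le hN1 le_rfl) (by positivity)
  set ρ := w * s with hρdef
  have hρ : 0 < ρ := mul_pos (by linarith) (Real.sqrt_pos.2 hτ)
  have hρ2 : ρ ^ 2 = w ^ 2 * τ := by rw [hρdef, mul_pow, hs, Real.sq_sqrt hτ.le]
  have hjump : ∀ t θ' : ℝ, 0 < t → τ ≤ t → t ≤ c * τ → |θ'| ≤ Sw * Real.sqrt t →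
      |(∫ z : ℝ × ℝ, tred S f z.1 z.2 * box D t θ' z.1 z.2) -
        ∫ z : ℝ × ℝ, box D t θ' z.1 z.2 * Heat.heatAvg S.κ g 0 z.1 z.2| ≤
      (|A₁| + q₁ * M) * (t ^ 4 + η * Real.sqrt t) := fun t θ' ht0 ht ht' hθ' => by
    have e1 : 10 * t ≤ T := by
      linarith [mul_le_mul_of_nonneg_right hN10 hτ.le]
    have e2 : T ≤ N * t := mul_le_mul_of_nonneg_left ht hN0.le
    refine (hJ R M η hPJ hL ν f hf t θ' T ht0 hθ' e1 e2 hTR).trans ?_
    refine mul_le_mul_of_nonneg_right ?_ (by positivity)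
    linarith [le_abs_self A₁]
  have hosc : ∀ t θ' : ℝ, 0 < t → t ≤ c * τ → |θ'| ≤ δ / 4 → ∀ σ y : ℝ,
      |σ - t| ≤ D * t ^ 2 → |y - θ'| ≤ t →
      |tred S f σ y - tred S f t θ'| ≤ q₁ * (K + M) * scale η t θ' :=
    fun t θ' ht0 ht' hθ' σ y =>
      hO R K M η hPO hK hL ν f hf t θ' σ y ht0 (hct.early_le ht') hθ'
  -- the traces
  set B := c4 * ((|A₁| + K + 2 * q₁ * K) + 4 * q₁ * M) * u with hB
  have htrace : ∀ j : Fin 5, |Heat.heatAvg S.κ g 0 (((j : ℕ) + 1) * ρ ^ 2) 0| ≤ B := by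
    intro j
    set t := (((j : ℕ) : ℝ) + 1) * ρ ^ 2 with ht
    have hj5 : ((j : ℕ) : ℝ) + 1 ≤ 5 := by
      have : ((j : ℕ) : ℝ) ≤ 4 := by exact_mod_cast (by omega : (j : ℕ) ≤ 4)
      linarith
    have ht1 : τ ≤ t := by
      rw [ht, hρ2]
      exact le_trans (le_mul_of_one_le_left hτ.le (one_le_pow₀ hw1))
        (le_mul_of_one_le_left (by positivity) (le_add_of_nonneg_left (Nat.cast_nonneg _)))
    have ht2 : t ≤ c * τ := by
      rw [ht, hρ2, hc, mul_assoc 5]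
      exact mul_le_mul_of_nonneg_right hj5 (by positivity)
    have ht0 : 0 < t := hτ.trans_le ht1
    have hst : Real.sqrt t ≤ q₁ := by
      refine ((Real.sqrt_le_sqrt ht2).trans_eq (Real.sqrt_mul (by linarith) τ)).trans ?_
      refine (mul_le_mul_of_nonneg_right ((Real.sqrt_le_left (by linarith)).2
        (le_self_pow₀ hc1 two_ne_zero)) hs0).trans hsc
    have a0 := hct.trace_le hf hκ hgd hCa (hlip g T Ad hgd) ht0 ht2
      (hjump t 0 ht0 ht1 ht2 (by rw [abs_zero]; positivity))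
      (hosc t 0 ht0 ht2 (by rw [abs_zero]; positivity))
    rw [show scale η t 0 = t ^ 4 + η * Real.sqrt t by
      simp only [scale, abs_zero, add_zero]
      rw [show 8 = 2 * 4 from rfl, pow_mul, Real.sq_sqrt ht0.le]] at a0
    have a2 : Ca * Ad * ((D * c ^ 2 + c) * Real.sqrt τ) ≤ q₁ * (K + M) * u :=
      calc Ca * Ad * ((D * c ^ 2 + c) * s)
          ≤ Ca * (Cd * (K + M) * (N ^ 4 * u)) * ((D * c ^ 2 + c) * s) :=
            mul_le_mul_of_nonneg_right (mul_le_mul_of_nonneg_left hAd' hCa) (by positivity)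
        _ = G * s * ((K + M) * u) := by rw [hG]; ring
        _ ≤ q₁ * ((K + M) * u) := mul_le_mul_of_nonneg_right hsG (by positivity)
        _ = _ := by ring
    have a3 : |tred S f t 0| ≤ (K + M * q₁) * (t ^ 4 + η * Real.sqrt t) := by
      refine (hL.tred_le hf ht0 ?_ (by rw [abs_zero]; exact hδ.le) (by linarith)).trans
        ((bd_plane_le hM hη hK ht0.le (ht2.trans hct.time_le)).trans (mul_le_mul_of_nonneg_right
          (add_le_add le_rfl (mul_le_mul_of_nonneg_left hst hM)) (by positivity)))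
      linarith [hct.early_le ht2, mul_pos hRpos ht0]
    exact a0.trans (trace_sum hc41 (abs_nonneg _) hq1.le hK hM hu0
      (core_size_le hη ht0.le hc1 ht2) a2 le_rfl a3)
  -- the value
  have hρT : 10 * ρ ^ 2 ≤ T := by
    rw [hρ2, hT, ← mul_assoc]
    refine mul_le_mul_of_nonneg_right ?_ hτ.le
    linarith [sq_nonneg w]
  obtain ⟨hN1', -⟩ := hnode g T Ad B ρ hgd (late_even hf.axial δ T) hρ hρT htrace
  set V := Cn * (B + Ad * (ρ ^ 2 / T) ^ 5) with hV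
  have hB0 : 0 ≤ B + Ad * (ρ ^ 2 / T) ^ 5 := by
    have := hgd.A_nonneg
    positivity
  have a3 := hct.value_le hf hκ hgd (θ := θ) (V := V)
    (by rw [hw, add_sub_cancel_right]; exact hθ) (fun σ y h1 h2 h3 => by
      refine (hN1' σ y h1 h2 h3 0 (Nat.zero_le _)).trans ?_
      rw [pow_zero, div_one]
      exact mul_le_mul_of_nonneg_right (le_abs_self _) hB0)
    (hjump τ θ hτ le_rfl (le_mul_of_one_le_left hτ.le hc1) hθ)
    (hosc τ θ hτ (le_mul_of_one_le_left hτ.le hc1) (by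
      linarith [hct.para, hθ, hs0, show w * s = Sw * s + s by rw [hw]; ring]))
  have hVb : V ≤ Cn * B + q / 8 * (K + M) * u := by
    rw [hV, mul_add, hρ2, hT]
    exact add_le_add le_rfl
      (node_share (abs_nonneg _) hτ hN0 (by positivity) hAd' hNq)
  exact value_sum hq1.le hq.le hK hM hu0 hq1e (scale_le_core hη hτ.le hSw.le hθ) hVb hB a3

end Vale.Agent.P363.Ext.Growth
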