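import Vale.Agent.P363.Ext.Growth.JumpSpace

/-!
P363, `JumpEstStmt`: the term of the right hand side. On the window it is at most the potential
term and `O (1) P |u|`, which gains `τ`.
-/

noncomputable section

namespace Vale.Agent.P363.Ext.Growth

open MeasureTheory Filter Set
open scoped BigOperators Topology

/-- The right hand side of the equation of a profile, measurable on the whole space. -/
def profileRhs (S : Setup) (ν : ℝ) (f : Space → ℝ) (x : Space) : ℝ :=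
  2 * (S.v x - S.μ + centrifugal ν x) * (belt S.R₁).indicator f x

theorem profileRhs_eqn {S : Setup} {ν : ℝ} {f : Space → ℝ} (hf : Profile S ν f) :
    WeakPoisson (belt S.R₁) f (profileRhs S ν f) :=
  hf.eqn.congr_ae (isOpen_belt _) (Eventually.of_forall fun _ => rfl)
    ((ae_restrict_iff' (isOpen_belt _).measurableSet).2 (Eventually.of_forall fun x hx => by
      rw [profileRhs, indicator_of_mem hx]))

theorem measurable_profileRhs {S : Setup} {ν : ℝ} {f : Space → ℝ} (hf : Profile S ν f) :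
    Measurable (profileRhs S ν f) :=
  (((S.meas_v.sub_const _).add (measurable_centrifugal ν)).const_mul 2).mul
    (measurable_indicator_profile hf)

theorem profileRhs_rot {S : Setup} {ν : ℝ} {f : Space → ℝ} (hf : Profile S ν f) (φ : ℝ)
    (x : Space) : profileRhs S ν f (rot φ x) = profileRhs S ν f x := by
  have h2 : (rot φ x) 0 ^ 2 + (rot φ x) 1 ^ 2 = x 0 ^ 2 + x 1 ^ 2 := by
    have h := norm_sq_eq (rot φ x)
    have h' := norm_sq_eq x
    have hh : height (rot φ x) = height x := by simp [height]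
    rw [rot_norm, hh] at h
    linarith
  have hb : rot φ x ∈ belt S.R₁ ↔ x ∈ belt S.R₁ := by
    simp [belt, rot_norm, height]
  simp only [profileRhs, S.axial_v.1, centrifugal, h2]
  by_cases hx : x ∈ belt S.R₁
  · rw [indicator_of_mem hx, indicator_of_mem (hb.2 hx), hf.axial.1]
  · rw [indicator_of_notMem hx, indicator_of_notMem fun h => hx (hb.1 h)]

/-- The right hand side on the window. -/
theorem abs_rhs_le {S : Setup} {ν : ℝ} {f : Space → ℝ} (hf : Profile S ν f) {σ y : ℝ} (hσ : 0 < σ)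
    (hb : pt σ⁻¹ y ∈ belt S.R₁) (hy : y ^ 2 ≤ 1) :
    |Heat.rhs S.a S.k f (profileRhs S ν f) σ y| ≤
      2 * (|S.W (pt σ⁻¹ y)| * |tred S f σ y| / σ ^ 2) +
        (2 + |(S.k / S.a - 1) * (S.k / S.a)|) * |tred S f σ y| := by
  set x := pt σ⁻¹ y with hx
  have hn : ‖x‖ = σ⁻¹ := norm_pt (inv_pos.2 hσ).le hy
  set u := tred S f σ y with hu
  set c := (S.k / S.a - 1) * (S.k / S.a) with hc
  have hsh : shift S.a S.k σ⁻¹ = c * σ ^ 2 / 2 := by
    rw [shift, ← hc]; field_simp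
  have hcf : |centrifugal ν x * u| ≤ σ ^ 2 * |u| := by
    rcases hf.sector with h | h
    · rw [abs_mul]
      refine mul_le_mul_of_nonneg_right ((abs_centrifugal_le h hb).1.trans (le_of_eq ?_))
        (abs_nonneg _)
      rw [hn]; simp
    · have : u = 0 := by rw [hu, tred, red, h, zero_div]
      simp [this]
  have hred : red S.a S.k (profileRhs S ν f) σ⁻¹ y =
      2 * (S.v x - S.μ + centrifugal ν x) * u := by
    rw [red, profileRhs, ← hx, indicator_of_mem hb, hu, tred, red, ← hx]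
    ring
  have e : Heat.rhs S.a S.k f (profileRhs S ν f) σ y =
      (2 * (S.W x * u) + 2 * (centrifugal ν x * u) - c * σ ^ 2 * u) / σ ^ 2 := by
    rw [Heat.rhs, hred, hsh, show red S.a S.k f σ⁻¹ y = u from rfl, Setup.W, hn]
    ring
  have hσ2 : 0 < σ ^ 2 := by positivity
  rw [e, abs_div, abs_of_pos hσ2, div_le_iff₀ hσ2]
  refine (abs_sub _ _).trans ((add_le_add (abs_add_le _ _) le_rfl).trans ?_)
  have h1 : |c * σ ^ 2 * u| = |c| * σ ^ 2 * |u| := by rw [abs_mul, abs_mul, abs_of_pos hσ2]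
  have h2 : |2 * (S.W x * u)| = 2 * (|S.W x| * |u|) := by rw [abs_mul, abs_two, abs_mul]
  have h3 : |2 * (centrifugal ν x * u)| ≤ 2 * (σ ^ 2 * |u|) := by
    rw [abs_mul, abs_two]; exact mul_le_mul_of_nonneg_left hcf (by norm_num)
  rw [h1, h2, add_mul, mul_assoc 2 _ (σ ^ 2), div_mul_cancel₀ _ hσ2.ne']
  linarith

/-- The window lies in the belt. -/
theorem pt_window {S : Setup} {δ R τ T : ℝ} (hτ : 0 < τ) (hTR : 4 * T * R ≤ 1) (hR : S.R₁ ≤ R)
    (hδ : δ ≤ 1 / 4) {p : ℝ × ℝ} (hp : p ∈ Icc (τ / 4) (2 * T) ×ˢ Icc (-δ) δ) :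
    0 < p.1 ∧ p.1 < S.R₁⁻¹ ∧ |p.2| ≤ δ ∧ pt p.1⁻¹ p.2 ∈ belt S.R₁ := by
  have hR1 : 0 < S.R₁ := by linarith [one_le_R₁ S]
  obtain ⟨⟨h1, h2⟩, h3⟩ := hp
  have hy : |p.2| ≤ δ := abs_le.2 h3
  have hp1 : 0 < p.1 := by linarith
  have hlt : p.1 < S.R₁⁻¹ := by
    rw [inv_eq_one_div, lt_div_iff₀ hR1]
    have h : p.1 * R ≤ 2 * T * R := mul_le_mul_of_nonneg_right h2 (by linarith)
    linarith [mul_le_mul_of_nonneg_left hR hp1.le]
  exact ⟨hp1, hlt, hy,
    Heat.pt_mem_belt hR1.le ((lt_inv_comm₀ hR1 hp1).2 hlt) (by linarith)⟩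

/-- The term of the right hand side. -/
theorem rhs_part (hP : PotBoundStmt) (hW : WLoadStmt) (S : Setup) (Sw K N q : ℝ) (hSw : 0 < Sw)
    (hK : 0 ≤ K) (hN : 10 ≤ N) (hq : 0 < q) (D : ℝ) (hD : 1 ≤ D) :
    ∃ δ₀ : ℝ, 0 < δ₀ ∧ δ₀ ≤ 1 / 4 ∧ ∀ δ : ℝ, 0 < δ → δ ≤ δ₀ →
      ∃ R₀ : ℝ, S.R₁ ≤ R₀ ∧ ∀ R M η : ℝ, Params R₀ δ₀ δ R M η → Level S δ R K M η →
        ∀ (ν : ℝ) (f : Space → ℝ), Profile S ν f → ∀ τ θ T : ℝ, Window Sw N D τ θ T →
          4 * T * R ≤ 1 →
          |∫ p : ℝ × ℝ, Heat.cut (timeCut τ T) (cutθ δ) (boxPot S.κ D τ θ) p.1 p.2 *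
              Heat.rhs S.a S.k f (profileRhs S ν f) p.1 p.2| ≤
            q * (1 + K + M) * (τ ^ 4 + η * Real.sqrt τ) := by
  have hκ : 0 < S.κ := one_div_pos.2 (by linarith [S.data.a_pos])
  obtain ⟨Cp, hCp, hp⟩ := hP S.κ Sw N hκ hSw hN
  obtain ⟨Cu, hCu, hu⟩ := exists_tred_le hN
  obtain ⟨δ₁, hδ₁, W⟩ := hW S Sw K N (q / 4) hSw hK hN (by linarith) D hD
  set B := 2 + |(S.k / S.a - 1) * (S.k / S.a)| with hB
  set Z := B * Cu * Cp with hZ
  have hZ0 : 0 ≤ Z := by positivity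
  refine ⟨min δ₁ (1 / 4), lt_min hδ₁ (by norm_num), min_le_right _ _, fun δ hδ hδle => ?_⟩
  obtain ⟨R₁, W⟩ := W δ hδ (hδle.trans (min_le_left _ _))
  refine ⟨max (max R₁ S.R₁) (Z / q), (le_max_right _ _).trans (le_max_left _ _),
    fun R M η hpar hL ν f hf τ θ T hWin hTR => ?_⟩
  obtain ⟨hd0, hd, hR, hM, hη, hη1⟩ := hpar
  simp only [max_le_iff] at hR
  simp only [le_min_iff] at hd
  obtain ⟨iW, eW⟩ := W R M η ⟨hd0, hd.1, hR.1.1, hM, hη, hη1⟩ hL ν f hf τ θ T hWin hTR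
  have hτ := hWin.τ_pos
  have hT : 0 < T := by linarith [hWin.T_ge]
  have hD0 : 0 < D := by linarith
  have hR1 := one_le_R₁ S
  have hR0 : 0 < R := by linarith [hR.1.2]
  set P := boxPot S.κ D τ θ with hPd
  set Q : Set (ℝ × ℝ) := Icc (τ / 4) (2 * T) ×ˢ Icc (-δ) δ with hQ
  have hQm : MeasurableSet Q := measurableSet_Icc.prod measurableSet_Icc
  have hgeo := fun p => pt_window (S := S) hτ hTR hR.1.2 hd.2 (p := p)
  set Φw := fun p : ℝ × ℝ => 2 * (P p.1 p.2 * |S.W (pt p.1⁻¹ p.2)| * |tred S f p.1 p.2| / p.1 ^ 2)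
    with hΦw
  set E := τ ^ 4 + η * Real.sqrt τ with hE
  have hE0 : 0 ≤ E := by positivity
  have hI : IntegrableOn (fun p : ℝ × ℝ => wt τ p.2 * |P p.1 p.2|) (Iic (2 * T) ×ˢ univ) :=
    (boxPot_integrable hκ hD0 hτ θ (2 * T)).1
  have hQs : Q ⊆ Iic (2 * T) ×ˢ univ := fun p hp => ⟨hp.1.2, trivial⟩
  set Φp := fun p : ℝ × ℝ => B * (Cu * (K + M) * E) * (wt τ p.2 * |P p.1 p.2|) with hΦp
  have iP : IntegrableOn Φp Q := (hI.mono_set hQs).const_mul _
  have iM : IntegrableOn (fun p => Φw p + Φp p) Q :=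
    (iW.const_mul 2).add iP
  have hpt : ∀ p : ℝ × ℝ, ‖Heat.cut (timeCut τ T) (cutθ δ) P p.1 p.2 *
      Heat.rhs S.a S.k f (profileRhs S ν f) p.1 p.2‖ ≤ Q.indicator (fun p => Φw p + Φp p) p := by
    intro p
    by_cases hp : p ∈ Q
    swap
    · rw [indicator_of_notMem hp, Heat.cut]
      rcases not_and_or.1 (show ¬(p.1 ∈ Icc (τ / 4) (2 * T) ∧ p.2 ∈ Icc (-δ) δ) from hp) with h | h
      · simp [timeCut_zero hτ hT h]
      · have : δ ≤ |p.2| := by
          by_contra hn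
          exact h (abs_le.1 (not_le.1 hn).le)
        simp [Asymp.cutθ_zero hd0 this]
    obtain ⟨hp1, -, hy, hb⟩ := hgeo p hp
    have hP0 : 0 ≤ P p.1 p.2 := boxPot_nonneg hD0.le hτ.le _ _ _
    have hy2 : p.2 ^ 2 ≤ 1 := by
      rw [← sq_abs]; exact pow_le_one₀ (abs_nonneg _) (by linarith [hd.2])
    have hr := abs_rhs_le hf hp1 hb hy2
    have hcut : |Heat.cut (timeCut τ T) (cutθ δ) P p.1 p.2| ≤ P p.1 p.2 := by
      rw [Heat.cut, abs_mul, abs_mul, abs_of_nonneg hP0]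
      exact mul_le_of_le_one_left hP0 (mul_le_one₀ (abs_timeCut_le _ _ _) (abs_nonneg _)
        (Asymp.abs_cutθ_le _ _))
    have hub := hu S δ R K M η ν f hL hf hK hM hη (by linarith [hd.2]) τ T p.1 p.2 hτ hWin.T_le
      hWin.small hTR hR0 hp.1.1 hp.1.2 hy
    rw [indicator_of_mem hp, norm_mul, Real.norm_eq_abs, Real.norm_eq_abs]
    refine (mul_le_mul hcut hr (abs_nonneg _) hP0).trans ?_
    rw [← hB]
    have hx : (1 + |p.2| / Real.sqrt τ) ^ 8 ≤ wt τ p.2 :=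
      pow_le_pow_right₀ (le_add_of_nonneg_right (by positivity)) (by norm_num)
    simp only [hΦw, hΦp, abs_of_nonneg hP0]
    rw [mul_add]
    refine add_le_add (le_of_eq (by ring)) ?_
    calc P p.1 p.2 * (B * |tred S f p.1 p.2|)
        ≤ P p.1 p.2 * (B * (Cu * (K + M) * E * wt τ p.2)) := by
          refine mul_le_mul_of_nonneg_left (mul_le_mul_of_nonneg_left
            (hub.trans (mul_le_mul_of_nonneg_left hx ?_)) (by positivity)) hP0
          positivity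
      _ = _ := by ring
  rw [← Real.norm_eq_abs]
  refine (norm_integral_le_of_norm_le ((integrable_indicator_iff hQm).2 iM)
    (Eventually.of_forall hpt)).trans ?_
  rw [integral_indicator hQm]
  refine (integral_add (iW.const_mul 2) iP).trans_le ?_
  have h1 : ∫ p in Q, Φw p ≤ 2 * (q / 4 * (1 + K + M) * E) := by
    rw [hΦw, integral_const_mul]
    exact mul_le_mul_of_nonneg_left eW (by norm_num)
  have h2 : ∫ p in Q, Φp p ≤ B * (Cu * (K + M) * E) * (Cp * τ) := by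
    rw [hΦp, integral_const_mul]
    refine mul_le_mul_of_nonneg_left ((setIntegral_mono_set hI
      (Eventually.of_forall fun p => mul_nonneg (wt_nonneg _ _) (abs_nonneg _))
      hQs.eventuallyLE).trans (hp D τ θ T hWin).2.1) (by positivity)
  refine (add_le_add h1 h2).trans ?_
  have hsmall : Z * τ ≤ q / 4 := by
    have h40 : 40 * τ * R ≤ 1 := le_trans (by nlinarith [hWin.T_ge]) hTR
    have hZR : Z ≤ R * q := (div_le_iff₀ hq).1 hR.2
    nlinarith [mul_le_mul_of_nonneg_right hZR hτ.le]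
  calc 2 * (q / 4 * (1 + K + M) * E) + B * (Cu * (K + M) * E) * (Cp * τ)
      = q / 2 * (1 + K + M) * E + Z * τ * ((K + M) * E) := by rw [hZ]; ring
    _ ≤ q / 2 * (1 + K + M) * E + q / 4 * ((1 + K + M) * E) := by
        gcongr; linarith
    _ ≤ _ := by nlinarith [mul_nonneg (by positivity : 0 ≤ q * (1 + K + M)) hE0]

end Vale.Agent.P363.Ext.Growth
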