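import Vale.Agent.P363.Ext.Growth.JumpCurv
import Vale.Agent.P363.Ext.Growth.JumpRhs
import Vale.Agent.P363.Ext.Polar

/-!
P363, `JumpEstStmt`: the jump identity with the potential of the box. The dual of the time cut-off
at `[T, 2 T]` is the heat average of the late data; the other cut-off meets the potential before
the box starts.
-/

noncomputable section

namespace Vale.Agent.P363.Ext.Growth

open MeasureTheory Filter Set
open scoped BigOperators Topology

/-- The jump identity for the box, rearranged. -/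
theorem jump_rewrite {S : Setup} {ν : ℝ} {f : Space → ℝ} (hf : Profile S ν f)
    {Sw N D δ R τ θ T : ℝ} (hW : Window Sw N D τ θ T) (hTR : 4 * T * R ≤ 1) (hR : S.R₁ ≤ R)
    (hδ : 0 < δ) (hδ4 : δ ≤ 1 / 4) (hfit : (|Sw| + 1) * Real.sqrt τ ≤ δ / 2) :
    (∫ p : ℝ × ℝ, tred S f p.1 p.2 * box D τ θ p.1 p.2) -
        ∫ p : ℝ × ℝ, box D τ θ p.1 p.2 * Heat.heatAvg S.κ (late S f δ T) 0 p.1 p.2 =
      (2 * S.a)⁻¹ *
        ((∫ p : ℝ × ℝ, tred S f p.1 p.2 *
              Heat.cutErr (timeCut τ T) (cutθ δ) (boxPot S.κ D τ θ) p.1 p.2) +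
          (∫ p : ℝ × ℝ, tred S f p.1 p.2 *
              Heat.timeOp S.a S.k (Heat.cut (timeCut τ T) (cutθ δ) (boxPot S.κ D τ θ)) p.1 p.2) -
          ∫ p : ℝ × ℝ, Heat.cut (timeCut τ T) (cutθ δ) (boxPot S.κ D τ θ) p.1 p.2 *
              Heat.rhs S.a S.k f (profileRhs S ν f) p.1 p.2) := by
  have ha := S.data.a_pos
  have hκ : 0 < S.κ := one_div_pos.2 (by linarith)
  obtain ⟨hτ, hθ, hT10, hTN, hD, hbox, hT4⟩ := hW
  have hD0 : 0 < D := by linarith
  have hT : 0 < T := by linarith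
  have hR1 := one_le_R₁ S
  have hb4 : 4 * (D * τ ^ 2) ≤ τ :=
    calc 4 * (D * τ ^ 2) = 4 * D * τ * τ := by ring
      _ ≤ τ := mul_le_of_le_one_left hτ.le hbox
  have hsrc := source_box hD0 hτ θ
  obtain ⟨hsm, heat, hzero, -⟩ := Heat.potProps S.κ hκ _ _ _ hsrc
  have hgeo := fun p => pt_window (S := S) hτ hTR hR hδ4 (p := p)
  have htΦ : tsupport (timeCut τ T) ⊆ Ioo 0 S.R₁⁻¹ ∩ univ := fun σ hσ => by
    obtain ⟨h1, h2, -⟩ := hgeo (σ, 0)
      ⟨tsupport_timeCut hτ hT hσ, by constructor <;> linarith⟩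
    exact ⟨⟨h1, h2⟩, trivial⟩
  have htχ : tsupport (cutθ δ) ⊆ Ioo (-(1 / 2)) (1 / 2) := fun y hy => by
    obtain ⟨h1, h2⟩ := tsupport_cutθ hδ hy
    constructor <;> linarith
  have hJ := Heat.jump identityStmt S.a S.k S.R₁ ha hR1 f (profileRhs S ν f) hf.continuousOn
    hf.axial.1 (profileRhs_rot hf) (measurable_profileRhs hf) (profileRhs_eqn hf)
    (timeCut τ T) (cutθ δ) (boxPot S.κ D τ θ) (box D τ θ) univ isOpen_univ
    (contDiff_timeCut τ T) (HasCompactSupport.intro isCompact_Icc fun σ hσ =>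
      timeCut_zero hτ hT hσ) htΦ
    (Asymp.contDiff_cutθ δ) (HasCompactSupport.intro (isCompact_Icc (a := -δ) (b := δ))
      fun y hy => Asymp.cutθ_zero hδ (not_lt.1 fun h => hy (abs_le.1 h.le))) htχ
    hsm.contDiffOn hsrc.smooth.continuous (fun σ _ y => heat σ y)
  have e1 : (fun p : ℝ × ℝ => red S.a S.k f p.1⁻¹ p.2 *
      Heat.cut (timeCut τ T) (cutθ δ) (box D τ θ) p.1 p.2) =
      fun p => tred S f p.1 p.2 * box D τ θ p.1 p.2 := by
    funext p
    rcases eq_or_ne (box D τ θ p.1 p.2) 0 with h | h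
    · simp [Heat.cut, h]
    obtain ⟨h1, h2⟩ := box_supp hD0 hτ h
    rw [abs_le] at h1
    have hy : |p.2| ≤ δ / 2 := by
      have hs : τ ≤ Real.sqrt τ :=
        Real.le_sqrt_of_sq_le (by rw [sq]; exact mul_le_of_le_one_left hτ.le (by linarith))
      have h3 : |p.2| ≤ |θ| + |p.2 - θ| := by simpa using abs_add_le θ (p.2 - θ)
      have h4 : |θ| ≤ |Sw| * Real.sqrt τ :=
        hθ.trans (mul_le_mul_of_nonneg_right (le_abs_self _) (Real.sqrt_nonneg τ))
      rw [add_mul, one_mul] at hfit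
      linarith
    rw [Heat.cut, timeCut_one hτ hT (by linarith) (by linarith), Asymp.cutθ_one hδ hy]
    simp [tred]
  have e2 : (fun p : ℝ × ℝ => red S.a S.k f p.1⁻¹ p.2 *
      Heat.cut (deriv (timeCut τ T)) (cutθ δ) (boxPot S.κ D τ θ) p.1 p.2) =
      fun p => -(late S f δ T p * Heat.pot S.κ (box D τ θ) p.1 p.2) := by
    funext p
    simp only [Heat.cut, deriv_timeCut hτ hT10, late, tred, boxPot]
    by_cases hm : p.1 ∈ Icc (τ / 4) (2 * (τ / 4))
    · rw [hzero p.1 p.2 (by linarith [hm.2])]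
      ring
    · rw [Asymp.deriv_downT_zero (by linarith) hm]
      ring
  have hlate : Integrable (late S f δ T) := by
    refine Heat.integrable_of_zero_off (V := Ioo 0 S.R₁⁻¹ ×ˢ Ioo (-(1 / 2)) (1 / 2))
      (C := Icc T (2 * T) ×ˢ Icc (-δ) δ) (isOpen_Ioo.prod isOpen_Ioo)
      (isCompact_Icc.prod isCompact_Icc) (fun p hp => ?_)
      (((((Asymp.contDiff_downT (n := 1) T).continuous_deriv le_rfl).comp
        continuous_fst).neg.mul ((Asymp.contDiff_cutθ (n := 0) δ).continuous.comp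
          continuous_snd)).continuousOn.mul (Heat.continuousOn_red hR1 hf.continuousOn))
      fun p hp => ?_
    · obtain ⟨h1, h2, -⟩ := hgeo p ⟨⟨by linarith [hp.1.1], hp.1.2⟩, hp.2⟩
      exact ⟨⟨h1, h2⟩, by linarith [hp.2.1], by linarith [hp.2.2]⟩
    · rcases not_and_or.1 hp with h | h
      · simp [late, Asymp.deriv_downT_zero hT h]
      · simp [late, Asymp.cutθ_zero hδ (not_lt.1 fun hn => h (abs_le.1 hn.le))]
  have hdual := Heat.dual S.κ hκ (box D τ θ) _ _ T (late S f δ T) hsrc (by linarith) hlate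
    fun p hp => by
      by_contra hn
      exact hp (by simp [late, Asymp.deriv_downT_zero hT fun hm => hn hm.1])
  simp only [e1, e2, integral_neg, hdual] at hJ
  rw [eq_inv_mul_iff_mul_eq₀ (by positivity)]
  simp only [tred] at hJ ⊢
  linarith

/-- The averaged value against the heat average of later data. -/
theorem jumpEst_of (hC : CurvStmt) (hP : PotBoundStmt) (hW : WLoadStmt) : JumpEstStmt := by
  intro S Sw K N q hSw hK hN hq
  have ha := S.data.a_pos
  set c := (2 * S.a)⁻¹ with hc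
  have hc0 : 0 < c := by positivity
  set q' := q / (2 * c) with hq'
  have hq'0 : 0 < q' := by positivity
  obtain ⟨D₀, hCv⟩ := hC S Sw K N q' hSw hK hN hq'0
  refine ⟨D₀, fun D hD0 hD1 => ?_⟩
  obtain ⟨δ₁, hδ₁, hCv⟩ := hCv D hD0 hD1
  obtain ⟨δ₂, hδ₂, hδ₂4, hRh⟩ := rhs_part hP hW S Sw K N q' hSw hK hN hq'0 D hD1
  refine ⟨min δ₁ δ₂, lt_min hδ₁ hδ₂, fun δ hδ hδle => ?_⟩
  obtain ⟨R₁, hCv⟩ := hCv δ hδ (hδle.trans (min_le_left _ _))
  obtain ⟨R₂, hR₂, hRh⟩ := hRh δ hδ (hδle.trans (min_le_right _ _))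
  set r := δ / (2 * (|Sw| + 1)) with hr
  have hr0 : 0 < r := by positivity
  refine ⟨max (max R₁ R₂) (max D (r ^ 2)⁻¹),
    fun R M η hpar hL ν f hf τ θ T hτ hθ hT10 hTN hTR => ?_⟩
  obtain ⟨hd0, hd, hR, hM, hη, hη1⟩ := hpar
  simp only [max_le_iff] at hR
  simp only [le_min_iff] at hd
  obtain ⟨⟨hRa, hRb⟩, hRD, hRr⟩ := hR
  have hτR : 40 * τ * R ≤ 1 := by
    refine le_trans ?_ hTR
    refine mul_le_mul_of_nonneg_right ?_ (by linarith)
    linarith
  have hWin : Window Sw N D τ θ T := by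
    refine ⟨hτ, hθ, hT10, hTN, hD1, ?_, ?_⟩
    · have h := mul_le_mul_of_nonneg_left hRD hτ.le
      linarith [mul_nonneg hτ.le (show (0 : ℝ) ≤ D by linarith)]
    · refine le_trans ?_ hTR
      refine le_mul_of_one_le_right (by linarith) (by linarith)
  have hfit : (|Sw| + 1) * Real.sqrt τ ≤ δ / 2 := by
    have h1 : τ ≤ r ^ 2 := by
      have h := mul_le_mul_of_nonneg_left hRr hτ.le
      rw [← div_eq_mul_inv] at h
      have h2 : τ / r ^ 2 ≤ 1 := by
        linarith [mul_nonneg hτ.le (show (0 : ℝ) ≤ R by linarith)]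
      exact (div_le_one (by positivity)).1 h2
    calc (|Sw| + 1) * Real.sqrt τ ≤ (|Sw| + 1) * r := by
          refine mul_le_mul_of_nonneg_left ?_ (by positivity)
          exact (Real.sqrt_le_iff).2 ⟨hr0.le, h1⟩
      _ = δ / 2 := by rw [hr]; field_simp
  have hRS : S.R₁ ≤ R := hR₂.trans hRb
  rw [jump_rewrite hf hWin hTR hRS hd0 (hd.2.trans hδ₂4) hfit, abs_mul, abs_of_pos hc0]
  have h1 := hCv R M η ⟨hd0, hd.1, hRa, hM, hη, hη1⟩ hL ν f hf τ θ T hWin hTR
  have h2 := hRh R M η ⟨hd0, hd.2, hRb, hM, hη, hη1⟩ hL ν f hf τ θ T hWin hTR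
  refine (mul_le_mul_of_nonneg_left ((abs_sub _ _).trans ((add_le_add (abs_add_le _ _) le_rfl).trans
    (add_le_add h1 h2))) hc0.le).trans (le_of_eq ?_)
  rw [hq']
  field_simp
  ring

/-- `JumpEstStmt` from the excess part. -/
theorem jumpEst (hEx : ExcessStmt) : JumpEstStmt :=
  jumpEst_of (curvStmt_of potBound) potBound (wLoad potBound hEx)

end Vale.Agent.P363.Ext.Growth
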