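import Vale.Agent.P363.Ext.Growth.Basic

/-!
P363, Kohn-Sham side: `GrowthStmt` from the band, the barriers and the core. For every `η > 0` the
a priori bound gives some level; one step replaces `M` by at most `A + M / 2`; so the level
`2 A + 1` holds for every `η`, hence for `η = 0`.
-/

noncomputable section

namespace Vale.Agent.P363.Ext.Growth

open MeasureTheory Filter Set
open scoped BigOperators Topology

variable {S : Setup} {δ R K M M' η : ℝ}

lemma Level.mono_M (hR : 0 < R) (hη : 0 ≤ η) (h : Level S δ R K M η) (hM : M ≤ M') :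
    Level S δ R K M' η := by
  intro ν f hf x hx hz
  refine (h ν f hf x hx hz).trans (mul_le_mul_of_nonneg_left ?_
    (mul_nonneg (norm_nonneg x) (tailG_pos _ _ (hR.trans_le hx)).le))
  rw [bd, bd]
  exact add_le_add le_rfl (mul_le_mul_of_nonneg_right hM (lin_nonneg hη _ _))

lemma mem_belt_of_le {x : Space} (hR : S.R₁ + 1 ≤ R) (hδ : δ ≤ 1 / 4) (hx : R ≤ ‖x‖)
    (hz : |height x| ≤ δ * ‖x‖) : x ∈ belt S.R₁ := by
  have h0 : 0 < ‖x‖ := by linarith [one_le_R₁ S]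
  refine ⟨by linarith, ?_⟩
  nlinarith

/-- For every `η > 0` some level holds. -/
lemma exists_level (S : Setup) {δ R K η : ℝ} (hR : S.R₁ + 1 ≤ R) (hδ : δ ≤ 1 / 4) (hK : 0 ≤ K)
    (hη : 0 < η) : ∃ M : ℝ, 0 ≤ M ∧ Level S δ R K M η := by
  obtain ⟨C, hC, hap⟩ := exists_apriori S
  refine ⟨C / η, by positivity, fun ν f hf x hx hz => ?_⟩
  have hb := mem_belt_of_le hR hδ hx hz
  have hr : 1 ≤ ‖x‖ := by linarith [one_le_R₁ S]
  have h1 := hf.abs_le hb
  have h2 : Real.sqrt (S.n x - 2 * S.φ₀ x ^ 2 - S.φu x ^ 2) ≤ Real.sqrt (S.n x) :=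
    Real.sqrt_le_sqrt (by nlinarith [sq_nonneg (S.φ₀ x), sq_nonneg (S.φu x)])
  refine h1.trans (h2.trans ((hap x (by linarith)).trans (mul_le_mul_of_nonneg_left ?_
    (mul_nonneg (norm_nonneg x) (tailG_pos _ _ (by linarith)).le))))
  set τ := ‖x‖⁻¹
  set θ := height x / ‖x‖
  have hτ0 : 0 ≤ τ := inv_nonneg.2 (norm_nonneg x)
  have hτ1 : τ ≤ 1 := inv_le_one_of_one_le₀ hr
  have hθ : |θ| = |height x| / ‖x‖ := by rw [abs_div, abs_norm]
  have h42 : τ ^ 4 ≤ τ ^ 2 := pow_le_pow_of_le_one hτ0 hτ1 (by norm_num)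
  rw [bd, lin, ← hθ]
  have e : C * (|θ| + τ ^ 4) ≤ C / η * ((|θ| + τ ^ 2) * ((Real.sqrt τ + |θ|) ^ 7 + η)) := by
    calc C * (|θ| + τ ^ 4) ≤ C * (|θ| + τ ^ 2) := mul_le_mul_of_nonneg_left (by linarith) hC
      _ = C / η * ((|θ| + τ ^ 2) * η) := by field_simp
      _ ≤ _ := mul_le_mul_of_nonneg_left (mul_le_mul_of_nonneg_left
          (le_add_of_nonneg_left (by positivity)) (by positivity)) (by positivity)
  have hKτ : 0 ≤ K * τ ^ 4 := mul_nonneg hK (by positivity)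
  linarith

/-- The steps give one level for all `η`, hence for `η = 0`. -/
theorem exists_level_zero (hP : PlaneStmt) (hB : BarrierStmt) (hC : CoreStmt) (S : Setup) :
    ∃ δ R K M : ℝ, 0 < δ ∧ δ ≤ 1 / 4 ∧ S.R₁ + 1 ≤ R ∧ 0 ≤ K ∧ 0 ≤ M ∧
      Level S δ R K M 0 := by
  obtain ⟨Kp, hKp⟩ := hP S
  obtain ⟨s₀, Sw, C, K₀, hs₀, hSw, hC1, hK₀, hBar⟩ := hB S
  set K := max K₀ (4 * Kp) with hKdef
  have hK0 : 0 ≤ K := hK₀.trans (le_max_left _ _)
  have hK4 : 4 * Kp ≤ K := le_max_right _ _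
  set q := 1 / (4 * C) with hqdef
  have hq : 0 < q := by positivity
  have hq4 : q ≤ 1 / 4 := by
    rw [hqdef]; exact div_le_div_of_nonneg_left (by norm_num) (by norm_num) (by linarith)
  obtain ⟨δB, hδB, hBar⟩ := hBar K q (le_max_left _ _) hq
  obtain ⟨δC, hδC, hCore⟩ := hC S Sw K q (hs₀.trans hSw) hK0 hq
  obtain ⟨RP, hPl⟩ := hKp q hq
  set δ := min (min δB δC) (1 / 4) with hδdef
  have hδ : 0 < δ := lt_min (lt_min hδB hδC) (by norm_num)
  have hδ1 : δ ≤ δB := (min_le_left _ _).trans (min_le_left _ _)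
  have hδ2 : δ ≤ δC := (min_le_left _ _).trans (min_le_right _ _)
  have hδ3 : δ ≤ 1 / 4 := min_le_right _ _
  obtain ⟨RC, L, Ac, hL, hCore⟩ := hCore δ hδ hδ2
  obtain ⟨RB, hBar⟩ := hBar δ hδ hδ1 L hL
  set R := max (max RB RC) (max (max RP (1 / δ)) (S.R₁ + 1)) with hRdef
  have hRB : RB ≤ R := (le_max_left _ _).trans (le_max_left _ _)
  have hRC : RC ≤ R := (le_max_right _ _).trans (le_max_left _ _)
  have hRP : RP ≤ R := ((le_max_left _ _).trans (le_max_left _ _)).trans (le_max_right _ _)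
  have hδR : 1 ≤ δ * R := by
    have h : 1 / δ ≤ R :=
      ((le_max_right _ _).trans (le_max_left _ _)).trans (le_max_right _ _)
    rw [div_le_iff₀ hδ] at h
    linarith
  have hR1 : S.R₁ + 1 ≤ R := (le_max_right _ _).trans (le_max_right _ _)
  have hR0 : 0 < R := by linarith [one_le_R₁ S]
  obtain ⟨A, hBar⟩ := hBar R hRB
  set A' := |Ac| + |A| with hA'
  set Ms := 2 * (C * A') + 1 with hMs
  have hA0 : 0 ≤ C * A' := by positivity
  have step : ∀ M η : ℝ, 0 ≤ M → 0 ≤ η → η ≤ 1 → Level S δ R K M η →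
      Level S δ R K (C * A' + M / 2) η := by
    intro M η hM hη hη1 hlev
    have hqM : 0 ≤ q * M := by positivity
    have hAc : Ac ≤ A' := (le_abs_self _).trans (le_add_of_nonneg_right (abs_nonneg _))
    have hA : A ≤ A' := (le_abs_self _).trans (le_add_of_nonneg_left (abs_nonneg _))
    have hpar : ∀ R₀ δ₀ : ℝ, δ ≤ δ₀ → R₀ ≤ R → Params R₀ δ₀ δ R M η :=
      fun R₀ δ₀ h1 h2 => ⟨hδ, h1, h2, hM, hη, hη1⟩
    have hA'0 : 0 ≤ A' := by rw [hA']; positivity
    have h := hBar M (A' + q * M) η (hpar RB δB hδ1 hRB) hlev (le_add_of_nonneg_left hA'0)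
      (by linarith) (fun ν f hf τ θ hτ hLR hθ => ?_) (fun ν f hf τ θ hτ hLR _ hθ => ?_)
    · refine h.mono_M hR0 hη ?_
      have e : C * (q * M) = M / 4 := by rw [hqdef]; field_simp
      rw [mul_add, e]
      linarith
    · have hτR : 4 * R * τ ≤ 1 :=
        le_trans (mul_le_mul_of_nonneg_right (mul_le_mul_of_nonneg_right hL hR0.le) hτ.le) hLR
      refine (hPl δ R K M η (hpar RP _ hδ3 hRP) hδR hK0 hlev ν f hf τ θ hτ hτR hθ).trans
        (add_le_add (mul_le_mul_of_nonneg_right ?_ (by positivity))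
          (mul_le_mul_of_nonneg_right (le_add_of_nonneg_left (by positivity)) (lin_nonneg hη _ _)))
      nlinarith [mul_le_mul_of_nonneg_right hq4 hK0]
    · refine (hCore R M η (hpar RC δC hδ2 hRC) hlev ν f hf τ θ hτ hLR hθ).trans
        (mul_le_mul_of_nonneg_right (by linarith) (by positivity))
  have main : ∀ η : ℝ, 0 < η → η ≤ 1 → Level S δ R K Ms η := by
    intro η hη hη1
    obtain ⟨M₀, hM₀, hlev⟩ := exists_level S hR1 hδ3 hK0 hη
    have it : ∀ n : ℕ, Level S δ R K (2 * (C * A') + M₀ / 2 ^ n) η := by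
      intro n
      induction n with
      | zero => exact hlev.mono_M hR0 hη.le (by simpa using hA0)
      | succ n ih =>
        refine (step _ η (by positivity) hη.le hη1 ih).mono_M hR0 hη.le (le_of_eq ?_)
        rw [pow_succ]; ring
    obtain ⟨n, hn⟩ := pow_unbounded_of_one_lt M₀ (one_lt_two (α := ℝ))
    refine (it n).mono_M hR0 hη.le (add_le_add le_rfl ?_)
    rw [div_le_one (by positivity)]
    exact hn.le
  refine ⟨δ, R, K, Ms, hδ, hδ3, hR1, hK0, by positivity, fun ν f hf x hx hz => ?_⟩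
  have hc : Continuous fun η : ℝ =>
      ‖x‖ * S.G x * bd K Ms η ‖x‖⁻¹ (height x / ‖x‖) := by
    unfold bd lin
    fun_prop
  refine ge_of_tendsto (hc.continuousWithinAt (s := Ioi 0) (x := 0)) ?_
  filter_upwards [Ioc_mem_nhdsGT (zero_lt_one' ℝ)] with η hη
  exact main η hη.1 hη.2 ν f hf x hx hz

/-- Degree eight in `|θ| + √τ` from the three steps. -/
theorem growth_of (hP : PlaneStmt) (hB : BarrierStmt) (hC : CoreStmt) : GrowthStmt := by
  intro S
  obtain ⟨δ, R, K, M, hδ, hδ4, hR, hK, hM, hlev⟩ := exists_level_zero hP hB hC S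
  refine ⟨2 * (K + M) ^ 2, δ, R, hδ, fun x hx hz => ?_⟩
  have hr1 : 1 ≤ ‖x‖ := by linarith [one_le_R₁ S]
  have hr : 0 < ‖x‖ := by linarith
  have hG : 0 < S.G x := tailG_pos _ _ hr
  set P := (‖x‖ ^ 3)⁻¹ * (1 + |height x| / Real.sqrt ‖x‖) ^ 8 * S.G x with hPdef
  have hs : 0 < Real.sqrt ‖x‖ := Real.sqrt_pos.2 hr
  have e : ‖x‖ * S.G x * scale 0 ‖x‖⁻¹ (height x / ‖x‖) = P := by
    have h1 : Real.sqrt ‖x‖⁻¹ + |height x / ‖x‖| =
        (Real.sqrt ‖x‖)⁻¹ * (1 + |height x| / Real.sqrt ‖x‖) := by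
      rw [Real.sqrt_inv, abs_div, abs_norm, mul_add, mul_one, ← div_eq_inv_mul, div_div,
        Real.mul_self_sqrt hr.le]
    have h8 : ((Real.sqrt ‖x‖)⁻¹) ^ 8 = (‖x‖ ^ 4)⁻¹ := by
      rw [inv_pow, show 8 = 2 * 4 from rfl, pow_mul, Real.sq_sqrt hr.le]
    rw [scale, h1, zero_mul, add_zero, mul_pow, h8, hPdef]
    field_simp
  have hb : ∀ (ν : ℝ) (f : Space → ℝ), Profile S ν f → |f x| ≤ (K + M) * P := by
    intro ν f hf
    refine (hlev ν f hf x hx hz).trans ?_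
    calc ‖x‖ * S.G x * bd K M 0 ‖x‖⁻¹ (height x / ‖x‖)
        ≤ ‖x‖ * S.G x * ((K + M) * scale 0 ‖x‖⁻¹ (height x / ‖x‖)) :=
          mul_le_mul_of_nonneg_left (bd_le_scale hK hM le_rfl (inv_nonneg.2 hr.le)
            (inv_le_one_of_one_le₀ hr1) _) (by positivity)
      _ = (K + M) * P := by rw [← e]; ring
  refine (profile_part_le (mem_belt_of_le hR hδ4 hx hz) hb).trans (le_of_eq ?_)
  ring

end Vale.Agent.P363.Ext.Growth
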