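import Vale.Agent.P363.Ext.Point

/-!
P363, exterior argument: the weight of the mean value formula with the drift `exp (-a ⟪e, z⟫)`.

It is nonnegative of mass one (test `exp (-a ⟪e, z⟫)`, an exact solution of `Δ f = a² f`), and its
translates by bounded vectors are close in `L¹` for large radius: with `t = ‖z‖`, `s = t + ⟪e, z⟫`
it is `w t * exp (-a s) / (4 π t)` with `w = O(1 / R)`, `w' = O(1 / R²)`, and translation changes
`s` by `O((1 + s) / √t)`.
-/

noncomputable section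

namespace Vale.Agent.P363.Ext.Growth

open MeasureTheory Filter Metric Set
open scoped BigOperators Topology RealInnerProductSpace

/-- The radial factor of the weight. -/
def wFac (a R t : ℝ) : ℝ :=
  20 / R ^ 2 * max (1 - t / R) 0 ^ 3 + 10 * a / R * max (1 - t / R) 0 ^ 4

/-- The weight with drift in the direction `-e`. -/
def drift (a R : ℝ) (e z : Space) : ℝ := kerW a (cutTheta R) z * Real.exp (-(a * ⟪e, z⟫))

/-- The Newton kernel on a ball. -/
def newt (ρ : ℝ) : ℝ := ∫ z in closedBall (0 : Space) ρ, ‖z‖⁻¹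

lemma integrableOn_inv (ρ : ℝ) :
    IntegrableOn (fun z : Space => ‖z‖⁻¹) (closedBall 0 ρ) :=
  (Yuk.integrableOn_rpow_ball (by norm_num : (1 : ℝ) < 3) 0 ρ).congr_fun
    (fun z _ => by simp [Real.rpow_neg_one]) measurableSet_closedBall

lemma newt_nonneg (ρ : ℝ) : 0 ≤ newt ρ := integral_nonneg fun _ => inv_nonneg.2 (norm_nonneg _)

lemma integrable_newt_at (ρ : ℝ) (x : Space) :
    Integrable ((closedBall x ρ).indicator fun y : Space => ‖y - x‖⁻¹) ∧
      ∫ y, (closedBall x ρ).indicator (fun y : Space => ‖y - x‖⁻¹) y = newt ρ := by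
  have h : (closedBall x ρ).indicator (fun y : Space => ‖y - x‖⁻¹) =
      fun y => (closedBall (0 : Space) ρ).indicator (fun z => ‖z‖⁻¹) (y - x) := by
    funext y
    by_cases hy : y ∈ closedBall x ρ
    · rw [Set.indicator_of_mem hy, Set.indicator_of_mem (by simpa [dist_eq_norm] using hy)]
    · rw [Set.indicator_of_notMem hy, Set.indicator_of_notMem (by simpa [dist_eq_norm] using hy)]
  rw [h]
  refine ⟨((integrableOn_inv ρ).integrable_indicator measurableSet_closedBall).comp_sub_right x, ?_⟩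
  rw [integral_sub_right_eq_self (fun y => (closedBall (0 : Space) ρ).indicator (fun z => ‖z‖⁻¹) y) x,
    integral_indicator measurableSet_closedBall, newt]

lemma drift_eq (a R : ℝ) (e z : Space) :
    drift a R e z = wFac a R ‖z‖ / (4 * Real.pi * ‖z‖) * Real.exp (-(a * (‖z‖ + ⟪e, z⟫))) := by
  rw [drift, kerW, deriv2_cutTheta, deriv_cutTheta, yuk, wFac, mul_add, neg_add, Real.exp_add]
  ring

lemma drift_nonneg {a R : ℝ} (ha : 0 ≤ a) (hR : 0 < R) (e z : Space) : 0 ≤ drift a R e z :=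
  mul_nonneg (kerW_cutTheta_nonneg ha hR z) (Real.exp_pos _).le

lemma drift_zero {a R : ℝ} (hR : 0 < R) (e : Space) {z : Space} (hz : R < ‖z‖) :
    drift a R e z = 0 := by
  simp [drift, Point.kerW_zero (cutTheta_eq_zero hR) hz]

lemma abs_inner_unit {e : Space} (he : ‖e‖ = 1) (z : Space) : |⟪e, z⟫| ≤ ‖z‖ := by
  simpa [he] using abs_real_inner_le_norm e z

lemma measurable_drift (a R : ℝ) (e : Space) : Measurable (drift a R e) :=
  (Point.measurable_kerW (contDiff_cutTheta R)).mul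
    (Continuous.measurable (by fun_prop : Continuous fun z : Space => Real.exp (-(a * ⟪e, z⟫))))

lemma integrable_drift {a R : ℝ} (ha : 0 ≤ a) (hR : 0 < R) {e : Space} (he : ‖e‖ = 1) :
    Integrable (drift a R e) := by
  refine ((integral_kerW_cutTheta ha hR).1.norm.mul_const (Real.exp (a * R))).mono'
    (measurable_drift a R e).aestronglyMeasurable (Eventually.of_forall fun z => ?_)
  rw [drift, norm_mul]
  by_cases hz : R < ‖z‖
  · simp [Point.kerW_zero (cutTheta_eq_zero hR) hz]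
  refine mul_le_mul_of_nonneg_left ?_ (norm_nonneg _)
  rw [Real.norm_of_nonneg (Real.exp_pos _).le]
  refine Real.exp_le_exp.2 ?_
  have := neg_abs_le ⟪e, z⟫
  have := abs_inner_unit he z
  nlinarith [not_lt.1 hz]

/-- The drift weight has mass one. -/
lemma integral_drift {a R : ℝ} (ha : 0 ≤ a) (hR : 0 < R) {e : Space} (he : ‖e‖ = 1) :
    ∫ z, drift a R e z = 1 := by
  set f : Space → ℝ := fun y => Real.exp (-(a * ⟪e, y⟫))
  have hf : ContDiff ℝ 2 f :=
    ((contDiff_const (c := a)).mul (contDiff_const.inner ℝ contDiff_id)).neg.exp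
  have hd : ∀ b : Fin 3, deriv3 b f = fun y => -(a * ⟪e, unit3 b⟫) * f y := fun b => by
    funext y
    have h1 : HasFDerivAt f (f y • -(a • innerSL ℝ e)) y :=
      ((((innerSL ℝ e).hasFDerivAt (x := y)).const_mul a).neg).exp
    simp only [deriv3, h1.fderiv]
    simp [mul_comm]
  have hl : ∀ y, lap f y = a ^ 2 * f y := fun y => by
    have h2 : ∀ b : Fin 3, deriv3 b (deriv3 b f) y = (a * ⟪e, unit3 b⟫) ^ 2 * f y := fun b => by
      have h3 : deriv3 b (fun z => -(a * ⟪e, unit3 b⟫) * f z) y =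
          -(a * ⟪e, unit3 b⟫) * deriv3 b f y := by
        simp only [deriv3, fderiv_const_mul (hf.differentiable two_ne_zero y)]
        simp
      rw [hd b, h3, hd b]
      ring
    have h4 : ∑ b : Fin 3, ⟪e, unit3 b⟫ ^ 2 = 1 := by
      have : ∀ b : Fin 3, ⟪e, unit3 b⟫ = e b := fun b => by simp [unit3, EuclideanSpace.inner_single_right]
      simp only [this]
      have h5 := EuclideanSpace.norm_sq_eq e
      simp only [he, one_pow, Real.norm_eq_abs, sq_abs] at h5
      exact h5.symm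
    simp only [lap, h2, mul_pow, ← Finset.sum_mul, ← Finset.mul_sum, h4, mul_one]
  have hp := point a R (R + 1) (cutTheta R) ha hR (by linarith) (contDiff_cutTheta R)
    (cutTheta_zero R) (cutTheta_eq_zero hR) 0 f (lap f) hf.continuous.continuousOn
    (WeakPoisson.of_contDiffOn isOpen_ball hf.contDiffOn)
    (LocMemLp.of_continuousOn (Vale.Agent.P363.continuous_lap hf).continuousOn)
  simp only [hl, sub_self, mul_zero, integral_zero, sub_zero] at hp
  simpa [f, drift] using hp.symm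

lemma exp_neg_le_drift {a R : ℝ} (ha : 0 < a) (hR : 0 < R) {e z : Space} (hz : ‖z‖ ≤ R) :
    Real.exp (-(a * (‖z‖ + ⟪e, z⟫))) * ‖z‖⁻¹ ≤ 64 * Real.pi * R / (5 * a) * drift a (2 * R) e z := by
  rcases (norm_nonneg z).eq_or_lt with h0 | ht
  · rw [← h0, inv_zero, mul_zero]
    exact mul_nonneg (by positivity) (drift_nonneg ha.le (by linarith) e z)
  have hw : 5 * a / (16 * R) ≤ wFac a (2 * R) ‖z‖ := by
    have h2 : ‖z‖ / (2 * R) ≤ 1 / 2 := by rw [div_le_iff₀ (by linarith)]; linarith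
    have hm : (1 / 2 : ℝ) ≤ max (1 - ‖z‖ / (2 * R)) 0 := le_trans (by linarith) (le_max_left _ _)
    have h4 := pow_le_pow_left₀ (by norm_num) hm 4
    refine le_trans ?_ (le_add_of_nonneg_left
      (mul_nonneg (by positivity) (pow_nonneg (le_max_right _ _) _)))
    refine le_trans (le_of_eq ?_) (mul_le_mul_of_nonneg_left h4 (by positivity))
    field_simp
    ring
  rw [drift_eq]
  refine le_trans (le_of_eq ?_) (mul_le_mul_of_nonneg_left (mul_le_mul_of_nonneg_right
    (div_le_div_of_nonneg_right hw (by positivity : 0 ≤ 4 * Real.pi * ‖z‖)) (Real.exp_pos _).le)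
    (by positivity : 0 ≤ 64 * Real.pi * R / (5 * a)))
  field_simp
  ring

lemma integrable_exp_neg {a R : ℝ} (ha : 0 < a) (hR : 0 < R) {e : Space} (he : ‖e‖ = 1) :
    Integrable ((closedBall (0 : Space) R).indicator
        fun z => Real.exp (-(a * (‖z‖ + ⟪e, z⟫))) * ‖z‖⁻¹) ∧
      ∫ z, (closedBall (0 : Space) R).indicator
        (fun z => Real.exp (-(a * (‖z‖ + ⟪e, z⟫))) * ‖z‖⁻¹) z ≤ 64 * Real.pi * R / (5 * a) := by
  set g := (closedBall (0 : Space) R).indicator fun z => Real.exp (-(a * (‖z‖ + ⟪e, z⟫))) * ‖z‖⁻¹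
  have hle : ∀ z, g z ≤ 64 * Real.pi * R / (5 * a) * drift a (2 * R) e z := fun z => by
    refine Set.indicator_apply_le' (fun hz => exp_neg_le_drift ha hR (mem_closedBall_zero_iff.1 hz))
      fun _ => mul_nonneg (by positivity) (drift_nonneg ha.le (by linarith) e z)
  have h0 : ∀ z, 0 ≤ g z := fun z =>
    Set.indicator_nonneg (fun y _ => mul_nonneg (Real.exp_pos _).le (inv_nonneg.2 (norm_nonneg y))) z
  have hd := (integrable_drift ha.le (by linarith : 0 < 2 * R) he).const_mul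
    (64 * Real.pi * R / (5 * a))
  have hi : Integrable g := by
    refine hd.mono' ((Measurable.indicator ?_ measurableSet_closedBall).aestronglyMeasurable)
      (Eventually.of_forall fun z => by rw [Real.norm_of_nonneg (h0 z)]; exact hle z)
    exact (Continuous.measurable (by fun_prop)).mul measurable_norm.inv
  refine ⟨hi, (integral_mono hi hd hle).trans_eq ?_⟩
  rw [integral_const_mul, integral_drift ha.le (by linarith) he, mul_one]

lemma wFac_bound {a R t : ℝ} (ha : 0 ≤ a) (hR : 1 ≤ R) (ht : 0 ≤ t) :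
    0 ≤ wFac a R t ∧ wFac a R t ≤ (20 + 10 * a) / R := by
  have h0 : 0 ≤ max (1 - t / R) 0 := le_max_right _ _
  have h1 : max (1 - t / R) 0 ≤ 1 :=
    max_le (by linarith [div_nonneg ht (zero_le_one.trans hR)]) zero_le_one
  refine ⟨by unfold wFac; positivity, ?_⟩
  unfold wFac
  have h2 : 20 / R ^ 2 ≤ 20 / R :=
    div_le_div_of_nonneg_left (by norm_num) (by linarith) (le_self_pow₀ hR two_ne_zero)
  have h3 := mul_le_mul h2 (pow_le_one₀ (n := 3) h0 h1) (by positivity) (by positivity)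
  have h4 := mul_le_mul_of_nonneg_left (pow_le_one₀ (n := 4) h0 h1)
    (by positivity : 0 ≤ 10 * a / R)
  rw [add_div]
  linarith

lemma wFac_lip {a R t s : ℝ} (ha : 0 ≤ a) (hR : 1 ≤ R) (ht : 0 ≤ t) (hs : 0 ≤ s) :
    |wFac a R t - wFac a R s| ≤ (60 + 40 * a) / R ^ 2 * |t - s| := by
  have hR0 : 0 < R := by linarith
  set P := max (1 - t / R) 0
  set Q := max (1 - s / R) 0
  have hP : 0 ≤ P := le_max_right _ _
  have hQ : 0 ≤ Q := le_max_right _ _
  have hP1 : P ≤ 1 := max_le (by linarith [div_nonneg ht hR0.le]) zero_le_one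
  have hQ1 : Q ≤ 1 := max_le (by linarith [div_nonneg hs hR0.le]) zero_le_one
  have hd : |P - Q| ≤ |t - s| / R := by
    refine (abs_max_sub_max_le_abs _ _ _).trans (le_of_eq ?_)
    rw [show 1 - t / R - (1 - s / R) = -((t - s) / R) by ring, abs_neg, abs_div, abs_of_pos hR0]
  have e3 : |P ^ 3 - Q ^ 3| ≤ 3 * |P - Q| := by
    rw [show P ^ 3 - Q ^ 3 = (P - Q) * (P ^ 2 + P * Q + Q ^ 2) by ring, abs_mul, mul_comm,
      abs_of_nonneg (by positivity : 0 ≤ P ^ 2 + P * Q + Q ^ 2)]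
    gcongr
    nlinarith [pow_le_one₀ (n := 2) hP hP1, pow_le_one₀ (n := 2) hQ hQ1,
      mul_le_one₀ hP1 hQ hQ1]
  have e4 : |P ^ 4 - Q ^ 4| ≤ 4 * |P - Q| := by
    rw [show P ^ 4 - Q ^ 4 = (P - Q) * (P ^ 3 + P ^ 2 * Q + P * Q ^ 2 + Q ^ 3) by ring, abs_mul,
      mul_comm, abs_of_nonneg (by positivity : 0 ≤ P ^ 3 + P ^ 2 * Q + P * Q ^ 2 + Q ^ 3)]
    gcongr
    linarith [pow_le_one₀ (n := 3) hP hP1, pow_le_one₀ (n := 3) hQ hQ1,
      mul_le_one₀ (pow_le_one₀ (n := 2) hP hP1) hQ hQ1,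
      mul_le_one₀ hP1 (sq_nonneg Q) (pow_le_one₀ (n := 2) hQ hQ1)]
  have h20 : 20 / R ^ 2 ≤ 20 / R :=
    div_le_div_of_nonneg_left (by norm_num) hR0 (le_self_pow₀ hR two_ne_zero)
  calc |wFac a R t - wFac a R s|
      = |20 / R ^ 2 * (P ^ 3 - Q ^ 3) + 10 * a / R * (P ^ 4 - Q ^ 4)| := by
        simp only [wFac, P, Q]; ring_nf
    _ ≤ 20 / R * (3 * (|t - s| / R)) + 10 * a / R * (4 * (|t - s| / R)) := by
        refine (abs_add_le _ _).trans (add_le_add ?_ ?_)
        · rw [abs_mul, abs_of_nonneg (by positivity : (0 : ℝ) ≤ 20 / R ^ 2)]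
          exact mul_le_mul h20 (e3.trans (by linarith)) (abs_nonneg _) (by positivity)
        · rw [abs_mul, abs_of_nonneg (by positivity : (0 : ℝ) ≤ 10 * a / R)]
          exact mul_le_mul_of_nonneg_left (e4.trans (by linarith)) (by positivity)
    _ = _ := by field_simp; ring

lemma drift_le_inv {a R : ℝ} (ha : 0 ≤ a) (hR : 1 ≤ R) {e : Space} (he : ‖e‖ = 1) (z : Space) :
    drift a R e z ≤ (20 + 10 * a) / R * ‖z‖⁻¹ := by
  rcases (norm_nonneg z).eq_or_lt with h0 | ht
  · rw [drift_eq, ← h0]; simp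
  obtain ⟨w0, w1⟩ := wFac_bound ha hR (norm_nonneg z)
  have hs : 0 ≤ ‖z‖ + ⟪e, z⟫ := by linarith [neg_abs_le ⟪e, z⟫, abs_inner_unit he z]
  rw [drift_eq, div_eq_mul_inv, mul_inv, ← mul_assoc]
  have hb : 0 ≤ (20 + 10 * a) / R := w0.trans w1
  refine (mul_le_of_le_one_right (by positivity) (Real.exp_le_one_iff.2 (by nlinarith))).trans ?_
  refine mul_le_mul_of_nonneg_right ((mul_le_of_le_one_right w0 ?_).trans w1)
    (inv_nonneg.2 ht.le)
  exact inv_le_one_of_one_le₀ (by nlinarith [Real.pi_gt_three])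

/-- Translation changes `s = ‖z‖ + ⟪e, z⟫` by `O((1 + s) / √‖z‖)`. -/
lemma shift_exponent {D q : ℝ} (hD : 0 ≤ D) (hq : 1 ≤ q) {e d z : Space} (he : ‖e‖ = 1)
    (hd : ‖d‖ ≤ D) (hz : q * q ≤ ‖z‖) :
    |‖z - d‖ + ⟪e, z - d⟫ - (‖z‖ + ⟪e, z⟫)| ≤ (D + D ^ 2) / q * (1 + (‖z‖ + ⟪e, z⟫)) := by
  set t := ‖z‖
  set u := ‖z - d‖
  set p := t + ⟪e, z⟫ with hp
  have ht : 0 < t := by nlinarith
  have hut : |u - t| ≤ D := by
    have h := abs_norm_sub_norm_le (z - d) z
    rw [sub_sub_cancel_left, norm_neg] at h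
    exact h.trans hd
  have hp0 : 0 ≤ p := by linarith [neg_abs_le ⟪e, z⟫, abs_inner_unit he z]
  have h1 : ‖z + t • e‖ ^ 2 = 2 * t * p := by
    rw [norm_add_sq_real, norm_smul, he, inner_smul_right, real_inner_comm e z,
      Real.norm_of_nonneg ht.le]
    simp only [hp, t]; ring
  have h2 : u ^ 2 = t ^ 2 - 2 * ⟪z, d⟫ + ‖d‖ ^ 2 := norm_sub_sq_real z d
  have h8 : ‖z + t • e‖ * q ≤ t * (1 + p) := by
    refine (sq_le_sq₀ (by positivity) (by positivity)).1 ?_
    rw [mul_pow, h1, pow_two q]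
    have h3 := mul_le_mul_of_nonneg_left hz (by positivity : 0 ≤ 2 * t * p)
    nlinarith only [h3, mul_nonneg (sq_nonneg t) (sq_nonneg p), sq_nonneg t]
  have h9 : q ≤ t := by nlinarith only [hz, hq]
  rw [div_mul_eq_mul_div, le_div_iff₀ (by linarith : 0 < q)]
  set A := u + ⟪e, z - d⟫ - p with hA
  have h3 : A * (2 * t) + 2 * ⟪z + t • e, d⟫ = ‖d‖ ^ 2 - (u - t) ^ 2 := by
    rw [inner_add_left, real_inner_smul_left]
    simp only [hA, hp, inner_sub_right]
    linear_combination h2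
  have h4 : |A * (2 * t)| ≤ 2 * (‖z + t • e‖ * D) + D ^ 2 := by
    obtain ⟨g1, g2⟩ := abs_le.1 ((abs_real_inner_le_norm (z + t • e) d).trans
      (mul_le_mul_of_nonneg_left hd (norm_nonneg _)))
    have h6 : (u - t) ^ 2 ≤ D ^ 2 := sq_le_sq' (abs_le.1 hut).1 (abs_le.1 hut).2
    have h7 : ‖d‖ ^ 2 ≤ D ^ 2 := pow_le_pow_left₀ (norm_nonneg _) hd 2
    exact abs_le.2 ⟨by linarith [sq_nonneg ‖d‖], by linarith [sq_nonneg (u - t)]⟩
  rw [abs_mul, abs_of_pos (by positivity : 0 < 2 * t)] at h4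
  refine le_of_mul_le_mul_right ?_ (by positivity : 0 < 2 * t)
  have h10 := mul_le_mul_of_nonneg_right h8 hD
  have h11 := mul_le_mul_of_nonneg_right h9 (sq_nonneg D)
  have h12 := mul_le_mul_of_nonneg_left h4 (by linarith : 0 ≤ q)
  nlinarith only [h10, h11, h12, mul_nonneg (mul_nonneg (sq_nonneg D) hp0) ht.le,
    mul_nonneg (sq_nonneg D) ht.le]

/-- The change of the exponential factor. -/
lemma exp_shift {a κ p p' : ℝ} (ha : 0 < a) (hκ : 0 ≤ κ) (hκ4 : κ ≤ 1 / 4) (hp : 0 ≤ p)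
    (h : |p' - p| ≤ κ * (1 + p)) :
    Real.exp (-(a * p')) ≤ Real.exp (a / 4) * Real.exp (-(a / 2 * p)) ∧
      |Real.exp (-(a * p')) - Real.exp (-(a * p))| ≤
        a * κ * (Real.exp (a / 4) * (1 + 4 / a)) * Real.exp (-(a / 2 * p)) := by
  obtain ⟨h1, h2⟩ := abs_le.1 h
  have hmin : 3 / 4 * p - 1 / 4 ≤ p' := by nlinarith
  refine ⟨?_, ?_⟩
  · rw [← Real.exp_add]
    exact Real.exp_le_exp.2 (by nlinarith)
  have hmono : ∀ x, 3 / 4 * p - 1 / 4 ≤ x →
      Real.exp (-(a * x)) ≤ Real.exp (-(a * (3 / 4 * p - 1 / 4))) := fun x hx =>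
    Real.exp_le_exp.2 (by nlinarith)
  have key : ∀ x y : ℝ, x ≤ y → 3 / 4 * p - 1 / 4 ≤ x → y - x ≤ κ * (1 + p) →
      |Real.exp (-(a * x)) - Real.exp (-(a * y))| ≤
        a * (κ * (1 + p)) * Real.exp (-(a * (3 / 4 * p - 1 / 4))) := fun x y hxy hx hy => by
    rw [abs_of_nonneg (sub_nonneg.2 (Real.exp_le_exp.2 (by nlinarith)))]
    refine le_trans ?_ (mul_le_mul (mul_le_mul_of_nonneg_left hy ha.le) (hmono x hx)
      (Real.exp_pos _).le (by positivity))
    have h3 := mul_le_mul_of_nonneg_left (Real.add_one_le_exp (-(a * (y - x))))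
      (Real.exp_pos (-(a * x))).le
    rw [show -(a * y) = -(a * x) + -(a * (y - x)) by ring, Real.exp_add]
    linarith
  refine le_trans ?_ (le_trans (le_of_eq (show a * (κ * (1 + p)) *
      Real.exp (-(a * (3 / 4 * p - 1 / 4))) = a * κ * Real.exp (a / 4) * Real.exp (-(a / 2 * p)) *
        ((1 + p) * Real.exp (-(a / 4 * p))) by
    rw [show -(a * (3 / 4 * p - 1 / 4)) = a / 4 + (-(a / 2 * p) + -(a / 4 * p)) by ring,
      Real.exp_add, Real.exp_add]
    ring)) ?_)
  · rcases le_total p p' with hl | hl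
    · rw [abs_sub_comm]
      exact key p p' hl (by linarith) h2
    · exact key p' p hl hmin (by linarith)
  · have h3 : (1 + p) * Real.exp (-(a / 4 * p)) ≤ 1 + 4 / a := by
      rw [Real.exp_neg, ← div_eq_mul_inv, div_le_iff₀ (Real.exp_pos _)]
      have h4 := mul_le_mul_of_nonneg_left (Real.add_one_le_exp (a / 4 * p))
        (by positivity : (0 : ℝ) ≤ 4 / a)
      rw [show 4 / a * (a / 4 * p + 1) = p + 4 / a by field_simp] at h4
      have h5 := Real.one_le_exp (by positivity : 0 ≤ a / 4 * p)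
      have h6 : 0 < 4 / a := by positivity
      linarith
    refine (mul_le_mul_of_nonneg_left h3 (by positivity)).trans (le_of_eq ?_)
    ring

/-- The change of the radial factor. -/
lemma fac_shift {a R D q t u : ℝ} (ha : 0 ≤ a) (hR : 1 ≤ R) (hD : 0 ≤ D) (hq : 1 ≤ q)
    (hqR : q ≤ R) (hqt : q ≤ t) (hu : t / 2 ≤ u) (hut : |u - t| ≤ D) :
    |wFac a R u / (4 * Real.pi * u) - wFac a R t / (4 * Real.pi * t)| ≤
      (2 * (60 + 40 * a) * D + 2 * (20 + 10 * a) * D) / (R * q) * t⁻¹ := by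
  have ht : 0 < t := by linarith
  have hu0 : 0 < u := by linarith
  obtain ⟨w0, w1⟩ := wFac_bound ha hR ht.le (t := t)
  rw [show wFac a R u / (4 * Real.pi * u) - wFac a R t / (4 * Real.pi * t) =
    (1 / (4 * Real.pi)) * ((wFac a R u - wFac a R t) / u + wFac a R t * (t - u) / (u * t)) by
      field_simp; ring, abs_mul, abs_of_pos (by positivity : (0 : ℝ) < 1 / (4 * Real.pi))]
  refine (mul_le_of_le_one_left (abs_nonneg _) ((div_le_one (by positivity)).2
    (by linarith [Real.pi_gt_three]))).trans ?_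
  refine (abs_add_le _ _).trans ?_
  rw [add_div, add_mul]
  refine add_le_add ?_ ?_
  · rw [abs_div, abs_of_pos hu0]
    have h := (wFac_lip ha hR hu0.le ht.le).trans
      (mul_le_mul_of_nonneg_left hut (by positivity))
    refine (div_le_div₀ (by positivity) h (by positivity : 0 < t / 2) hu).trans ?_
    rw [show (60 + 40 * a) / R ^ 2 * D / (t / 2) =
      2 * (60 + 40 * a) * D / (R * R) * t⁻¹ by field_simp]
    gcongr
  · rw [abs_div, abs_mul, abs_of_nonneg w0, abs_sub_comm, abs_of_pos (mul_pos hu0 ht)]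
    refine (div_le_div₀ (by positivity) (mul_le_mul w1 hut (abs_nonneg _) (by positivity))
      (by positivity : 0 < t / 2 * t) (mul_le_mul_of_nonneg_right hu ht.le)).trans ?_
    rw [show (20 + 10 * a) / R * D / (t / 2 * t) = 2 * (20 + 10 * a) * D / (R * t) * t⁻¹ by
      field_simp]
    gcongr

/-- The pointwise change of the weight away from its centre. -/
lemma drift_diff {a D : ℝ} (ha : 0 < a) (hD : 0 ≤ D) : ∃ C : ℝ, 0 ≤ C ∧
    ∀ R ρ : ℝ, 1 ≤ ρ → 2 * D ≤ ρ → 16 * (D + D ^ 2) ^ 2 ≤ ρ → ρ ≤ R →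
      ∀ (e d z : Space), ‖e‖ = 1 → ‖d‖ ≤ D → ρ < ‖z‖ →
        |drift a R e (z - d) - drift a R e z| ≤
          C / (R * Real.sqrt ρ) * (Real.exp (-(a / 2 * (‖z‖ + ⟪e, z⟫))) * ‖z‖⁻¹) := by
  refine ⟨(2 * (60 + 40 * a) * D + 2 * (20 + 10 * a) * D) * Real.exp (a / 4) +
    (20 + 10 * a) * (a * (D + D ^ 2) * Real.exp (a / 4) * (1 + 4 / a)),
    by positivity, fun R ρ hρ1 hρD hρ16 hρR e d z he hd hz => ?_⟩
  set q := Real.sqrt ρ
  have hq1 : 1 ≤ q := Real.one_le_sqrt.2 hρ1
  have hqq : q * q = ρ := Real.mul_self_sqrt (by linarith)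
  have hqρ : q ≤ ρ := hqq ▸ le_mul_of_one_le_left (by linarith) hq1
  have hq0 : 0 < q := by linarith
  have ht : 0 < ‖z‖ := by linarith
  have hut : |‖z - d‖ - ‖z‖| ≤ D := by
    have h := abs_norm_sub_norm_le (z - d) z
    rw [sub_sub_cancel_left, norm_neg] at h
    exact h.trans hd
  have hu2 : ‖z‖ / 2 ≤ ‖z - d‖ := by linarith [(abs_le.1 hut).1]
  have hκ4 : (D + D ^ 2) / q ≤ 1 / 4 := by
    rw [div_le_iff₀ hq0]
    nlinarith
  have hp0 : 0 ≤ ‖z‖ + ⟪e, z⟫ := by linarith [neg_abs_le ⟪e, z⟫, abs_inner_unit he z]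
  obtain ⟨hexp', hexpd⟩ := exp_shift ha (by positivity) hκ4 hp0
    (shift_exponent hD hq1 he hd (hqq ▸ hz.le))
  have hfac := fac_shift ha.le (hρ1.trans hρR) hD hq1 (hqρ.trans hρR) (hqρ.trans hz.le) hu2 hut
  have hR : 1 ≤ R := hρ1.trans hρR
  obtain ⟨w0, w1⟩ := wFac_bound ha.le hR ht.le (t := ‖z‖)
  have hwt : wFac a R ‖z‖ / (4 * Real.pi * ‖z‖) ≤ (20 + 10 * a) / R * ‖z‖⁻¹ := by
    rw [← div_eq_mul_inv]
    exact div_le_div₀ (by positivity) w1 ht (le_mul_of_one_le_left ht.le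
      (by linarith [Real.pi_gt_three]))
  have hw0 : 0 ≤ wFac a R ‖z‖ / (4 * Real.pi * ‖z‖) := div_nonneg w0 (by positivity)
  rw [drift_eq, drift_eq]
  generalize wFac a R ‖z - d‖ / (4 * Real.pi * ‖z - d‖) = A at hfac ⊢
  generalize wFac a R ‖z‖ / (4 * Real.pi * ‖z‖) = B at hfac hwt hw0 ⊢
  have hX0 := (Real.exp_pos (-(a * (‖z - d‖ + ⟪e, z - d⟫)))).le
  generalize Real.exp (-(a * (‖z - d‖ + ⟪e, z - d⟫))) = X' at hexp' hexpd hX0 ⊢
  generalize Real.exp (-(a * (‖z‖ + ⟪e, z⟫))) = X at hexpd ⊢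
  rw [show A * X' - B * X = (A - B) * X' + B * (X' - X) by ring]
  refine (abs_add_le _ _).trans ?_
  rw [abs_mul, abs_mul, abs_of_nonneg hX0, abs_of_nonneg hw0]
  refine le_trans (add_le_add (mul_le_mul hfac hexp' hX0 (by positivity))
    (mul_le_mul hwt hexpd (abs_nonneg _) (by positivity))) (le_of_eq ?_)
  field_simp

/-- Translates by bounded vectors are close in `L¹`. -/
theorem drift_shift {a D ε : ℝ} (ha : 0 < a) (hD : 0 ≤ D) (hε : 0 < ε) :
    ∃ R : ℝ, 1 ≤ R ∧ ∀ e d : Space, ‖e‖ = 1 → ‖d‖ ≤ D →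
      Integrable (fun z => drift a R e (z - d) - drift a R e z) ∧
        ∫ z, |drift a R e (z - d) - drift a R e z| ≤ ε := by
  obtain ⟨C, hC, hdiff⟩ := drift_diff ha hD
  set B := C * (128 * Real.pi / (5 * (a / 2))) with hB
  set ρ := max (max 1 (2 * D)) (max (16 * (D + D ^ 2) ^ 2) ((2 * B / ε + 1) ^ 2)) with hρd
  set Cw := 20 + 10 * a with hCw
  set R := max (max ρ D) (4 * Cw * (newt (ρ + D) + newt ρ) / ε) with hRd
  have hρ1 : 1 ≤ ρ := (le_max_left _ _).trans (le_max_left _ _)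
  have hρR : ρ ≤ R := (le_max_left _ _).trans (le_max_left _ _)
  have hDR : D ≤ R := (le_max_right _ _).trans (le_max_left _ _)
  have hR : 1 ≤ R := hρ1.trans hρR
  refine ⟨R, hR, fun e d he hd => ?_⟩
  have hi := integrable_drift ha.le (by linarith : 0 < R) he
  have hint : Integrable fun z => drift a R e (z - d) - drift a R e z := (hi.comp_sub_right d).sub hi
  refine ⟨hint, ?_⟩
  obtain ⟨i1, b1⟩ := integrable_exp_neg (by linarith : 0 < a / 2) (by linarith : 0 < 2 * R) he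
  obtain ⟨i2, b2⟩ := integrable_newt_at (ρ + D) d
  obtain ⟨i3, b3⟩ := integrable_newt_at ρ (0 : Space)
  set g1 := (closedBall (0 : Space) (2 * R)).indicator
    fun z => Real.exp (-(a / 2 * (‖z‖ + ⟪e, z⟫))) * ‖z‖⁻¹
  set g2 := (closedBall d (ρ + D)).indicator fun y : Space => ‖y - d‖⁻¹
  set g3 := (closedBall (0 : Space) ρ).indicator fun y : Space => ‖y - 0‖⁻¹
  have hle : ∀ z, |drift a R e (z - d) - drift a R e z| ≤
      C / (R * Real.sqrt ρ) * g1 z + (Cw / R * g2 z + Cw / R * g3 z) := fun z => by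
    have n1 : 0 ≤ g1 z := Set.indicator_nonneg
      (fun y _ => mul_nonneg (Real.exp_pos _).le (inv_nonneg.2 (norm_nonneg y))) z
    have n2 : 0 ≤ g2 z := Set.indicator_nonneg (fun y _ => inv_nonneg.2 (norm_nonneg (y - d))) z
    have n3 : 0 ≤ g3 z :=
      Set.indicator_nonneg (fun y _ => inv_nonneg.2 (norm_nonneg (y - (0 : Space)))) z
    by_cases hz : ‖z‖ ≤ ρ
    · refine le_trans ?_ (le_add_of_nonneg_left (by positivity))
      have m2 : z ∈ closedBall d (ρ + D) := by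
        rw [mem_closedBall, dist_eq_norm]
        exact (norm_sub_le _ _).trans (add_le_add hz hd)
      have m3 : z ∈ closedBall (0 : Space) ρ := mem_closedBall_zero_iff.2 hz
      simp only [g2, g3, Set.indicator_of_mem m2, Set.indicator_of_mem m3, sub_zero]
      refine (abs_sub _ _).trans ?_
      rw [abs_of_nonneg (drift_nonneg ha.le (by linarith) _ _),
        abs_of_nonneg (drift_nonneg ha.le (by linarith) _ _)]
      exact add_le_add (drift_le_inv ha.le hR he _) (drift_le_inv ha.le hR he _)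
    · refine le_trans ?_ (le_add_of_nonneg_right (by positivity))
      by_cases hzR : ‖z‖ ≤ 2 * R
      · simp only [g1, Set.indicator_of_mem (mem_closedBall_zero_iff.2 hzR : z ∈ closedBall (0 : Space) (2 * R))]
        exact hdiff R ρ hρ1 ((le_max_right _ _).trans (le_max_left _ _))
          ((le_max_left _ _).trans (le_max_right _ _)) hρR e d z he hd (not_le.1 hz)
      · have h2 : R < ‖z - d‖ := by linarith [norm_sub_norm_le z d, not_le.1 hzR]
        rw [drift_zero (by linarith) e h2, drift_zero (by linarith) e (by linarith : R < ‖z‖)]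
        simpa using by positivity
  have hdom : Integrable fun z => C / (R * Real.sqrt ρ) * g1 z +
      (Cw / R * g2 z + Cw / R * g3 z) := (i1.const_mul _).add ((i2.const_mul _).add (i3.const_mul _))
  refine (integral_mono hint.abs hdom hle).trans ?_
  rw [integral_add (i1.const_mul _) ((i2.const_mul _).fun_add (i3.const_mul _)),
    integral_add (i2.const_mul _) (i3.const_mul _), integral_const_mul, integral_const_mul,
    integral_const_mul, b2, b3]
  have hsq : 2 * B / ε + 1 ≤ Real.sqrt ρ :=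
    Real.le_sqrt_of_sq_le ((le_max_right _ _).trans (le_max_right _ _))
  have hsq0 : 0 < Real.sqrt ρ := Real.sqrt_pos.2 (by linarith)
  have t1 : C / (R * Real.sqrt ρ) * ∫ z, g1 z ≤ ε / 2 := by
    refine (mul_le_mul_of_nonneg_left b1 (by positivity)).trans ?_
    rw [show C / (R * Real.sqrt ρ) * (64 * Real.pi * (2 * R) / (5 * (a / 2))) = B / Real.sqrt ρ by
      rw [hB]; field_simp; ring, div_le_iff₀ hsq0]
    have := mul_le_mul_of_nonneg_left hsq (by positivity : 0 ≤ ε / 2)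
    rw [mul_add, show ε / 2 * (2 * B / ε) = B by field_simp] at this
    linarith
  have t2 : Cw / R * (newt (ρ + D) + newt ρ) ≤ ε / 2 := by
    have h : 4 * Cw * (newt (ρ + D) + newt ρ) / ε ≤ R := le_max_right _ _
    rw [div_le_iff₀ hε] at h
    rw [div_mul_eq_mul_div, div_le_iff₀ (by linarith)]
    nlinarith [newt_nonneg (ρ + D), newt_nonneg ρ,
      mul_nonneg (by positivity : 0 ≤ Cw) (add_nonneg (newt_nonneg (ρ + D)) (newt_nonneg ρ))]
  linarith

end Vale.Agent.P363.Ext.Growth
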