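import Vale.Agent.P363.Ext.Growth.Basic
import Vale.Agent.P363.Ext.Growth.OscKernel
import Vale.Agent.P363.Ext.PlaneTools
import Vale.Agent.P363.Tool.Weak.Local

/-!
P363, exterior argument: `OscStmt`. Around `x₀ = pt r θ` with `e = x₀ / r` the function
`f exp (a ⟪e, · - x₀⟫) / (r G)` is bounded by the level; it is its drift average up to the Newton
potential of `W` and `O(1 / r)`, and the drift averages at bounded distance are close.
-/

noncomputable section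

namespace Vale.Agent.P363.Ext.Growth

open MeasureTheory Filter Metric Set
open scoped BigOperators Topology RealInnerProductSpace

lemma dist_pt_le {r s θ y : ℝ} (hr : 0 ≤ r) (hθ : |θ| ≤ 1 / 2) (hy : |y| ≤ 1 / 2) :
    dist (pt s y) (pt r θ) ≤ |s - r| + 2 * r * |y - θ| := by
  have e : ∀ t u : ℝ, pt t u = t • pt 1 u := fun t u => by
    ext i; fin_cases i <;> simp [pt]
  have hy2 : y ^ 2 ≤ 1 / 4 := by nlinarith [sq_abs y, abs_nonneg y]
  have hθ2 : θ ^ 2 ≤ 1 / 4 := by nlinarith [sq_abs θ, abs_nonneg θ]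
  set A := Real.sqrt (1 - y ^ 2)
  set B := Real.sqrt (1 - θ ^ 2)
  have hAB : |A - B| ≤ |y - θ| := by
    have hA : 1 / 2 ≤ A := Real.le_sqrt_of_sq_le (by linarith)
    have hB : 1 / 2 ≤ B := Real.le_sqrt_of_sq_le (by linarith)
    have hA2 : A ^ 2 = 1 - y ^ 2 := Real.sq_sqrt (by linarith)
    have hB2 : B ^ 2 = 1 - θ ^ 2 := Real.sq_sqrt (by linarith)
    have h : |A - B| * (A + B) = |y - θ| * |y + θ| := by
      rw [← abs_of_pos (by linarith : 0 < A + B), ← abs_mul, ← abs_mul, ← abs_neg]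
      congr 1
      linear_combination (-1 : ℝ) * hA2 + hB2
    have h1 : |y + θ| ≤ 1 := (abs_add_le _ _).trans (by linarith)
    have := mul_le_mul_of_nonneg_left h1 (abs_nonneg (y - θ))
    nlinarith [abs_nonneg (A - B)]
  have hd : pt 1 y - pt 1 θ = (A - B) • unit3 0 + (y - θ) • unit3 2 := by
    ext i; fin_cases i <;> simp [pt, unit3, A, B]
  rw [dist_eq_norm, e s y, e r θ,
    show s • pt 1 y - r • pt 1 θ = (s - r) • pt 1 y + r • (pt 1 y - pt 1 θ) by
      rw [sub_smul, smul_sub]; abel]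
  refine (norm_add_le _ _).trans ?_
  rw [norm_smul, norm_smul, norm_pt zero_le_one (by linarith), mul_one, Real.norm_eq_abs,
    Real.norm_of_nonneg hr]
  refine add_le_add le_rfl ?_
  rw [mul_comm 2 r, mul_assoc, hd]
  refine mul_le_mul_of_nonneg_left ((norm_add_le _ _).trans ?_) hr
  rw [norm_smul, norm_smul, norm_unit, norm_unit, Real.norm_eq_abs, Real.norm_eq_abs]
  linarith

/-- The defect from the tangent plane. -/
lemma norm_sub_inner_le {e : Space} (he : ‖e‖ = 1) (r : ℝ) {x : Space} (h : 0 ≤ ⟪e, x⟫) :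
    (‖x‖ - ⟪e, x⟫) * ‖x‖ ≤ ‖x - r • e‖ ^ 2 := by
  have h1 := abs_inner_unit he x
  have e1 : ‖x - r • e‖ ^ 2 = ‖x‖ ^ 2 - 2 * r * ⟪e, x⟫ + r ^ 2 := by
    rw [norm_sub_sq_real, norm_smul, he, inner_smul_right, real_inner_comm e x, Real.norm_eq_abs,
      mul_one, sq_abs]
    ring
  rw [e1]
  nlinarith [sq_nonneg (⟪e, x⟫ - r), mul_nonneg h (sub_nonneg.2 ((le_abs_self _).trans h1))]

lemma mul_tailG_eq (a k : ℝ) {r s : ℝ} (hr : 0 < r) (hs : 0 < s) :
    s * tailG a k s = (s / r) ^ (k / a - 1) * Real.exp (-(a * (s - r))) * (r * tailG a k r) := by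
  have e : ∀ t : ℝ, 0 < t → t * tailG a k t = t ^ (k / a - 1) * Real.exp (-(a * t)) := fun t ht => by
    rw [tailG, show k / a - 1 = k / a - 2 + 1 by ring, Real.rpow_add ht, Real.rpow_one]
    ring
  rw [e s hs, e r hr, Real.div_rpow hs.le hr.le,
    show -(a * s) = -(a * (s - r)) + -(a * r) by ring, Real.exp_add]
  have := (Real.rpow_pos_of_pos hr (k / a - 1)).ne'
  field_simp

lemma rpow_le_two {s : ℝ} (h1 : 1 / 2 ≤ s) (h2 : s ≤ 2) (p : ℝ) : s ^ p ≤ 2 ^ |p| := by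
  rcases le_or_gt 0 p with hp | hp
  · rw [abs_of_nonneg hp]
    exact Real.rpow_le_rpow (by linarith) h2 hp
  · rw [abs_of_neg hp, Real.rpow_neg (by norm_num), ← Real.inv_rpow (by norm_num)]
    exact Real.rpow_le_rpow_of_nonpos (by norm_num) (by linarith) hp.le

/-- The growth constant of the window. -/
def winC (S : Setup) : ℝ := 2 ^ |S.k / S.a - 1| * 4 ^ 8

lemma scale_near {η τ θ τ' θ' : ℝ} (hη : 0 ≤ η) (hτ : τ' ≤ 4 * τ)
    (hθ : |θ'| ≤ 2 * |θ| + 2 * Real.sqrt τ) : scale η τ' θ' ≤ 4 ^ 8 * scale η τ θ := by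
  have hs : Real.sqrt τ' ≤ 2 * Real.sqrt τ := by
    refine (Real.sqrt_le_sqrt hτ).trans_eq ?_
    rw [Real.sqrt_mul (by norm_num), show (4 : ℝ) = 2 ^ 2 by norm_num, Real.sqrt_sq (by norm_num)]
  have h : Real.sqrt τ' + |θ'| ≤ 4 * (Real.sqrt τ + |θ|) := by linarith [abs_nonneg θ]
  have h8 := pow_le_pow_left₀ (by positivity) h 8
  rw [mul_pow] at h8
  have h1 := mul_le_mul_of_nonneg_left h hη
  rw [scale, scale, mul_add ((4 : ℝ) ^ 8)]
  refine add_le_add h8 (h1.trans ?_)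
  nlinarith [mul_nonneg hη (by positivity : 0 ≤ Real.sqrt τ + |θ|)]

/-- The level in a window around `pt r θ`. -/
lemma window_bound {S : Setup} {δ R K M η : ℝ} (hl : Level S δ R K M η) (hK : 0 ≤ K) (hM : 0 ≤ M)
    (hη : 0 ≤ η) (hδ1 : δ ≤ 1) (hδ : 0 < δ) {ν : ℝ} {f : Space → ℝ} (hf : Profile S ν f)
    {r θ L : ℝ} (hr : 2 ≤ r) (hL : 0 ≤ L) (hL2 : 2 * L ≤ r) (hLL : L * L ≤ r) (hRr : R + L ≤ r)
    (hLδ : 8 * L ≤ δ * r) (hθ : |θ| ≤ δ / 4) {y : Space} (hy : y ∈ closedBall (pt r θ) L) :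
    |f y| ≤ r * tailG S.a S.k r * (winC S * ((K + M) * scale η r⁻¹ θ)) *
      Real.exp (-(S.a * ⟪r⁻¹ • pt r θ, y - pt r θ⟫)) := by
  have hr0 : 0 < r := by linarith
  have hθ1 : θ ^ 2 ≤ 1 := by nlinarith [sq_abs θ, abs_nonneg θ]
  set x := pt r θ
  have hxn : ‖x‖ = r := norm_pt hr0.le hθ1
  rw [mem_closedBall, dist_comm] at hy
  obtain ⟨hn1, hn2⟩ := norm_sub_dist_le x y
  rw [hxn] at hn1 hn2
  have hy0 : 0 < ‖y‖ := by linarith
  have hhx : height x = r * θ := by simp [x, height, pt]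
  have hhy : |height y| ≤ |θ| * r + L := by
    have h := abs_height_sub_le x y
    rw [hhx] at h
    have := abs_sub_abs_le_abs_sub (height y) (r * θ)
    rw [abs_sub_comm, abs_mul, abs_of_pos hr0] at this
    linarith
  have hrθ := mul_le_mul_of_nonneg_right hθ hr0.le
  have hyd : |height y| ≤ δ * ‖y‖ := by
    nlinarith [mul_le_mul_of_nonneg_left (show r / 2 ≤ ‖y‖ by linarith) hδ.le]
  have hlev := hl ν f hf y (by linarith) hyd
  have hτ' : ‖y‖⁻¹ ≤ 4 * r⁻¹ := by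
    rw [← div_eq_mul_inv, le_div_iff₀ hr0, inv_mul_le_iff₀ hy0]
    linarith
  have hθ' : |height y / ‖y‖| ≤ 2 * |θ| + 2 * Real.sqrt r⁻¹ := by
    have hLs : L ≤ r * Real.sqrt r⁻¹ := by
      rw [← sq_le_sq₀ hL (by positivity), mul_pow, Real.sq_sqrt (by positivity)]
      rw [show r ^ 2 * r⁻¹ = r by field_simp]
      linarith [pow_two L]
    rw [abs_div, abs_norm, div_le_iff₀ hy0]
    nlinarith [mul_le_mul_of_nonneg_left (show r / 2 ≤ ‖y‖ by linarith)
      (by positivity : 0 ≤ 2 * |θ| + 2 * Real.sqrt r⁻¹)]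
  have hy1 : ‖y‖⁻¹ ≤ 1 := inv_le_one_of_one_le₀ (by linarith)
  have hbd : bd K M η ‖y‖⁻¹ (height y / ‖y‖) ≤ 4 ^ 8 * ((K + M) * scale η r⁻¹ θ) := by
    refine (bd_le_scale hK hM hη (inv_nonneg.2 hy0.le) hy1 _).trans ?_
    refine (mul_le_mul_of_nonneg_left (scale_near hη hτ' hθ') (by linarith)).trans_eq ?_
    ring
  refine hlev.trans ?_
  rw [Setup.G, mul_tailG_eq S.a S.k hr0 hy0]
  have h1 : (‖y‖ / r) ^ (S.k / S.a - 1) ≤ 2 ^ |S.k / S.a - 1| := by
    refine rpow_le_two ?_ ?_ _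
    · rw [le_div_iff₀ hr0]; linarith
    · rw [div_le_iff₀ hr0]; linarith
  have h2 : Real.exp (-(S.a * (‖y‖ - r))) ≤ Real.exp (-(S.a * ⟪r⁻¹ • x, y - x⟫)) := by
    have he : ‖r⁻¹ • x‖ = 1 := by
      rw [norm_smul, hxn, Real.norm_of_nonneg (by positivity), inv_mul_cancel₀ hr0.ne']
    have := (le_abs_self _).trans (abs_inner_unit he y)
    refine Real.exp_le_exp.2 (neg_le_neg (mul_le_mul_of_nonneg_left ?_ S.data.a_pos.le))
    rw [inner_sub_right, real_inner_smul_left x x r⁻¹, real_inner_self_eq_norm_sq, hxn,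
      show r⁻¹ * r ^ 2 = r by field_simp]
    linarith
  have hG : 0 ≤ r * tailG S.a S.k r := (mul_pos hr0 (tailG_pos _ _ hr0)).le
  have hbd0 := bd_nonneg hK hM hη ‖y‖⁻¹ (height y / ‖y‖)
  refine (mul_le_mul (mul_le_mul_of_nonneg_right
    (mul_le_mul h1 h2 (Real.exp_pos _).le (by positivity)) hG) hbd hbd0 (by positivity)).trans_eq ?_
  rw [winC]
  ring

lemma integrable_drift_mul {a ρ B : ℝ} (ha : 0 ≤ a) (hρ : 0 < ρ) {e : Space} (he : ‖e‖ = 1)
    {x : Space} {Φ : Space → ℝ} (hc : ContinuousOn Φ (closedBall x ρ))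
    (hb : ∀ y ∈ closedBall x ρ, |Φ y| ≤ B) :
    Integrable fun y => drift a ρ e (y - x) * Φ y := by
  have hd := (integrable_drift ha hρ he).comp_sub_right x
  refine (integrableOn_iff_integrable_of_support_subset (s := closedBall x ρ) fun y hy => ?_).1 ?_
  · rw [mem_closedBall, dist_eq_norm]
    exact le_of_not_gt fun h => left_ne_zero_of_mul hy (drift_zero hρ e h)
  refine (hd.norm.mul_const B).integrableOn.mono'
    (hd.aestronglyMeasurable.restrict.mul (hc.aestronglyMeasurable measurableSet_closedBall))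
    ((ae_restrict_iff' measurableSet_closedBall).2 (Eventually.of_forall fun y hy => ?_))
  rw [norm_mul]
  exact mul_le_mul_of_nonneg_left (hb y hy) (norm_nonneg _)

/-- The mean value formula with drift, up to the potential. -/
lemma drift_point {S : Setup} {ν : ℝ} {f : Space → ℝ} (hf : Profile S ν f)
    (hν : ν = 0 ∨ ν = 1 / 2) {x x₀ e : Space} (he : ‖e‖ = 1) {ρ L r B ε : ℝ} (hρ : 0 < ρ)
    (hr : 2 ≤ r) (hxr : r / 2 + (ρ + 1) ≤ ‖x‖) (hbelt : ball x (ρ + 2) ⊆ belt S.R₁)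
    (hsub : closedBall x ρ ⊆ closedBall x₀ L)
    (hB : ∀ y ∈ closedBall x₀ L, |f y * Real.exp (S.a * ⟪e, y - x₀⟫)| ≤ B)
    (hW : IntegrableOn (fun y => |S.W y| * ‖y - x‖⁻¹) (ball x (ρ + 1)) ∧
      ∫ y in ball x (ρ + 1), |S.W y| * ‖y - x‖⁻¹ ≤ ε) :
    |f x * Real.exp (S.a * ⟪e, x - x₀⟫) -
        ∫ y, drift S.a ρ e (y - x) * (f y * Real.exp (S.a * ⟪e, y - x₀⟫))| ≤
      Real.exp (S.a * L) * (Real.exp (S.a * L) * B * (2 * ε + 4 * (|S.k| + 1) / r * newt ρ)) := by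
  have ha := S.data.a_pos
  set h : Space → ℝ := fun y => 2 * (S.v y - S.μ + centrifugal ν y) * f y
  have hll : LocMemLp 2 (ball x (ρ + 1)) h := by
    obtain ⟨w, hev, hw | hw⟩ := hf.evenSol
    · subst hw
      exact hev.locMemLp.mono ((ball_subset_ball (by linarith)).trans hbelt)
    · subst hw
      exact LocMemLp.of_continuousOn (by simp only [h, mul_zero]; exact continuousOn_const)
  have hb1 : ball x (ρ + 1) ⊆ belt S.R₁ := (ball_subset_ball (by linarith)).trans hbelt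
  have hp := point S.a ρ (ρ + 1) (cutTheta ρ) ha.le hρ (by linarith) (contDiff_cutTheta ρ)
    (cutTheta_zero ρ) (cutTheta_eq_zero hρ) x f h (hf.continuousOn.mono hb1)
    (hf.eqn.mono hb1) hll
  have hxL : x ∈ closedBall x₀ L := hsub (mem_closedBall_self hρ.le)
  have hB0 : 0 ≤ B := (abs_nonneg _).trans (hB x hxL)
  have hcx : ∀ y ∈ closedBall x₀ L, |⟪e, y - x₀⟫| ≤ L := fun y hy =>
    (abs_inner_unit he _).trans (by simpa [dist_eq_norm] using hy)
  have hfy : ∀ y ∈ closedBall x₀ L, |f y| ≤ Real.exp (S.a * L) * B := fun y hy => by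
    have h1 := hB y hy
    rw [abs_mul, abs_of_pos (Real.exp_pos _)] at h1
    have h2 : 1 ≤ Real.exp (S.a * L) * Real.exp (S.a * ⟪e, y - x₀⟫) := by
      rw [← Real.exp_add]
      exact Real.one_le_exp (by nlinarith [(abs_le.1 (hcx y hy)).1])
    nlinarith [abs_nonneg (f y), Real.exp_pos (S.a * L)]
  have hcong : ∫ y, kerW S.a (cutTheta ρ) (y - x) * f y =
      (Real.exp (S.a * ⟪e, x - x₀⟫))⁻¹ *
        ∫ y, drift S.a ρ e (y - x) * (f y * Real.exp (S.a * ⟪e, y - x₀⟫)) := by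
    rw [← integral_const_mul]
    refine integral_congr_ae (Eventually.of_forall fun y => ?_)
    simp only [drift, ← Real.exp_neg]
    have e1 : Real.exp (-(S.a * ⟪e, x - x₀⟫)) * Real.exp (-(S.a * ⟪e, y - x⟫)) *
        Real.exp (S.a * ⟪e, y - x₀⟫) = 1 := by
      rw [← Real.exp_add, ← Real.exp_add,
        show y - x₀ = (y - x) + (x - x₀) by abel, inner_add_right]
      rw [show -(S.a * ⟪e, x - x₀⟫) + -(S.a * ⟪e, y - x⟫) +
        S.a * (⟪e, y - x⟫ + ⟪e, x - x₀⟫) = 0 by ring, Real.exp_zero]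
    linear_combination (-(kerW S.a (cutTheta ρ) (y - x) * f y)) * e1
  rw [hp, hcong, sub_mul, mul_comm _⁻¹, mul_assoc, inv_mul_cancel₀ (Real.exp_pos _).ne', mul_one,
    sub_sub_cancel_left, abs_neg, abs_mul, mul_comm, abs_of_pos (Real.exp_pos _)]
  refine mul_le_mul (Real.exp_le_exp.2
    (mul_le_mul_of_nonneg_left (abs_le.1 (hcx x hxL)).2 ha.le)) ?_ (abs_nonneg _)
    (Real.exp_pos _).le
  obtain ⟨hn, hn'⟩ := integrable_newt_at ρ x
  set gW := (ball x (ρ + 1)).indicator fun y => |S.W y| * ‖y - x‖⁻¹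
  have hgW : Integrable gW := hW.1.integrable_indicator measurableSet_ball
  rw [← Real.norm_eq_abs]
  refine (norm_integral_le_of_norm_le
    (g := fun y => Real.exp (S.a * L) * B * (2 * gW y + 4 * (|S.k| + 1) / r *
      (closedBall x ρ).indicator (fun y : Space => ‖y - x‖⁻¹) y))
    (((hgW.const_mul 2).add (hn.const_mul _)).const_mul _)
    (Eventually.of_forall fun y => ?_)).trans ?_
  · by_cases hy : y ∈ closedBall x ρ
    · have hy1 : y ∈ ball x (ρ + 1) := closedBall_subset_ball (by linarith) hy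
      simp only [gW, Set.indicator_of_mem hy, Set.indicator_of_mem hy1]
      rw [mem_closedBall, dist_eq_norm] at hy
      have hny : r / 2 ≤ ‖y‖ := by linarith [(norm_sub_norm_le x y), norm_sub_rev x y]
      have hk : |kerK S.a (cutTheta ρ) (y - x)| ≤ ‖y - x‖⁻¹ := by
        rw [kerK, abs_of_nonneg (mul_nonneg (cutTheta_nonneg _ _) (Yuk.yuk_nonneg _ _))]
        refine (mul_le_of_le_one_left (Yuk.yuk_nonneg _ _)
          (cutTheta_le_one hρ (norm_nonneg _))).trans ?_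
        exact (Yuk.yuk_le _ _).trans (mul_le_of_le_one_right (by positivity)
          (Real.exp_le_one_iff.2 (by nlinarith [norm_nonneg (y - x)])))
      have hc := (abs_centrifugal_le hν (hb1 hy1)).1
      have hc2 : 1 / ‖y‖ ^ 2 ≤ 2 / r := by
        rw [div_le_div_iff₀ (pow_pos (by linarith : 0 < ‖y‖) 2) (by linarith)]
        nlinarith
      have hk2 : |S.k / ‖y‖| ≤ 2 * |S.k| / r := by
        rw [abs_div, abs_norm, div_le_div_iff₀ (by linarith) (by linarith)]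
        nlinarith [mul_le_mul_of_nonneg_left hny (abs_nonneg S.k)]
      have hh : |h y - S.a ^ 2 * f y| ≤
          (2 * |S.W y| + 4 * (|S.k| + 1) / r) * (Real.exp (S.a * L) * B) := by
        rw [show h y - S.a ^ 2 * f y =
          2 * (S.W y + (centrifugal ν y - S.k / ‖y‖)) * f y by
            simp only [h, Setup.W, farPot]; ring, abs_mul]
        refine mul_le_mul ?_ (hfy y (hsub (by rwa [mem_closedBall, dist_eq_norm]))) (abs_nonneg _)
          (by positivity)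
        rw [abs_mul, abs_two]
        have h1 := abs_add_le (S.W y) (centrifugal ν y - S.k / ‖y‖)
        have h2 := abs_sub (centrifugal ν y) (S.k / ‖y‖)
        have h3 : 4 * (|S.k| + 1) / r = 2 * (2 / r) + 2 * (2 * |S.k| / r) := by ring
        linarith
      rw [norm_mul, Real.norm_eq_abs, Real.norm_eq_abs]
      refine (mul_le_mul hk hh (abs_nonneg _) (by positivity)).trans (le_of_eq ?_)
      ring
    · rw [Point.kerK_zero (cutTheta_eq_zero hρ) (by simpa [dist_eq_norm] using hy), zero_mul,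
        norm_zero]
      refine mul_nonneg (by positivity) (add_nonneg (mul_nonneg zero_le_two
        (Set.indicator_nonneg (fun z _ => by positivity) y)) (mul_nonneg (by positivity)
        (Set.indicator_nonneg (fun z _ => by positivity) y)))
  · rw [integral_const_mul, integral_add (hgW.const_mul 2) (hn.const_mul _), integral_const_mul,
      integral_const_mul, hn', integral_indicator measurableSet_ball]
    gcongr
    exact hW.2

lemma exists_close (a p : ℝ) {ε : ℝ} (hε : 0 < ε) :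
    ∃ c : ℝ, 0 < c ∧ ∀ s v : ℝ, |s - 1| ≤ c → |v| ≤ c →
      |s ^ p * Real.exp (-(a * v)) - 1| ≤ ε := by
  have hc : ContinuousAt (fun q : ℝ × ℝ => q.1 ^ p * Real.exp (-(a * q.2))) (1, 0) :=
    (continuousAt_fst.rpow_const (Or.inl one_ne_zero)).mul (by fun_prop)
  obtain ⟨d, hd, h⟩ := Metric.continuousAt_iff.1 hc ε hε
  refine ⟨d / 2, by linarith, fun s v hs hv => ?_⟩
  have := h (x := (s, v)) (by
    rw [Prod.dist_eq, Real.dist_eq, Real.dist_eq, sub_zero]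
    exact max_lt (by linarith) (by linarith))
  simp only [Real.one_rpow, mul_zero, neg_zero, Real.exp_zero, mul_one, Real.dist_eq] at this
  exact this.le

/-- The meridian points of a box are at distance `O(D)`. -/
lemma box_geom {D τ σ θ y : ℝ} (hD : 1 ≤ D) (hτ : 0 < τ) (hDτ : D * τ ≤ 1 / 4)
    (hσ : |σ - τ| ≤ D * τ ^ 2) (hy : |y - θ| ≤ τ) (hθ : |θ| ≤ 1 / 2) (hy2 : |y| ≤ 1 / 2) :
    3 / 4 * τ ≤ σ ∧ σ ≤ 5 / 4 * τ ∧ |σ⁻¹ - τ⁻¹| ≤ 2 * D ∧
      dist (pt σ⁻¹ y) (pt τ⁻¹ θ) ≤ 4 * D := by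
  obtain ⟨h1, h2⟩ := abs_le.1 hσ
  have h3 : D * τ ^ 2 ≤ 1 / 4 * τ := by
    rw [pow_two, ← mul_assoc]; exact mul_le_mul_of_nonneg_right hDτ hτ.le
  have hσ0 : 0 < σ := by linarith
  have h4 : |σ⁻¹ - τ⁻¹| ≤ 2 * D := by
    rw [show σ⁻¹ - τ⁻¹ = (τ - σ) / (σ * τ) by field_simp, abs_div,
      abs_of_pos (by positivity : 0 < σ * τ), div_le_iff₀ (by positivity), abs_sub_comm]
    refine hσ.trans ?_
    rw [show 2 * D * (σ * τ) = D * τ * (2 * σ) by ring, pow_two, ← mul_assoc]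
    exact mul_le_mul_of_nonneg_left (by linarith) (by positivity)
  refine ⟨by linarith, by linarith, h4,
    (dist_pt_le (inv_nonneg.2 hτ.le) hθ hy2).trans ?_⟩
  have h5 := mul_le_mul_of_nonneg_left hy (inv_nonneg.2 hτ.le)
  rw [inv_mul_cancel₀ hτ.ne'] at h5
  linarith

/-- Averages against the weight at two centres. -/
lemma avg_shift {a ρ L B ε : ℝ} (ha : 0 ≤ a) (hρ : 0 < ρ) {e x₀ x₁ : Space} (he : ‖e‖ = 1)
    {Φ : Space → ℝ} (hB : ∀ z ∈ closedBall x₀ L, |Φ z| ≤ B) (hL : ρ + dist x₁ x₀ ≤ L)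
    (hc₀ : ContinuousOn Φ (closedBall x₀ ρ)) (hc₁ : ContinuousOn Φ (closedBall x₁ ρ))
    (hi : Integrable fun z => drift a ρ e (z - (x₁ - x₀)) - drift a ρ e z)
    (hε : ∫ z, |drift a ρ e (z - (x₁ - x₀)) - drift a ρ e z| ≤ ε) :
    |(∫ z, drift a ρ e (z - x₁) * Φ z) - ∫ z, drift a ρ e (z - x₀) * Φ z| ≤ B * ε := by
  have hd0 : 0 ≤ dist x₁ x₀ := dist_nonneg
  have hs0 : closedBall x₀ ρ ⊆ closedBall x₀ L := closedBall_subset_closedBall (by linarith)
  have hs1 : closedBall x₁ ρ ⊆ closedBall x₀ L := closedBall_subset_closedBall' hL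
  have hB0 : 0 ≤ B := (abs_nonneg _).trans (hB x₀ (hs0 (mem_closedBall_self hρ.le)))
  have i1 := integrable_drift_mul ha hρ he hc₁ fun z hz => hB z (hs1 hz)
  have i0 := integrable_drift_mul ha hρ he hc₀ fun z hz => hB z (hs0 hz)
  rw [← integral_sub i1 i0, ← Real.norm_eq_abs]
  refine (norm_integral_le_of_norm_le ((hi.abs.const_mul B).comp_sub_right x₀)
    (Eventually.of_forall fun z => ?_)).trans ?_
  · rw [← sub_mul, norm_mul, Real.norm_eq_abs, Real.norm_eq_abs,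
      show z - x₀ - (x₁ - x₀) = z - x₁ by abel, mul_comm B]
    by_cases hz : z ∈ closedBall x₀ L
    · exact mul_le_mul_of_nonneg_left (hB z hz) (abs_nonneg _)
    · have h0 : z ∉ closedBall x₀ ρ := fun h => hz (hs0 h)
      have h1 : z ∉ closedBall x₁ ρ := fun h => hz (hs1 h)
      rw [mem_closedBall, dist_eq_norm, not_le] at h0 h1
      rw [drift_zero hρ e h1, drift_zero hρ e h0, sub_zero, abs_zero, zero_mul, zero_mul]
  · rw [integral_sub_right_eq_self
      (fun z => B * |drift a ρ e (z - (x₁ - x₀)) - drift a ρ e z|) x₀, integral_const_mul]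
    exact mul_le_mul_of_nonneg_left hε hB0

/-- The function with drift at two points of a window. -/
lemma window_diff {S : Setup} {ν : ℝ} {f : Space → ℝ} (hf : Profile S ν f)
    (hν : ν = 0 ∨ ν = 1 / 2) {x₀ x₁ e : Space} (he : ‖e‖ = 1) {ρ L r B ε εd D : ℝ} (hρ : 0 < ρ)
    (hr : 2 ≤ r) (hd : dist x₁ x₀ ≤ D) (hL : ρ + D = L)
    (hB : ∀ y ∈ closedBall x₀ L, |f y * Real.exp (S.a * ⟪e, y - x₀⟫)| ≤ B)
    (hx : ∀ x : Space, x = x₀ ∨ x = x₁ → r / 2 + (ρ + 1) ≤ ‖x‖ ∧ ball x (ρ + 2) ⊆ belt S.R₁ ∧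
      (IntegrableOn (fun y => |S.W y| * ‖y - x‖⁻¹) (ball x (ρ + 1)) ∧
        ∫ y in ball x (ρ + 1), |S.W y| * ‖y - x‖⁻¹ ≤ ε))
    (hi : Integrable fun z => drift S.a ρ e (z - (x₁ - x₀)) - drift S.a ρ e z)
    (hεd : ∫ z, |drift S.a ρ e (z - (x₁ - x₀)) - drift S.a ρ e z| ≤ εd) :
    |f x₁ * Real.exp (S.a * ⟪e, x₁ - x₀⟫) - f x₀| ≤
      B * εd + 2 * (Real.exp (S.a * L) *
        (Real.exp (S.a * L) * B * (2 * ε + 4 * (|S.k| + 1) / r * newt ρ))) := by
  have hd0 : 0 ≤ dist x₁ x₀ := dist_nonneg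
  obtain ⟨a0, b0, c0⟩ := hx x₀ (Or.inl rfl)
  obtain ⟨a1, b1, c1⟩ := hx x₁ (Or.inr rfl)
  have s0 : closedBall x₀ ρ ⊆ closedBall x₀ L := closedBall_subset_closedBall (by linarith)
  have s1 : closedBall x₁ ρ ⊆ closedBall x₀ L := closedBall_subset_closedBall' (by linarith)
  have hc : ∀ x : Space, ball x (ρ + 2) ⊆ belt S.R₁ →
      ContinuousOn (fun y => f y * Real.exp (S.a * ⟪e, y - x₀⟫)) (closedBall x ρ) := fun x hb =>
    (hf.continuousOn.mono ((closedBall_subset_ball (by linarith)).trans hb)).mul (by fun_prop)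
  have e1 := drift_point hf hν he hρ hr a1 b1 s1 hB c1
  have e0 := drift_point hf hν he hρ hr a0 b0 s0 hB c0
  have h := avg_shift S.data.a_pos.le hρ he hB (by linarith) (hc x₀ b0) (hc x₁ b1) hi hεd
  simp only [sub_self, inner_zero_right, mul_zero, Real.exp_zero, mul_one] at e0
  set M0 := Real.exp (S.a * L) *
    (Real.exp (S.a * L) * B * (2 * ε + 4 * (|S.k| + 1) / r * newt ρ))
  obtain ⟨p1, p2⟩ := abs_le.1 e1
  obtain ⟨p3, p4⟩ := abs_le.1 e0
  obtain ⟨p5, p6⟩ := abs_le.1 h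
  exact abs_le.2 ⟨by linarith, by linarith⟩

/-- The factor between `r G` and the exponential with drift. -/
lemma weight_close {r r' c D : ℝ} (hr : 0 < r) (hr' : r / 2 ≤ r') (hrr : |r' - r| ≤ 2 * D)
    (hD1 : 4 * D ≤ r) (hD2 : 4 * D ≤ c * r) (hD3 : 32 * D ^ 2 ≤ c * r) (hc : 0 ≤ c)
    {e x₀ x₁ : Space} (he : ‖e‖ = 1) (hx₀ : x₀ = r • e) (hx₁ : ‖x₁‖ = r')
    (hd : dist x₁ x₀ ≤ 4 * D) :
    |r' / r - 1| ≤ c ∧ |r' - ⟪e, x₁⟫| ≤ c := by
  refine ⟨?_, ?_⟩
  · rw [div_sub_one hr.ne', abs_div, abs_of_pos hr, div_le_iff₀ hr]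
    linarith [abs_nonneg (r' - r)]
  have hinner : 0 ≤ ⟪e, x₁⟫ := by
    have h := abs_inner_unit he (x₁ - x₀)
    rw [← dist_eq_norm, hx₀, inner_sub_right, inner_smul_right, real_inner_self_eq_norm_sq, he] at h
    rw [hx₀] at hd
    linarith [(abs_le.1 (h.trans hd)).1]
  rw [← hx₁, abs_of_nonneg (by linarith [(le_abs_self _).trans (abs_inner_unit he x₁)])]
  have h := norm_sub_inner_le he r hinner
  rw [← hx₀, ← dist_eq_norm] at h
  have h2 : dist x₁ x₀ ^ 2 ≤ 16 * D ^ 2 := (pow_le_pow_left₀ dist_nonneg hd 2).trans_eq (by ring)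
  have h3 := mul_le_mul_of_nonneg_left hr' hc
  refine le_of_mul_le_mul_right (h.trans (h2.trans ?_)) (by linarith : 0 < ‖x₁‖)
  rw [hx₁]
  linarith

/-- The level at a point of the box. -/
lemma tred_near {S : Setup} {δ R K M η : ℝ} (hl : Level S δ R K M η) (hK : 0 ≤ K) (hM : 0 ≤ M)
    (hη : 0 ≤ η) {ν : ℝ} {f : Space → ℝ} (hf : Profile S ν f) {τ θ σ y : ℝ} (hτ : 0 < τ)
    (hσ1 : 3 / 4 * τ ≤ σ) (hσ2 : σ ≤ 5 / 4 * τ) (hRτ : R * (8 * τ) ≤ 1) (hy : |y - θ| ≤ τ)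
    (hyδ : |y| ≤ δ) (hδ : δ ≤ 1) (hR : 1 ≤ R) :
    |tred S f σ y| ≤ 4 ^ 8 * ((K + M) * scale η τ θ) := by
  have hσ0 : 0 < σ := by linarith
  have hτ1 : 8 * τ ≤ 1 :=
    (le_mul_of_one_le_left (by linarith) hR).trans hRτ
  refine (hl.tred_le hf hσ0 ?_ hyδ hδ).trans
    ((bd_le_scale hK hM hη hσ0.le (by linarith) y).trans ?_)
  · exact (mul_le_mul_of_nonneg_left (by linarith) (by linarith)).trans hRτ
  · have h : τ ≤ Real.sqrt τ := Real.le_sqrt_of_sq_le (by nlinarith only [hτ1, hτ])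
    have hy' : |y| ≤ 2 * |θ| + 2 * Real.sqrt τ := by
      linarith [abs_sub_abs_le_abs_sub y θ, abs_nonneg θ, Real.sqrt_nonneg τ]
    refine (mul_le_mul_of_nonneg_left (scale_near hη (show σ ≤ 4 * τ by linarith) hy')
      (by linarith)).trans_eq ?_
    ring

lemma collect {q P : ℝ} {K M : ℝ} (hq : 0 ≤ q) (hP : 0 ≤ (K + M) * P) :
    q / 2 * ((K + M) * P) + q / (4 * 4 ^ 8) * (4 ^ 8 * ((K + M) * P)) ≤ q * (K + M) * P := by
  have h : q / (4 * 4 ^ 8) * (4 ^ 8 * ((K + M) * P)) = q / 4 * ((K + M) * P) := by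
    field_simp
  rw [h]
  nlinarith [mul_nonneg hq hP]

/-- Small oscillation over boxes. -/
theorem osc_of (hKS : KernelSmallStmt) : OscStmt := by
  intro S D q hD hq
  have ha := S.data.a_pos
  set p := S.k / S.a - 1 with hp
  set CF := winC S with hCF
  have hCF0 : 0 < CF := by rw [hCF, winC]; positivity
  obtain ⟨ρ, hρ1, hshift⟩ := drift_shift (D := 4 * D) ha (by linarith)
    (by positivity : 0 < q / (4 * CF))
  set L := ρ + 4 * D with hL
  set EE := Real.exp (S.a * L) * Real.exp (S.a * L) * CF with hEE'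
  have hEE : 0 < EE := by positivity
  set J := 4 * (|S.k| + 1) * newt ρ with hJ
  have hJ0 : 0 ≤ J := mul_nonneg (by positivity) (newt_nonneg ρ)
  obtain ⟨δ₁, R₁, hδ₁, hsmall⟩ :=
    hKS S (ρ + 1) (q / (32 * EE)) (by linarith) (by positivity)
  obtain ⟨c, hc0, hclose⟩ := exists_close S.a p (by positivity : 0 < q / (4 * 4 ^ 8))
  refine ⟨min δ₁ (1 / 4), lt_min hδ₁ (by norm_num), fun δ hδ hδle => ?_⟩
  refine ⟨max (max (max 1 S.R₁) (max (max R₁ 0 + L) (4 * L + 4)))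
    (max (max (8 * L / δ) (L * L))
      (max (16 * J * EE / q) (max (4 * D / c) (32 * D ^ 2 / c)))),
    fun R K M η hP hK hl ν f hf τ θ σ y hτ hRτ hθ hσ hy => ?_⟩
  have hR := hP.R_ge
  simp only [max_le_iff] at hR
  obtain ⟨⟨⟨hR1, hRS⟩, hRa, hRb⟩, ⟨hRc, hRd⟩, hRe, hRg, hRh⟩ := hR
  rw [div_le_iff₀ hδ] at hRc
  rw [div_le_iff₀ hq] at hRe
  rw [div_le_iff₀ hc0] at hRg hRh
  have hM := hP.M_nonneg
  have hη := hP.η_nonneg
  obtain ⟨hδ1', hδ4⟩ := le_min_iff.1 hδle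
  have hP0 : 0 ≤ (K + M) * scale η τ θ := mul_nonneg (by linarith) (scale_nonneg hη _ _)
  by_cases hν : ν = 0 ∨ ν = 1 / 2
  swap
  · have hf0 := hf.sector.resolve_left hν
    subst hf0
    simp only [tred, red, zero_div, sub_self, abs_zero, mul_assoc]
    positivity
  obtain ⟨r, hr⟩ : ∃ r, r = τ⁻¹ := ⟨_, rfl⟩
  have hr0 : 0 < r := hr ▸ inv_pos.2 hτ
  have hrR : 8 * R ≤ r := by
    rw [hr, ← one_div, le_div_iff₀ hτ]; exact hRτ
  have hRmulR : R ≤ r := by linarith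
  have hLδ : 8 * L ≤ δ * r :=
    hRc.trans (by rw [mul_comm δ]; exact mul_le_mul_of_nonneg_right hRmulR hδ.le)
  have hτr : τ * r = 1 := by rw [hr, mul_inv_cancel₀ hτ.ne']
  have hDτ : D * τ ≤ 1 / 4 := by
    have h1 := mul_le_mul_of_nonneg_left (show 4 * D ≤ r by linarith) hτ.le
    rw [hτr] at h1
    linarith
  have hτδ : τ ≤ δ / 4 := by
    have h1 := mul_le_mul_of_nonneg_left (show 4 ≤ δ * r by linarith) hτ.le
    rw [show τ * (δ * r) = δ * (τ * r) by ring, hτr] at h1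
    linarith
  have hy2 : |y| ≤ δ / 2 := by linarith [abs_sub_abs_le_abs_sub y θ]
  obtain ⟨hσ1, hσ2, hrr, hdist⟩ :=
    box_geom hD hτ hDτ hσ hy (by linarith) (by linarith : |y| ≤ 1 / 2)
  have hσ0 : 0 < σ := by linarith
  obtain ⟨r', hr'⟩ : ∃ r', r' = σ⁻¹ := ⟨_, rfl⟩
  rw [← hr, ← hr'] at hrr hdist
  obtain ⟨hrr1, hrr2⟩ := abs_le.1 hrr
  have hr'0 : 0 < r' := by linarith
  have hn0 : ‖pt r θ‖ = r := norm_pt hr0.le (by
    rw [← sq_abs]; exact pow_le_one₀ (abs_nonneg _) (by linarith))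
  have hn1 : ‖pt r' y‖ = r' := norm_pt hr'0.le (by
    rw [← sq_abs]; exact pow_le_one₀ (abs_nonneg _) (by linarith))
  set x₀ := pt r θ with hx₀
  set x₁ := pt r' y with hx₁
  obtain ⟨e, he'⟩ : ∃ e, e = r⁻¹ • x₀ := ⟨_, rfl⟩
  have he : ‖e‖ = 1 := by
    rw [he', norm_smul, hn0, Real.norm_of_nonneg (by positivity), inv_mul_cancel₀ hr0.ne']
  have hre : x₀ = r • e := by rw [he', smul_smul, mul_inv_cancel₀ hr0.ne', one_smul]
  set B := r * tailG S.a S.k r * (CF * ((K + M) * scale η τ θ)) with hB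
  have hG : 0 < r * tailG S.a S.k r := mul_pos hr0 (tailG_pos _ _ hr0)
  have hΦ : ∀ z ∈ closedBall x₀ L, |f z * Real.exp (S.a * ⟪e, z - x₀⟫)| ≤ B := fun z hz => by
    have hb := window_bound hl hK hM hη (by linarith) hδ hf (L := L) (by linarith) (by linarith)
      (by linarith) (by linarith) (by linarith) hLδ hθ hz
    rw [show r⁻¹ = τ by rw [hr, inv_inv], ← hCF, ← hB, show τ = r⁻¹ by rw [hr, inv_inv],
      ← hx₀, ← he'] at hb
    rw [abs_mul, abs_of_pos (Real.exp_pos _)]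
    refine (mul_le_mul_of_nonneg_right hb (Real.exp_pos _).le).trans_eq ?_
    rw [mul_assoc, ← Real.exp_add, neg_add_cancel, Real.exp_zero, mul_one]
  have hht : ∀ x : Space, x = x₀ ∨ x = x₁ →
      |height x| ≤ δ * ‖x‖ ∧ r - 2 * D ≤ ‖x‖ := by
    rintro x (rfl | rfl)
    · rw [hn0, hx₀, show height (pt r θ) = r * θ by simp [height, pt], abs_mul, abs_of_pos hr0,
        mul_comm δ]
      exact ⟨mul_le_mul_of_nonneg_left (by linarith) hr0.le, by linarith⟩
    · rw [hn1, hx₁, show height (pt r' y) = r' * y by simp [height, pt], abs_mul,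
        abs_of_pos hr'0, mul_comm δ]
      exact ⟨mul_le_mul_of_nonneg_left (by linarith) hr'0.le, by linarith⟩
  have hx : ∀ x : Space, x = x₀ ∨ x = x₁ → r / 2 + (ρ + 1) ≤ ‖x‖ ∧ ball x (ρ + 2) ⊆ belt S.R₁ ∧
      (IntegrableOn (fun y => |S.W y| * ‖y - x‖⁻¹) (ball x (ρ + 1)) ∧
        ∫ y in ball x (ρ + 1), |S.W y| * ‖y - x‖⁻¹ ≤ q / (32 * EE)) := fun x hxx => by
    obtain ⟨h1, h2⟩ := hht x hxx
    have h3 := h1.trans (mul_le_mul_of_nonneg_right hδ4 (norm_nonneg x))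
    exact ⟨by linarith, ball_subset_belt (by linarith) (by linarith),
      hsmall x (by linarith [le_max_left R₁ 0])
        (h1.trans (mul_le_mul_of_nonneg_right hδ1' (norm_nonneg x)))⟩
  obtain ⟨hdi, hdb⟩ := hshift e (x₁ - x₀) he (by rwa [← dist_eq_norm])
  have hmain := window_diff hf hν he (by linarith) (by linarith : 2 ≤ r) hdist rfl hΦ hx hdi hdb
  have hJr : 4 * (|S.k| + 1) / r * newt ρ ≤ q / (16 * EE) := by
    rw [div_mul_eq_mul_div, ← hJ, div_le_div_iff₀ hr0 (by positivity)]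
    have h1 := mul_le_mul_of_nonneg_left hRmulR hq.le
    linarith
  have hB0 : 0 ≤ B := by positivity
  have hbound : B * (q / (4 * CF)) + 2 * (Real.exp (S.a * L) * (Real.exp (S.a * L) * B *
      (2 * (q / (32 * EE)) + 4 * (|S.k| + 1) / r * newt ρ))) ≤
      r * tailG S.a S.k r * (q / 2 * ((K + M) * scale η τ θ)) := by
    calc _ ≤ B * (q / (4 * CF)) + 2 * (Real.exp (S.a * L) * (Real.exp (S.a * L) * B *
          (2 * (q / (32 * EE)) + q / (16 * EE)))) := by gcongr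
      _ = _ := by
        rw [hB, hEE']
        field_simp
        ring
  set ω := (r' / r) ^ p * Real.exp (-(S.a * (r' - ⟪e, x₁⟫)))
  have hΦ0 : f x₀ = r * tailG S.a S.k r * tred S f τ θ := by
    rw [tred, red, ← hr, ← hx₀, mul_div_cancel₀ _ hG.ne']
  have hΦ1 : f x₁ * Real.exp (S.a * ⟪e, x₁ - x₀⟫) =
      r * tailG S.a S.k r * (ω * tred S f σ y) := by
    have hG' : 0 < r' * tailG S.a S.k r' := mul_pos hr'0 (tailG_pos _ _ hr'0)
    have h1 : f x₁ = r' * tailG S.a S.k r' * tred S f σ y := by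
      rw [tred, red, ← hr', ← hx₁, mul_div_cancel₀ _ hG'.ne']
    have h2 : Real.exp (-(S.a * (r' - r))) * Real.exp (S.a * (⟪e, x₁⟫ - r)) =
        Real.exp (-(S.a * (r' - ⟪e, x₁⟫))) := by
      rw [← Real.exp_add]; ring_nf
    simp only [ω]
    rw [h1, mul_tailG_eq S.a S.k hr0 hr'0, ← hp, inner_sub_right, ← h2, hre, inner_smul_right,
      real_inner_self_eq_norm_sq, he]
    ring_nf
  rw [hΦ0, hΦ1, ← mul_sub, abs_mul, abs_of_pos hG] at hmain
  have hu := le_of_mul_le_mul_left (hmain.trans hbound) hG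
  obtain ⟨hs, hv⟩ := weight_close hr0 (by linarith) hrr (by linarith)
    (hRg.trans (by rw [mul_comm c]; exact mul_le_mul_of_nonneg_right hRmulR hc0.le))
    (hRh.trans (by rw [mul_comm c]; exact mul_le_mul_of_nonneg_right hRmulR hc0.le))
    hc0.le he hre hn1 hdist
  have hω : |ω - 1| ≤ q / (4 * 4 ^ 8) := hclose _ _ hs hv
  have hτ1 : τ ≤ 1 := by linarith
  have hu1 : |tred S f σ y| ≤ 4 ^ 8 * ((K + M) * scale η τ θ) :=
    tred_near hl hK hM hη hf hτ hσ1 hσ2 (by linarith) hy (by linarith) (by linarith) (by linarith)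
  calc |tred S f σ y - tred S f τ θ|
      ≤ |ω * tred S f σ y - tred S f τ θ| + |ω - 1| * |tred S f σ y| := by
        rw [← abs_mul, show tred S f σ y - tred S f τ θ =
          ω * tred S f σ y - tred S f τ θ - (ω - 1) * tred S f σ y by ring]
        exact abs_sub _ _
    _ ≤ q / 2 * ((K + M) * scale η τ θ) +
          q / (4 * 4 ^ 8) * (4 ^ 8 * ((K + M) * scale η τ θ)) :=
        add_le_add hu (mul_le_mul hω hu1 (abs_nonneg _) (by positivity))
    _ ≤ q * (K + M) * scale η τ θ := collect hq.le hP0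

end Vale.Agent.P363.Ext.Growth
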