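import Vale.Agent.P363.Ext.Growth.Basic
import Vale.Agent.P363.Ext.NearPlane
import Vale.Agent.P363.Ext.Point
import Vale.Agent.P363.Ext.Ring

/-!
P363, Kohn-Sham side, `GrowthStmt`: the band `|z| ≤ 2 / r`. The mean value formulas at `x`, at its
mirror image and at their midpoint on the plane leave `O (z²)` second differences and ring averages
of the potential, of relative size `(ρ + r ^ (-1 / 6)) / r` against the bound of the level.
-/

noncomputable section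

namespace Vale.Agent.P363.Ext.Growth

open MeasureTheory Metric Set Filter
open scoped BigOperators Topology

/-- The bound of a level at distance below one from the plane. -/
lemma Level.near {S : Setup} {δ R K M η : ℝ} (h : Level S δ R K M η) {ν : ℝ} {f : Space → ℝ}
    (hf : Profile S ν f) (hK : 0 ≤ K) (hM : 0 ≤ M) (hη : 0 ≤ η) (hδ : 0 ≤ δ) (hδR : 1 ≤ δ * R)
    {CG : ℝ} (hCG : 0 ≤ CG)
    (htail : ∀ r s : ℝ, 2 ≤ r → |s - r| ≤ 1 → tailG S.a S.k s ≤ CG * tailG S.a S.k r)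
    {r τ : ℝ} (hr : 2 ≤ r) (hτ : τ = r⁻¹) {y : Space} (hyn : |‖y‖ - r| ≤ 1)
    (hyh : |height y| ≤ 1) (hRr : R ≤ ‖y‖) :
    |f y| ≤ 12 * 4 ^ 7 * CG *
      (tailG S.a S.k r * (K * τ ^ 3 + M * (Real.sqrt τ ^ 7 + η))) := by
  obtain ⟨h1, h2⟩ := abs_le.1 hyn
  have hr0 : 0 < r := by linarith
  have hy0 : 0 < ‖y‖ := by linarith
  have hτ0 : 0 < τ := by rw [hτ]; positivity
  have hτ1 : τ ≤ 1 := by rw [hτ]; exact inv_le_one_of_one_le₀ (by linarith)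
  have hyδ : |height y| ≤ δ * ‖y‖ := hyh.trans (hδR.trans (mul_le_mul_of_nonneg_left hRr hδ))
  have hrτ : r * τ = 1 := by rw [hτ, mul_inv_cancel₀ hr0.ne']
  have hσ : ‖y‖⁻¹ ≤ 2 * τ := by
    rw [hτ, inv_le_iff_one_le_mul₀ hy0, mul_comm 2 r⁻¹, mul_assoc, le_inv_mul_iff₀ hr0]
    linarith
  have hσ0 : 0 ≤ ‖y‖⁻¹ := by positivity
  have hθ : |height y / ‖y‖| ≤ 2 * τ := by
    rw [abs_div, abs_norm, div_eq_mul_inv]
    exact (mul_le_of_le_one_left hσ0 hyh).trans hσ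
  set s := Real.sqrt τ with hs
  have hs0 : 0 ≤ s := Real.sqrt_nonneg _
  have hτs : τ ≤ s := Real.le_sqrt_of_sq_le (by nlinarith)
  have e4 : (‖y‖⁻¹) ^ 4 ≤ 16 * τ ^ 4 :=
    (pow_le_pow_left₀ hσ0 hσ 4).trans_eq (by ring)
  have el : lin η ‖y‖⁻¹ (height y / ‖y‖) ≤ 6 * τ * (4 ^ 7 * (s ^ 7 + η)) := by
    have a1 : |height y / ‖y‖| + (‖y‖⁻¹) ^ 2 ≤ 6 * τ := by
      have := pow_le_pow_left₀ hσ0 hσ 2
      nlinarith
    have a2 : Real.sqrt ‖y‖⁻¹ ≤ 2 * s := by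
      rw [hs, Real.sqrt_le_left (by positivity), mul_pow, Real.sq_sqrt hτ0.le]
      linarith
    have a3 : (Real.sqrt ‖y‖⁻¹ + |height y / ‖y‖|) ^ 7 ≤ 4 ^ 7 * s ^ 7 := by
      rw [← mul_pow]
      exact pow_le_pow_left₀ (by positivity) (by linarith) 7
    refine mul_le_mul a1 ?_ (add_nonneg (by positivity) hη) (by positivity)
    linarith [mul_le_mul_of_nonneg_right (by norm_num : (1 : ℝ) ≤ 4 ^ 7) hη]
  have hb : bd K M η ‖y‖⁻¹ (height y / ‖y‖) ≤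
      6 * 4 ^ 7 * τ * (K * τ ^ 3 + M * (s ^ 7 + η)) := by
    have b1 := mul_le_mul_of_nonneg_left e4 hK
    have b2 := mul_le_mul_of_nonneg_left el hM
    rw [bd]
    nlinarith [mul_nonneg hK (pow_nonneg hτ0.le 4)]
  have hG : ‖y‖ * S.G y ≤ 2 * r * (CG * tailG S.a S.k r) :=
    mul_le_mul (by linarith) (htail r ‖y‖ hr hyn) (tailG_pos _ _ hy0).le (by linarith)
  refine (h ν f hf y hRr hyδ).trans ((mul_le_mul hG hb (bd_nonneg hK hM hη _ _) ?_).trans_eq ?_)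
  · have := tailG_pos S.a S.k hr0
    positivity
  · calc 2 * r * (CG * tailG S.a S.k r) * (6 * 4 ^ 7 * τ * (K * τ ^ 3 + M * (s ^ 7 + η)))
        = 12 * 4 ^ 7 * CG * (r * τ) * (tailG S.a S.k r * (K * τ ^ 3 + M * (s ^ 7 + η))) := by ring
      _ = _ := by rw [hrτ, mul_one]

/-- The ring scale in the band. -/
lemma band_scale {ρ r z : ℝ} (hρ : 0 < ρ) (hρ3 : 3 * ρ ≤ 1) (hr : 1 ≤ r)
    (hzr : z ≤ 2 / r) :
    Real.sqrt z * (3 * ρ) ^ (1 / 6 : ℝ) / (r / 2) ^ (2 / 3 : ℝ) + z * (3 * ρ) ≤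
      (4 * r ^ (-(1 / 6) : ℝ) + 6 * ρ) / r := by
  have hr0 : 0 < r := by linarith
  rw [add_div]
  refine add_le_add ?_ ?_
  · have h1 : (3 * ρ) ^ (1 / 6 : ℝ) ≤ 1 := Real.rpow_le_one (by positivity) hρ3 (by norm_num)
    have h2 : Real.sqrt z ≤ 2 * r ^ (-(1 / 2) : ℝ) := by
      refine (Real.sqrt_le_sqrt hzr).trans ?_
      rw [Real.sqrt_div (by norm_num), Real.rpow_neg hr0.le, ← Real.sqrt_eq_rpow, div_eq_mul_inv]
      exact mul_le_mul_of_nonneg_right (Real.sqrt_le_left (by norm_num) |>.2 (by norm_num))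
        (by positivity)
    have h3 : (r / 2) ^ (2 / 3 : ℝ) = r ^ (2 / 3 : ℝ) / 2 ^ (2 / 3 : ℝ) :=
      Real.div_rpow hr0.le (by norm_num) _
    have h4 : (2 : ℝ) ^ (2 / 3 : ℝ) ≤ 2 :=
      Real.rpow_le_self_of_one_le (by norm_num) (by norm_num)
    rw [h3, div_div_eq_mul_div]
    calc Real.sqrt z * (3 * ρ) ^ (1 / 6 : ℝ) * 2 ^ (2 / 3 : ℝ) / r ^ (2 / 3 : ℝ)
        ≤ 2 * r ^ (-(1 / 2) : ℝ) * 1 * 2 / r ^ (2 / 3 : ℝ) := by gcongr
      _ = 4 * (r ^ (-(1 / 2) : ℝ) / r ^ (2 / 3 : ℝ)) := by ring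
      _ = 4 * (r ^ (-(1 / 6) : ℝ) / r) := by
          rw [← Real.rpow_sub hr0, ← Real.rpow_sub_one hr0.ne']
          norm_num
      _ = 4 * r ^ (-(1 / 6) : ℝ) / r := by ring
  · refine (mul_le_mul_of_nonneg_right hzr (by positivity)).trans_eq ?_
    ring

/-- The centres used in the band. -/
lemma band_geom {S : Setup} {x p : Space} {r z ρ : ℝ} (hp : p = proj x) (hpx : dist x p = z)
    (hxn : ‖x‖ = r) (hρ : 0 < ρ) (hρ8 : ρ ≤ 1 / 8) (hzρ : z ≤ ρ / 2) (hr8 : S.R₁ + 8 ≤ r) :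
    |‖p‖ - r| ≤ ρ ∧ ∀ c : Space, dist c p ≤ z →
      ball c (3 * ρ) ⊆ belt S.R₁ ∧ 1 ≤ axisDist c ∧ 2 * (3 * ρ) ≤ axisDist c ∧
        r / 2 ≤ axisDist c := by
  have hR1 := one_le_R₁ S
  have hpn := norm_sub_dist_le x p
  rw [hpx, hxn] at hpn
  have hp0 : height p = 0 := by rw [hp]; exact height_proj x
  have hpr : |‖p‖ - r| ≤ ρ := abs_le.2 ⟨by linarith, by linarith⟩
  have hcen : ∀ c : Space, dist c p ≤ z →
      ball c (3 * ρ) ⊆ belt S.R₁ ∧ 1 ≤ axisDist c ∧ 2 * (3 * ρ) ≤ axisDist c ∧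
        r / 2 ≤ axisDist c := by
    intro c hc
    have h1 := norm_sub_dist_le p c
    have h2 := abs_height_sub_le c p
    rw [hp0, sub_zero] at h2
    rw [dist_comm] at h1
    have h3 := axisDist_ge c
    refine ⟨ball_subset_belt ?_ ?_, ?_, ?_, ?_⟩ <;> linarith [h1.1, h1.2]
  exact ⟨hpr, hcen⟩

/-- The value on the plane. -/
lemma band_plane {S : Setup} {f w : Space → ℝ} (hw : EvenSol S 1 f w) {p : Space} {CG r τ ρ G : ℝ}
    (htail : ∀ r s : ℝ, 2 ≤ r → |s - r| ≤ 1 → tailG S.a S.k s ≤ CG * tailG S.a S.k r)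
    (hτr : τ = r⁻¹) (hG : G = tailG S.a S.k r) (hr8 : 8 ≤ r) (hρ8 : ρ ≤ 1 / 8)
    (hpb : p ∈ belt S.R₁) (hp0 : height p = 0) (hpr : |‖p‖ - r| ≤ ρ) :
    |f p| ≤ 8 * S.C * CG * τ ^ 3 * G := by
  have hr0 : 0 < r := by linarith
  have hd := S.data
  have hC0 : 0 < S.C := lt_of_lt_of_le (hd.positive 0) (hd.bounded 0)
  have hτ0 : 0 < τ := by rw [hτr]; positivity
  refine (hw.bound p hpb).trans ((hd.upper p (S.R₀_le.trans hpb.1.le)).trans ?_)
  rw [hp0, abs_zero, zero_add]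
  have h1 : r / 2 ≤ ‖p‖ := by linarith [(abs_le.1 hpr).1]
  have h2 : (‖p‖ ^ 3)⁻¹ ≤ 8 * τ ^ 3 := by
    refine (inv_anti₀ (by positivity) (pow_le_pow_left₀ (by positivity) h1 3)).trans_eq ?_
    rw [hτr, div_pow, inv_div, inv_pow]; ring
  calc S.C * (‖p‖ ^ 3)⁻¹ * tailG S.a S.k ‖p‖ ≤ S.C * (8 * τ ^ 3) * (CG * G) := by
        refine mul_le_mul (mul_le_mul_of_nonneg_left h2 hC0.le)
          ((htail r ‖p‖ (by linarith) (hpr.trans (by linarith))).trans_eq (by rw [hG]))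
          (tailG_pos _ _ (by linarith)).le (by positivity)
    _ = _ := by ring

/-- The second difference at a point of the band. -/
lemma band_diff {S : Setup} {f w : Space → ℝ} (hw : EvenSol S 1 f w) {x p : Space}
    (hp : p = proj x) (hxb : x ∈ belt S.R₁) {β Cv C1 CK ρ L r z Mf : ℝ} (hzdef : z = |height x|)
    (hz : 0 < z) (hz2r : z ≤ 2 / r) (hr : 1 ≤ r) (hρ : 0 < ρ) (hρ8 : ρ ≤ 1 / 8)
    (hzρ : z ≤ ρ / 2) (hL : 0 ≤ L) (hCK : 0 ≤ CK) (hCv : 0 ≤ Cv) (hC1 : 0 ≤ C1)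
    (hβ : |S.μ| + 1 = β) (hMf0 : 0 ≤ Mf)
    (hdiff : ∀ (u : Space) (t : ℝ), 0 ≤ t → |kerW 0 (cutProf ρ) (u + t • unit3 2) +
      kerW 0 (cutProf ρ) (u + (-t) • unit3 2) - 2 * kerW 0 (cutProf ρ) u| ≤ L * t ^ 2)
    (hker : ∀ u v : Space, u ≠ 0 → v ≠ 0 → dist u v ≤ z →
      |kerK 0 (cutProf ρ) u - kerK 0 (cutProf ρ) v| ≤
        CK * ((ball 0 (3 * ρ)).indicator (fun y => mz z ‖y‖) u +
          (ball 0 (3 * ρ)).indicator (fun y => mz z ‖y‖) v))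
    (hringv : ∀ (x₀ : Space) (R : ℝ), 1 ≤ axisDist x₀ → 0 < R → 2 * R ≤ axisDist x₀ →
      (IntegrableOn (fun y => |S.v y| * ‖y - x₀‖⁻¹) (ball x₀ R) ∧
        ∫ y in ball x₀ R, |S.v y| * ‖y - x₀‖⁻¹ ≤
          Cv * ((R / axisDist x₀) ^ (2 / 3 : ℝ) + R ^ 2)) ∧
      ∀ z : ℝ, 0 < z → z ≤ R →
        ∫ y in ball x₀ R, |S.v y| * min ‖y - x₀‖⁻¹ (z * (‖y - x₀‖ ^ 2)⁻¹) ≤
          Cv * (Real.sqrt z * R ^ (1 / 6 : ℝ) / axisDist x₀ ^ (2 / 3 : ℝ) + z * R))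
    (hring1 : ∀ (x₀ : Space) (R : ℝ), 1 ≤ axisDist x₀ → 0 < R → 2 * R ≤ axisDist x₀ →
      (IntegrableOn (fun y => |(1 : ℝ)| * ‖y - x₀‖⁻¹) (ball x₀ R) ∧
        ∫ y in ball x₀ R, |(1 : ℝ)| * ‖y - x₀‖⁻¹ ≤
          C1 * ((R / axisDist x₀) ^ (2 / 3 : ℝ) + R ^ 2)) ∧
      ∀ z : ℝ, 0 < z → z ≤ R →
        ∫ y in ball x₀ R, |(1 : ℝ)| * min ‖y - x₀‖⁻¹ (z * (‖y - x₀‖ ^ 2)⁻¹) ≤
          C1 * (Real.sqrt z * R ^ (1 / 6 : ℝ) / axisDist x₀ ^ (2 / 3 : ℝ) + z * R))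
    (hcen : ∀ c : Space, dist c p ≤ z →
      ball c (3 * ρ) ⊆ belt S.R₁ ∧ 1 ≤ axisDist c ∧ 2 * (3 * ρ) ≤ axisDist c ∧
        r / 2 ≤ axisDist c)
    (hfM : ∀ y : Space, dist y p < 4 * ρ → y ∈ belt S.R₁ → |f y| ≤ Mf) :
    |2 * f x - 2 * f p| ≤ L * z ^ 2 * Mf * volume.real (ball (0 : Space) (2 * ρ)) +
      4 * CK * (2 * Mf * ((Cv + β * C1) * ((4 * r ^ (-(1 / 6) : ℝ) + 6 * ρ) / r))) := by
  have hβ0 : 0 ≤ β := by rw [← hβ]; positivity
  set V := volume.real (ball (0 : Space) (2 * ρ))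
  set b : Space → ℝ := fun y => (|S.v y| + β) * (2 * Mf) with hb
  have hdom : ∀ c : Space, dist c p ≤ z → ∀ y ∈ ball c (3 * ρ),
      |2 * (S.v y - S.μ + w y) * f y| ≤ b y := by
    intro c hc y hy
    have hyb : y ∈ belt S.R₁ := (hcen c hc).1 hy
    have hyp : dist y p < 4 * ρ := by linarith [dist_triangle y c p, mem_ball.1 hy]
    simp only [hb, abs_mul, abs_two]
    rw [show (|S.v y| + β) * (2 * Mf) = 2 * (|S.v y| + β) * Mf by ring]
    refine mul_le_mul (mul_le_mul_of_nonneg_left ?_ zero_le_two) (hfM y hyp hyb) (abs_nonneg _)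
      (by positivity)
    rw [← hβ]
    linarith [abs_add_le (S.v y - S.μ) (w y), abs_sub (S.v y) S.μ, hw.w_le y hyb]
  set E := (4 * r ^ (-(1 / 6) : ℝ) + 6 * ρ) / r with hE
  have hzR : z ≤ 3 * ρ := by linarith
  have hpot : ∀ c : Space, dist c p ≤ z →
      IntegrableOn (fun y => b y * ‖y - c‖⁻¹) (ball c (3 * ρ)) ∧
      IntegrableOn (fun y => b y * mz z ‖y - c‖) (ball c (3 * ρ)) ∧
      ∫ y in ball c (3 * ρ), b y * mz z ‖y - c‖ ≤ 2 * Mf * ((Cv + β * C1) * E) := by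
    intro c hc
    obtain ⟨-, hax1, hax2, hax3⟩ := hcen c hc
    obtain ⟨hv1, hv2⟩ := hringv c (3 * ρ) hax1 (by positivity) hax2
    obtain ⟨h11, h12⟩ := hring1 c (3 * ρ) hax1 (by positivity) hax2
    have hE' : Real.sqrt z * (3 * ρ) ^ (1 / 6 : ℝ) / axisDist c ^ (2 / 3 : ℝ) + z * (3 * ρ) ≤
        E := by
      refine le_trans (add_le_add (div_le_div_of_nonneg_left (by positivity) (by positivity)
        (Real.rpow_le_rpow (by positivity) hax3 (by norm_num))) le_rfl)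
        (band_scale hρ (by linarith) (by linarith) ?_)
      exact hz2r
    exact pot_ring (E := E) S.meas_v hβ0 hMf0 hz.le hv1.1 h11.1
      ((hv2 z hz hzR).trans (mul_le_mul_of_nonneg_left hE' hCv))
      ((h12 z hz hzR).trans (mul_le_mul_of_nonneg_left hE' hC1))
  -- the two points at height `± z`
  set xp := p + z • unit3 2
  set xm := p + (-z) • unit3 2
  have he : f xm = f xp ∧ f xp = f x := by
    have h1 : f (mirror x) = f x := hw.even x hxb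
    have h2 : x = p + height x • unit3 2 := by rw [hp]; exact eq_proj_add x
    have h3 : mirror x = p + (-height x) • unit3 2 := by rw [hp]; exact mirror_eq x
    simp only [xm, xp, hzdef]
    rcases le_total 0 (height x) with h | h
    · rw [abs_of_nonneg h, ← h2, ← h3]; exact ⟨h1, rfl⟩
    · rw [abs_of_nonpos h, neg_neg, ← h2, ← h3]; exact ⟨h1.symm, h1⟩
  have hmain : |2 * f xp - 2 * f p| ≤
      L * z ^ 2 * Mf * V + 4 * CK * (2 * Mf * ((Cv + β * C1) * E)) :=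
    hw.second_diff point hρ hz.le (by linarith) hL hCK hdiff
      hker rfl rfl hMf0 (fun c hc => (hcen c hc).1)
      hfM hdom hpot he.1
  rwa [he.2] at hmain

/-- The last algebraic step. -/
lemma band_final {F c q K M τ r G w l : ℝ} (hq : 0 ≤ q) (hK : 0 ≤ K) (hM : 0 ≤ M) (hτ : 0 < τ)
    (hτ1 : τ ≤ 1) (hrτ : r * τ = 1) (hr : 0 ≤ r) (hG : 0 ≤ G)
    (hF : F ≤ c * τ ^ 3 * G + q * τ * (G * (K * τ ^ 3 + M * w))) (hl : τ ^ 2 * w ≤ l) :
    F ≤ ((c + q * K) * τ ^ 4 + q * M * l) * (r * G) := by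
  refine hF.trans ?_
  have h1 := mul_le_mul_of_nonneg_left hl (mul_nonneg hq hM)
  have h2 := mul_le_mul_of_nonneg_right h1 (mul_nonneg hr hG)
  have h3 := mul_le_mul_of_nonneg_left (mul_le_of_le_one_right hK hτ1)
    (show 0 ≤ q * τ ^ 4 * (r * G) by positivity)
  have e : c * τ ^ 3 * G + q * τ * (G * (K * τ ^ 3 + M * w)) =
      r * τ * (c * τ ^ 3 * G + q * τ * (G * (K * τ ^ 3 + M * w))) := by rw [hrτ, one_mul]
  rw [e]
  linarith

/-- The band estimate. -/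
theorem plane : PlaneStmt := by
  intro S
  have hd := S.data
  obtain ⟨Cv, hCv, hringv⟩ := Ext.ring S.v S.inV S.meas_v S.axial_v
  obtain ⟨C1, hC1, hring1⟩ := Ext.ring (fun _ => 1) inV_one measurable_const (axialSym_const 1)
  obtain ⟨CK, hCK, hker⟩ := abs_kerK_sub_le
  obtain ⟨CG, hCG, htail⟩ := tailG_le hd.a_pos S.k
  have hC0 : 0 < S.C := lt_of_lt_of_le (hd.positive 0) (hd.bounded 0)
  set β := |S.μ| + 1
  have hβ : 0 ≤ β := by positivity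
  set C0 := 12 * 4 ^ 7 * CG with hC0def
  have hC00 : 0 ≤ C0 := by positivity
  set A := 8 * CK * (Cv + β * C1) * C0 with hA
  have hA0 : 0 ≤ A := by positivity
  refine ⟨8 * S.C * CG, fun q hq => ?_⟩
  set ρ := min (1 / 8) (q / (2 * (6 * A + 1))) with hρdef
  have hρ : 0 < ρ := lt_min (by norm_num) (by positivity)
  have hρ8 : ρ ≤ 1 / 8 := min_le_left _ _
  have hρA : A * (6 * ρ) ≤ q / 2 := by
    have h1 : ρ * (2 * (6 * A + 1)) ≤ q := (le_div_iff₀ (by positivity)).1 (min_le_right _ _)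
    nlinarith
  obtain ⟨L, hL, hdiff⟩ := kerW_second_diff hρ
  set V := volume.real (ball (0 : Space) (2 * ρ))
  have hV : 0 ≤ V := measureReal_nonneg
  have hev : ∀ᶠ r : ℝ in atTop, S.R₁ + 8 ≤ r ∧ 4 / ρ ≤ r ∧
      4 * L * V * C0 / r + A * (4 * r ^ (-(1 / 6) : ℝ)) ≤ q / 2 := by
    refine (eventually_ge_atTop _).and ((eventually_ge_atTop _).and ?_)
    have h1 : Tendsto (fun r : ℝ => 4 * L * V * C0 / r) atTop (𝓝 0) :=
      tendsto_const_nhds.div_atTop tendsto_id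
    have h2 := ((tendsto_rpow_neg_atTop (by norm_num : (0 : ℝ) < 1 / 6)).const_mul 4).const_mul A
    have h3 := h1.add h2
    simp only [mul_zero, add_zero] at h3
    exact h3.eventually (eventually_le_nhds (by positivity))
  obtain ⟨R₀, hR₀⟩ := eventually_atTop.1 hev
  refine ⟨max R₀ (S.R₁ + 2), fun δ R K M η P hδR hK hLev ν f hf τ θ hτ hRτ hθ => ?_⟩
  have hR1 := one_le_R₁ S
  have hRR : S.R₁ + 2 ≤ R := (le_max_right _ _).trans P.R_ge
  set r := τ⁻¹ with hrdef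
  have hrR : 4 * R ≤ r := by
    rw [hrdef, inv_eq_one_div, le_div_iff₀ hτ]; linarith
  obtain ⟨hr8, hrρ, hrq⟩ := hR₀ r (((le_max_left _ _).trans P.R_ge).trans (by linarith))
  have hr0 : 0 < r := by linarith
  have hτr : τ = r⁻¹ := by rw [hrdef, inv_inv]
  have hτ2 : 2 * τ ≤ ρ / 2 := by
    rw [div_le_iff₀ hρ] at hrρ
    rw [hτr, ← div_eq_mul_inv, div_le_iff₀ hr0]
    linarith
  have hτ12 : τ ≤ 1 / 2 := by linarith
  have hθ1 : |θ| ≤ 1 := by linarith [pow_le_pow_left₀ hτ.le hτ12 2]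
  obtain ⟨hxn, hxh, -⟩ := pt_inv (τ := τ) hτ hθ1
  set x := pt r θ with hxdef
  set z := |height x| with hzdef
  have hz2 : z ≤ 2 * τ := by
    rw [hzdef, hxh, abs_mul, abs_of_pos hr0]
    calc r * |θ| ≤ r * (2 * τ ^ 2) := mul_le_mul_of_nonneg_left hθ hr0.le
      _ = 2 * τ * (r * τ) := by ring
      _ = 2 * τ := by rw [hrdef, inv_mul_cancel₀ hτ.ne', mul_one]
  have hz0 : 0 ≤ z := abs_nonneg _
  set p := proj x with hp
  have hpx : dist x p = z := by rw [hp, dist_proj]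
  have hp0 : height p = 0 := height_proj x
  obtain ⟨hpr, hcen⟩ := band_geom (S := S) hp hpx hxn hρ hρ8 (hz2.trans hτ2) hr8
  obtain ⟨w, hw, -⟩ := hf.evenSol
  have hxb : x ∈ belt S.R₁ := (hcen x hpx.le).1 (mem_ball_self (by positivity))
  have hpb : p ∈ belt S.R₁ :=
    (hcen p (by rw [dist_self]; exact hz0)).1 (mem_ball_self (by positivity))
  set G := tailG S.a S.k r with hG
  have hG0 : 0 < G := tailG_pos _ _ hr0
  have hplane := band_plane hw htail hτr hG (by linarith) hρ8 hpb hp0 hpr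
  set Λ := K * τ ^ 3 + M * (Real.sqrt τ ^ 7 + η) with hΛ
  have hΛ0 : 0 ≤ Λ := by
    have := P.η_nonneg; have := P.M_nonneg; positivity
  set Mf := C0 * (G * Λ) with hMf
  have hMf0 : 0 ≤ Mf := by positivity
  have hfM : ∀ y : Space, dist y p < 4 * ρ → y ∈ belt S.R₁ → |f y| ≤ Mf := by
    intro y hy _
    have h1 := norm_sub_dist_le p y
    rw [dist_comm] at h1
    have h2 := abs_height_sub_le y p
    rw [hp0, sub_zero] at h2
    obtain ⟨hp1, hp2⟩ := abs_le.1 hpr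
    exact hLev.near hf hK P.M_nonneg P.η_nonneg P.δ_pos.le hδR hCG.le htail (by linarith) hτr
      (abs_le.2 ⟨by linarith [h1.1], by linarith [h1.2]⟩) (by linarith) (by linarith [h1.1])
  -- the second difference
  have hdiffb : |f x - f p| ≤ q * τ * (G * Λ) := by
    rcases hz0.eq_or_lt with hz | hz
    · have e : x = p := dist_eq_zero.1 (hpx.trans hz.symm)
      rw [← e, sub_self, abs_zero]
      positivity
    have hmain := band_diff hw hp hxb hzdef hz (by rw [div_eq_mul_inv, ← hτr]; exact hz2)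
      (by linarith) hρ hρ8 (by linarith) hL hCK hCv hC1 rfl hMf0 hdiff
      (fun u v => hker ρ z hρ hz.le (by linarith) u v) hringv hring1 hcen hfM
    rw [← mul_sub, abs_mul, abs_two] at hmain
    set E := (4 * r ^ (-(1 / 6) : ℝ) + 6 * ρ) / r with hE
    have hzz : z ^ 2 ≤ 4 * τ ^ 2 := (pow_le_pow_left₀ hz.le hz2 2).trans_eq (by ring)
    have hEb : E = (4 * r ^ (-(1 / 6) : ℝ) + 6 * ρ) * τ := by rw [hE, hτr, div_eq_mul_inv]
    have hq' : 4 * L * V * C0 * τ + A * (4 * r ^ (-(1 / 6) : ℝ) + 6 * ρ) ≤ q := by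
      rw [mul_add, ← add_assoc, hτr, ← div_eq_mul_inv]
      linarith
    have hGΛ : 0 ≤ G * Λ := by positivity
    have b1 : L * z ^ 2 * Mf * V ≤ 4 * L * V * C0 * τ * (τ * (G * Λ)) := by
      calc L * z ^ 2 * Mf * V ≤ L * (4 * τ ^ 2) * Mf * V := by gcongr
        _ = _ := by rw [hMf]; ring
    have b2 : 4 * CK * (2 * Mf * ((Cv + β * C1) * E)) =
        A * (4 * r ^ (-(1 / 6) : ℝ) + 6 * ρ) * (τ * (G * Λ)) := by rw [hEb, hA, hMf]; ring
    have b3 := mul_le_mul_of_nonneg_right hq' (mul_nonneg hτ.le hGΛ)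
    linarith [abs_nonneg (f x - f p)]
  have hfx : |f x| ≤ 8 * S.C * CG * τ ^ 3 * G + q * τ * (G * Λ) := by
    linarith [abs_sub_abs_le_abs_sub (f x) (f p)]
  have hlin : τ ^ 2 * (Real.sqrt τ ^ 7 + η) ≤ lin η τ θ := by
    refine mul_le_mul (by linarith [abs_nonneg θ]) ?_ (by have := P.η_nonneg; positivity)
      (by positivity)
    exact add_le_add
      (pow_le_pow_left₀ (Real.sqrt_nonneg _) (le_add_of_nonneg_right (abs_nonneg θ)) 7) le_rfl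
  rw [tred, red, ← hrdef, ← hxdef, ← hG, abs_div, abs_of_pos (mul_pos hr0 hG0),
    div_le_iff₀ (mul_pos hr0 hG0)]
  exact band_final hq.le hK P.M_nonneg hτ (hτ12.trans (by norm_num))
    (by rw [hrdef, inv_mul_cancel₀ hτ.ne']) hr0.le hG0.le hfx hlin

end Vale.Agent.P363.Ext.Growth
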