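import Vale.Agent.P363.Ext.Growth.Spec
import Vale.Agent.P363.Ext.Combination
import Vale.Agent.P363.Ext.Geometry
import Vale.Agent.P363.Ext.GroundGlue
import Vale.Agent.P363.Ext.Polar.Meas
import Vale.Agent.P363.Ext.Sqrt

/-!
P363, Kohn-Sham side, `GrowthStmt`: elementary facts about the reduced functions, the bound of the
induction and the excess `√n - φu`.
-/

noncomputable section

namespace Vale.Agent.P363.Ext.Growth

open MeasureTheory Filter Set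
open scoped BigOperators Topology

lemma lin_nonneg {η : ℝ} (hη : 0 ≤ η) (τ θ : ℝ) : 0 ≤ lin η τ θ :=
  mul_nonneg (by positivity) (add_nonneg (by positivity) hη)

lemma lin_neg (η τ θ : ℝ) : lin η τ (-θ) = lin η τ θ := by simp [lin]

lemma bd_nonneg {K M η : ℝ} (hK : 0 ≤ K) (hM : 0 ≤ M) (hη : 0 ≤ η) (τ θ : ℝ) :
    0 ≤ bd K M η τ θ :=
  add_nonneg (mul_nonneg hK (by positivity)) (mul_nonneg hM (lin_nonneg hη τ θ))

lemma scale_nonneg {η : ℝ} (hη : 0 ≤ η) (τ θ : ℝ) : 0 ≤ scale η τ θ :=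
  add_nonneg (by positivity) (mul_nonneg hη (by positivity))

/-- `|θ| + τ² ≤ √τ + |θ|` for `τ ≤ 1`. -/
lemma abs_add_sq_le {τ : ℝ} (hτ : 0 ≤ τ) (hτ1 : τ ≤ 1) (θ : ℝ) :
    |θ| + τ ^ 2 ≤ Real.sqrt τ + |θ| := by
  have h : τ ≤ Real.sqrt τ := Real.le_sqrt_of_sq_le (by nlinarith)
  nlinarith

lemma lin_le_scale {η τ : ℝ} (hη : 0 ≤ η) (hτ : 0 ≤ τ) (hτ1 : τ ≤ 1) (θ : ℝ) :
    lin η τ θ ≤ scale η τ θ := by
  have h := abs_add_sq_le hτ hτ1 θ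
  calc lin η τ θ ≤ (Real.sqrt τ + |θ|) * ((Real.sqrt τ + |θ|) ^ 7 + η) :=
        mul_le_mul_of_nonneg_right h (add_nonneg (by positivity) hη)
    _ = scale η τ θ := by rw [scale]; ring

lemma pow_four_le {τ : ℝ} (hτ : 0 ≤ τ) (θ : ℝ) : τ ^ 4 ≤ (Real.sqrt τ + |θ|) ^ 8 := by
  calc τ ^ 4 = Real.sqrt τ ^ 8 := by
        rw [show 8 = 2 * 4 from rfl, pow_mul, Real.sq_sqrt hτ]
    _ ≤ _ := pow_le_pow_left₀ (Real.sqrt_nonneg _) (le_add_of_nonneg_right (abs_nonneg θ)) 8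

lemma bd_le_scale {K M η τ : ℝ} (hK : 0 ≤ K) (hM : 0 ≤ M) (hη : 0 ≤ η) (hτ : 0 ≤ τ) (hτ1 : τ ≤ 1)
    (θ : ℝ) : bd K M η τ θ ≤ (K + M) * scale η τ θ := by
  have h1 : τ ^ 4 ≤ scale η τ θ :=
    (pow_four_le hτ θ).trans (le_add_of_nonneg_right (mul_nonneg hη (by positivity)))
  rw [bd, add_mul]
  exact add_le_add (mul_le_mul_of_nonneg_left h1 hK)
    (mul_le_mul_of_nonneg_left (lin_le_scale hη hτ hτ1 θ) hM)

/-- On a parabolic window the size is `τ⁴ + η √τ`. -/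
lemma scale_le_core {η τ θ S : ℝ} (hη : 0 ≤ η) (hτ : 0 ≤ τ) (hS : 0 ≤ S)
    (hθ : |θ| ≤ S * Real.sqrt τ) :
    scale η τ θ ≤ (1 + S) ^ 8 * (τ ^ 4 + η * Real.sqrt τ) := by
  set s := Real.sqrt τ
  have hs : 0 ≤ s := Real.sqrt_nonneg _
  have h1 : s + |θ| ≤ (1 + S) * s := by linarith
  have h8 : s ^ 8 = τ ^ 4 := by rw [show 8 = 2 * 4 from rfl, pow_mul, Real.sq_sqrt hτ]
  have hS1 : (1 + S) ≤ (1 + S) ^ 8 := le_self_pow₀ (by linarith) (by norm_num)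
  have a1 : (s + |θ|) ^ 8 ≤ (1 + S) ^ 8 * τ ^ 4 := by
    refine (pow_le_pow_left₀ (by positivity) h1 8).trans_eq ?_
    rw [mul_pow, h8]
  have a2 : η * (s + |θ|) ≤ (1 + S) ^ 8 * (η * s) := by
    refine (mul_le_mul_of_nonneg_left (h1.trans (mul_le_mul_of_nonneg_right hS1 hs)) hη).trans_eq ?_
    ring
  rw [scale, mul_add ((1 + S) ^ 8)]
  exact add_le_add a1 a2

variable {S : Setup} {f : Space → ℝ}

lemma one_le_R₁ (S : Setup) : 1 ≤ S.R₁ := S.data.one_le.trans S.R₀_le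

/-- The value at a point from the reduced function. -/
lemma eq_mul_tred (hf : AxialSym f) {x : Space} (hx : 0 < ‖x‖) :
    f x = ‖x‖ * S.G x * tred S f ‖x‖⁻¹ (height x / ‖x‖) := by
  obtain ⟨φ, hφ⟩ := exists_rot_pt x
  have e : f x = f (pt ‖x‖ (height x / ‖x‖)) := by
    conv_lhs => rw [← hφ]
    rw [hf.1]
  have hG : 0 < S.G x := tailG_pos _ _ hx
  simp only [tred, red, inv_inv, ← e]
  show f x = ‖x‖ * S.G x * (f x / (‖x‖ * S.G x))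
  field_simp

/-- The point of a pair `(τ, θ)`. -/
lemma pt_inv {τ θ : ℝ} (hτ : 0 < τ) (hθ : |θ| ≤ 1) :
    ‖pt τ⁻¹ θ‖ = τ⁻¹ ∧ height (pt τ⁻¹ θ) = τ⁻¹ * θ ∧ height (pt τ⁻¹ θ) / ‖pt τ⁻¹ θ‖ = θ := by
  have hθ2 : θ ^ 2 ≤ 1 := by rw [← sq_abs]; exact pow_le_one₀ (abs_nonneg _) hθ
  have h1 : ‖pt τ⁻¹ θ‖ = τ⁻¹ := norm_pt (inv_pos.2 hτ).le hθ2
  have h2 : height (pt τ⁻¹ θ) = τ⁻¹ * θ := by simp [height, pt]
  exact ⟨h1, h2, by rw [h1, h2, mul_div_cancel_left₀ _ (inv_pos.2 hτ).ne']⟩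

lemma Level.tred_le {δ R K M η : ℝ} (h : Level S δ R K M η) {ν : ℝ} (hf : Profile S ν f)
    {τ θ : ℝ} (hτ : 0 < τ) (hR : R * τ ≤ 1) (hθ : |θ| ≤ δ) (hδ : δ ≤ 1) :
    |tred S f τ θ| ≤ bd K M η τ θ := by
  obtain ⟨h1, h2, h3⟩ := pt_inv hτ (hθ.trans hδ)
  have hτi : 0 < τ⁻¹ := inv_pos.2 hτ
  have hx := h ν f hf (pt τ⁻¹ θ) (by rw [h1, inv_eq_one_div, le_div_iff₀ hτ]; exact hR)
    (by rw [h1, h2, abs_mul, abs_of_pos hτi, mul_comm]
        exact mul_le_mul_of_nonneg_right hθ hτi.le)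
  rw [Setup.G, h3, h1, inv_inv] at hx
  have hG : 0 < τ⁻¹ * tailG S.a S.k τ⁻¹ := mul_pos hτi (tailG_pos _ _ hτi)
  rw [tred, red, abs_div, abs_of_pos hG, div_le_iff₀ hG]
  linarith

/-- A priori bound. -/
lemma exists_apriori (S : Setup) : ∃ C : ℝ, 0 ≤ C ∧ ∀ x : Space, S.R₁ ≤ ‖x‖ →
    Real.sqrt (S.n x) ≤ ‖x‖ * S.G x * (C * (|height x| / ‖x‖ + (‖x‖⁻¹) ^ 4)) := by
  refine ⟨max S.C 0, le_max_right _ _, fun x hx => ?_⟩
  have hr : 0 < ‖x‖ := by linarith [one_le_R₁ S]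
  have hG : 0 < S.G x := tailG_pos _ _ hr
  refine (S.data.upper x (S.R₀_le.trans hx)).trans ?_
  have e : ‖x‖ * S.G x * (max S.C 0 * (|height x| / ‖x‖ + (‖x‖⁻¹) ^ 4)) =
      max S.C 0 * (|height x| + (‖x‖ ^ 3)⁻¹) * S.G x := by
    field_simp
  rw [e]
  exact mul_le_mul_of_nonneg_right (mul_le_mul_of_nonneg_right (le_max_left _ _) (by positivity))
    hG.le

/-- The excess `√n - φu`. -/
def excess (S : Setup) (x : Space) : ℝ := Real.sqrt (S.n x) - S.φu x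

lemma excess_nonneg (S : Setup) (x : Space) : 0 ≤ excess S x := by
  have h := S.le_sum x
  rw [excess, sub_nonneg]
  exact (le_abs_self _).trans (Real.abs_le_sqrt (by nlinarith [sq_nonneg (S.φ₀ x)]))

lemma abs_φu_le (S : Setup) (x : Space) : |S.φu x| ≤ Real.sqrt (S.n x) :=
  Real.abs_le_sqrt (by nlinarith [S.le_sum x, sq_nonneg (S.φ₀ x)])

lemma excess_le (S : Setup) (x : Space) : excess S x ≤ 2 * Real.sqrt (S.n x) := by
  rw [excess]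
  linarith [(abs_le.1 (abs_φu_le S x)).1]

/-- The excess is quadratic in the small components. -/
lemma excess_sq_le {x : Space} (hx : x ∈ belt S.R₁) (hu : 0 < S.φu x) {b : ℝ}
    (hb : ∀ (ν : ℝ) (f : Space → ℝ), Profile S ν f → |f x| ≤ b) :
    excess S x ≤ 2 * (S.φ₀ x ^ 2 + b ^ 2) / S.φu x := by
  have h1 := profile_part_le hx hb
  rw [le_div_iff₀ hu]
  have hs := Real.sq_sqrt (S.data.positive x).le
  have h0 := excess_nonneg S x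
  rw [excess] at h0 ⊢
  nlinarith

end Vale.Agent.P363.Ext.Growth
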