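import Vale.Agent.P363.Ext.Growth.JumpSpec
import Vale.Agent.P363.Ext.Heat.Bounds

/-!
The box source: smoothness, support and the moments of its derivatives.
-/

noncomputable section

namespace Vale.Agent.P363.Ext.Growth

open MeasureTheory Filter Set Metric
open scoped BigOperators Topology

/-- A product source with widths `a`, `b` around `(c, d)`. -/
def tens (g₁ g₂ : ℝ → ℝ) (a b c d σ y : ℝ) : ℝ := g₁ ((σ - c) / a) * g₂ ((y - d) / b)

/-- Smooth functions supported in `[-1, 1]`. -/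
structure Unit1 (g : ℝ → ℝ) : Prop where
  smooth : ContDiff ℝ ((⊤ : ℕ∞) : WithTop ℕ∞) g
  supp : ∀ z, g z ≠ 0 → |z| ≤ 1

theorem Unit1.compact {g : ℝ → ℝ} (hg : Unit1 g) : HasCompactSupport g :=
  HasCompactSupport.intro (isCompact_Icc (a := -1) (b := 1)) fun z hz => by
    by_contra h
    exact hz (abs_le.1 (hg.supp z h))

theorem Unit1.deriv {g : ℝ → ℝ} (hg : Unit1 g) : Unit1 (deriv g) where
  smooth := (contDiff_infty_iff_deriv.1 hg.smooth).2
  supp z hz := by
    have h : tsupport g ⊆ Icc (-1) 1 :=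
      closure_minimal (fun x hx => abs_le.1 (hg.supp x hx)) isClosed_Icc
    exact abs_le.2 (h (support_deriv_subset hz))

theorem Unit1.integrable_abs {g : ℝ → ℝ} (hg : Unit1 g) : Integrable fun z => |g z| :=
  (hg.smooth.continuous.integrable_of_hasCompactSupport hg.compact).norm

theorem unit1_bump1 : Unit1 bump1 where
  smooth := (ContDiffBump.contDiff_normed _)
  supp z hz := by
    have h : z ∈ Function.support bump1 := hz
    rw [bump1, ContDiffBump.support_normed_eq, mem_ball_zero_iff, Real.norm_eq_abs] at h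
    exact h.le

theorem bump1_nonneg (z : ℝ) : 0 ≤ bump1 z := ContDiffBump.nonneg_normed _ z

theorem integral_bump1 : ∫ z, bump1 z = 1 := ContDiffBump.integral_normed _

variable {g₁ g₂ : ℝ → ℝ} {a b c d : ℝ}

theorem tens_supp (h₁ : Unit1 g₁) (h₂ : Unit1 g₂) (ha : 0 < a) (hb : 0 < b) {σ y : ℝ}
    (h : tens g₁ g₂ a b c d σ y ≠ 0) : |σ - c| ≤ a ∧ |y - d| ≤ b := by
  obtain ⟨u, v⟩ := mul_ne_zero_iff.1 h
  have hu := h₁.supp _ u
  have hv := h₂.supp _ v
  rw [abs_div, abs_of_pos ha, div_le_one ha] at hu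
  rw [abs_div, abs_of_pos hb, div_le_one hb] at hv
  exact ⟨hu, hv⟩

theorem contDiff_tens (h₁ : Unit1 g₁) (h₂ : Unit1 g₂) {n : ℕ∞} :
    ContDiff ℝ n (Function.uncurry (tens g₁ g₂ a b c d)) :=
  ((h₁.smooth.of_le (by exact_mod_cast le_top)).comp
    ((contDiff_fst.sub contDiff_const).div_const a)).mul
  ((h₂.smooth.of_le (by exact_mod_cast le_top)).comp
    ((contDiff_snd.sub contDiff_const).div_const b))

theorem compact_tens (h₁ : Unit1 g₁) (h₂ : Unit1 g₂) (ha : 0 < a) (hb : 0 < b) :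
    HasCompactSupport (Function.uncurry (tens g₁ g₂ a b c d)) := by
  refine HasCompactSupport.intro (K := Icc (c - a) (c + a) ×ˢ Icc (d - b) (d + b))
    (isCompact_Icc.prod isCompact_Icc) fun p hp => ?_
  by_contra h
  obtain ⟨u, v⟩ := tens_supp h₁ h₂ ha hb (σ := p.1) (y := p.2) h
  rw [abs_le] at u v
  exact hp ⟨⟨by linarith, by linarith⟩, ⟨by linarith, by linarith⟩⟩

theorem dT_tens (h₁ : Unit1 g₁) (σ y : ℝ) :
    Heat.dT (tens g₁ g₂ a b c d) σ y = tens (deriv g₁) g₂ a b c d σ y / a := by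
  refine HasDerivAt.deriv ?_
  have h := ((h₁.smooth.differentiable (by norm_num) ((σ - c) / a)).hasDerivAt.comp σ
    (((hasDerivAt_id σ).sub_const c).div_const a)).mul_const (g₂ ((y - d) / b))
  exact h.congr_deriv (by simp [tens]; ring)

theorem dY_tens (h₂ : Unit1 g₂) (σ y : ℝ) :
    Heat.dY (tens g₁ g₂ a b c d) σ y = tens g₁ (deriv g₂) a b c d σ y / b := by
  refine HasDerivAt.deriv ?_
  have h := ((h₂.smooth.differentiable (by norm_num) ((y - d) / b)).hasDerivAt.comp y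
    (((hasDerivAt_id y).sub_const d).div_const b)).const_mul (g₁ ((σ - c) / a))
  exact h.congr_deriv (by simp [tens]; ring)

/-- Moments of a scaled product source. -/
theorem moment_tens_le (h₁ : Unit1 g₁) (h₂ : Unit1 g₂) (ha : 0 < a) (hb : 0 < b) (q : ℕ) (L lam : ℝ)
    {W : ℝ} (hW : |d| + b + Real.sqrt L ≤ W) :
    Heat.moment q L (fun σ y => lam * tens g₁ g₂ a b c d σ y) ≤
      |lam| * (a * b) * W ^ q * ((∫ z, |g₁ z|) * ∫ z, |g₂ z|) := by
  have i1 : Integrable fun σ => |g₁ ((σ - c) / a)| :=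
    ((h₁.integrable_abs).comp_div ha.ne').comp_sub_right c
  have i2 : Integrable fun y => |g₂ ((y - d) / b)| :=
    ((h₂.integrable_abs).comp_div hb.ne').comp_sub_right d
  have hi := (i1.mul_prod i2).const_mul (|lam| * W ^ q)
  refine (integral_mono_of_nonneg (Eventually.of_forall fun p => by positivity) hi
    (Eventually.of_forall fun p => ?_)).trans (le_of_eq ?_)
  · simp only
    rcases eq_or_ne (tens g₁ g₂ a b c d p.1 p.2) 0 with h0 | h0
    · simp only [h0, mul_zero, abs_zero, zero_mul]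
      have : 0 ≤ W := le_trans (by positivity) hW
      positivity
    obtain ⟨-, hy⟩ := tens_supp h₁ h₂ ha hb h0
    have hle : |p.2| + Real.sqrt L ≤ W := by
      have : |p.2| ≤ |d| + |p.2 - d| := by simpa using abs_add_le d (p.2 - d)
      linarith
    rw [abs_mul, tens, abs_mul]
    calc |lam| * (|g₁ ((p.1 - c) / a)| * |g₂ ((p.2 - d) / b)|) * (|p.2| + Real.sqrt L) ^ q
        ≤ |lam| * (|g₁ ((p.1 - c) / a)| * |g₂ ((p.2 - d) / b)|) * W ^ q := by gcongr
      _ = _ := by ring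
  · rw [integral_const_mul]
    rw [integral_prod_mul (fun σ => |g₁ ((σ - c) / a)|) (fun y => |g₂ ((y - d) / b)|),
      integral_sub_right_eq_self (fun x => |g₁ (x / a)|) c,
      integral_sub_right_eq_self (fun x => |g₂ (x / b)|) d,
      Measure.integral_comp_div (fun z => |g₁ z|) a, Measure.integral_comp_div (fun z => |g₂ z|) b,
      abs_of_pos ha, abs_of_pos hb, smul_eq_mul, smul_eq_mul]
    ring

theorem box_eq (D τ θ : ℝ) :
    box D τ θ = fun σ y => (D * τ ^ 3)⁻¹ * tens bump1 bump1 (D * τ ^ 2) τ τ θ σ y := by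
  funext σ y
  simp [box, tens, div_eq_inv_mul]

theorem box_nonneg {D τ : ℝ} (hD : 0 ≤ D) (hτ : 0 ≤ τ) (θ σ y : ℝ) : 0 ≤ box D τ θ σ y :=
  div_nonneg (mul_nonneg (bump1_nonneg _) (bump1_nonneg _)) (by positivity)

theorem source_box {D τ : ℝ} (hD : 0 < D) (hτ : 0 < τ) (θ : ℝ) :
    Heat.Source (box D τ θ) (τ - D * τ ^ 2) (2 * (D * τ ^ 2)) := by
  have ha : 0 < D * τ ^ 2 := by positivity
  rw [box_eq]
  refine ⟨?_, ?_, by positivity, fun σ y h => ?_⟩
  · exact contDiff_const.mul (contDiff_tens (n := 2) unit1_bump1 unit1_bump1)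
  · exact (compact_tens unit1_bump1 unit1_bump1 ha hτ).mul_left
      (f := fun _ : ℝ × ℝ => (D * τ ^ 3)⁻¹)
  · obtain ⟨hu, -⟩ := tens_supp unit1_bump1 unit1_bump1 ha hτ (right_ne_zero_of_mul h)
    rw [abs_le] at hu
    exact ⟨by linarith, by linarith⟩

theorem box_supp {D τ θ σ y : ℝ} (hD : 0 < D) (hτ : 0 < τ) (h : box D τ θ σ y ≠ 0) :
    |σ - τ| ≤ D * τ ^ 2 ∧ |y - θ| ≤ τ := by
  rw [box_eq] at h
  exact tens_supp unit1_bump1 unit1_bump1 (by positivity) hτ (right_ne_zero_of_mul h)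

/-- The moments of the box and of the derivatives that enter the bounds. -/
theorem exists_box_moments : ∃ C : ℝ, 0 ≤ C ∧ ∀ (D τ θ L : ℝ) (q : ℕ) (W : ℝ), 0 < D → 0 < τ →
    |θ| + τ + Real.sqrt L ≤ W →
    Heat.moment q L (box D τ θ) ≤ C * W ^ q ∧
    Heat.moment q L (Heat.dT (box D τ θ)) ≤ C * W ^ q / (D * τ ^ 2) ∧
    Heat.moment q L (Heat.dT (Heat.dT (box D τ θ))) ≤ C * W ^ q / (D * τ ^ 2) ^ 2 ∧
    Heat.moment q L (Heat.dY (Heat.dY (box D τ θ))) ≤ C * W ^ q / τ ^ 2 := by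
  have b0 := unit1_bump1
  set I : (ℝ → ℝ) → ℝ := fun g => ∫ z, |g z| with hI
  have hI0 : ∀ g, 0 ≤ I g := fun g => integral_nonneg fun z => abs_nonneg _
  refine ⟨(I bump1 + I (deriv bump1) + I (deriv (deriv bump1))) ^ 2, by positivity,
    fun D τ θ L q W hD hτ hW => ?_⟩
  have ha : 0 < D * τ ^ 2 := by positivity
  have hW0 : 0 ≤ W := le_trans (by positivity) hW
  have key : ∀ (g₁ g₂ : ℝ → ℝ) (lam E : ℝ), Unit1 g₁ → Unit1 g₂ →
      |lam| * (D * τ ^ 2 * τ) = E → I g₁ * I g₂ ≤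
        (I bump1 + I (deriv bump1) + I (deriv (deriv bump1))) ^ 2 →
      Heat.moment q L (fun σ y => lam * tens g₁ g₂ (D * τ ^ 2) τ τ θ σ y) ≤
        (I bump1 + I (deriv bump1) + I (deriv (deriv bump1))) ^ 2 * W ^ q * E := by
    intro g₁ g₂ lam E h₁ h₂ hE hII
    refine (moment_tens_le h₁ h₂ ha hτ q L lam hW).trans ?_
    rw [hE]
    calc E * W ^ q * (I g₁ * I g₂) ≤
          E * W ^ q * (I bump1 + I (deriv bump1) + I (deriv (deriv bump1))) ^ 2 := by
          refine mul_le_mul_of_nonneg_left hII ?_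
          rw [← hE]; positivity
      _ = _ := by ring
  have n0 := hI0 bump1
  have n1 := hI0 (deriv bump1)
  have n2 := hI0 (deriv (deriv bump1))
  have hsq : ∀ {x y : ℝ}, 0 ≤ x → 0 ≤ y →
      x ≤ I bump1 + I (deriv bump1) + I (deriv (deriv bump1)) →
      y ≤ I bump1 + I (deriv bump1) + I (deriv (deriv bump1)) →
      x * y ≤ (I bump1 + I (deriv bump1) + I (deriv (deriv bump1))) ^ 2 := fun hx hy h h' => by
    rw [sq]; exact mul_le_mul h h' hy (by positivity)
  have hD3 : 0 < D * τ ^ 3 := by positivity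
  have e1 : Heat.dT (box D τ θ) = fun σ y =>
      ((D * τ ^ 3)⁻¹ / (D * τ ^ 2)) * tens (deriv bump1) bump1 (D * τ ^ 2) τ τ θ σ y := by
    funext σ y
    rw [box_eq, Heat.dT, deriv_const_mul_field, ← Heat.dT, dT_tens b0]
    ring
  have e2 : Heat.dT (Heat.dT (box D τ θ)) = fun σ y =>
      ((D * τ ^ 3)⁻¹ / (D * τ ^ 2) / (D * τ ^ 2)) *
        tens (deriv (deriv bump1)) bump1 (D * τ ^ 2) τ τ θ σ y := by
    funext σ y
    rw [e1, Heat.dT, deriv_const_mul_field, ← Heat.dT, dT_tens b0.deriv]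
    ring
  have e3 : Heat.dY (Heat.dY (box D τ θ)) = fun σ y =>
      ((D * τ ^ 3)⁻¹ / τ / τ) * tens bump1 (deriv (deriv bump1)) (D * τ ^ 2) τ τ θ σ y := by
    funext σ y
    have h : Heat.dY (box D τ θ) = fun σ y =>
        ((D * τ ^ 3)⁻¹ / τ) * tens bump1 (deriv bump1) (D * τ ^ 2) τ τ θ σ y := by
      funext σ y
      rw [box_eq, Heat.dY, deriv_const_mul_field, ← Heat.dY, dY_tens b0]
      ring
    rw [h, Heat.dY, deriv_const_mul_field, ← Heat.dY, dY_tens b0.deriv]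
    ring
  refine ⟨?_, ?_, ?_, ?_⟩
  · rw [box_eq]
    refine (key bump1 bump1 _ 1 b0 b0 ?_ (hsq n0 n0 (by linarith) (by linarith))).trans
      (le_of_eq (mul_one _))
    rw [abs_of_pos (inv_pos.2 hD3)]
    field_simp
  · rw [e1]
    refine (key (deriv bump1) bump1 _ ((D * τ ^ 2)⁻¹) b0.deriv b0 ?_
      (hsq n1 n0 (by linarith) (by linarith))).trans (le_of_eq (by ring))
    rw [abs_of_pos (by positivity)]
    field_simp
  · rw [e2]
    refine (key (deriv (deriv bump1)) bump1 _ (((D * τ ^ 2) ^ 2)⁻¹) b0.deriv.deriv b0 ?_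
      (hsq n2 n0 (by linarith) (by linarith))).trans (le_of_eq (by ring))
    rw [abs_of_pos (by positivity)]
    field_simp
  · rw [e3]
    refine (key bump1 (deriv (deriv bump1)) _ ((τ ^ 2)⁻¹) b0 b0.deriv.deriv ?_
      (hsq n0 n2 (by linarith) (by linarith))).trans (le_of_eq (by ring))
    rw [abs_of_pos (by positivity)]
    field_simp

end Vale.Agent.P363.Ext.Growth
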