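import Vale.Agent.P363.Ext.Growth.PartTools

/-!
P363, Kohn-Sham side: the potential below the edge (`BandStmt`).

With `t = τ ^ (1/4)`: the band has volume `O (1 / τ)` and its part with `|σ - τ| ≤ τ √τ` volume
`O (1 / √τ)`. The test weight is `O (τ)`, outside of that part `O (t ^ 5)`, and `|W| ≤ w + M₀` with
`w` a ring potential, so the band contributes `O (t)` times `(K + M) (τ⁴ + η √τ)`.
-/

noncomputable section

namespace Vale.Agent.P363.Ext.Growth

open MeasureTheory Filter Set Metric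
open scoped BigOperators Topology ENNReal Real

/-- The part of the shell below the edge. -/
def bandSet (δ τ T : ℝ) : Set Space := shell δ τ T ∩ {x | height x < edge T * ‖x‖}

/-- The times next to the singular time. -/
def nearSet (τ t : ℝ) : Set Space := {x | |‖x‖⁻¹ - τ| ≤ τ * t ^ 2}

lemma measurableSet_band (δ τ T : ℝ) : MeasurableSet (bandSet δ τ T) :=
  (measurableSet_shell δ τ T).inter
    (measurableSet_lt (by unfold height; fun_prop) (measurable_norm.const_mul _))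

lemma measurableSet_near (τ t : ℝ) : MeasurableSet (nearSet τ t) :=
  measurableSet_le ((measurable_norm.inv.sub_const τ).abs) measurable_const

lemma band_box {δ τ T N R : ℝ} (hτ : 0 < τ) (hT : 0 < T) (hTN : T ≤ N * τ) (hTR : 4 * T * R ≤ 1)
    {x : Space} (hx : x ∈ bandSet δ τ T) :
    0 < ‖x‖ ∧ ‖x‖ ≤ 4 / τ ∧ |height x| ≤ 8 * N ^ 2 * τ ^ 2 * ‖x‖ := by
  obtain ⟨h1, h2, -, -⟩ := shell_bounds hτ hT hTR hx.1
  refine ⟨h1, h2, ?_⟩
  rw [abs_of_nonneg hx.1.2.2.1]
  refine hx.2.le.trans (mul_le_mul_of_nonneg_right ?_ h1.le)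
  have h := pow_le_pow_left₀ hT.le hTN 2
  rw [edge]; linarith [mul_pow N τ 2]

lemma band_volume {δ τ T N R t : ℝ} (hτ : 0 < τ) (hT : 0 < T) (hTN : T ≤ N * τ)
    (hTR : 4 * T * R ≤ 1) (ht4 : t ^ 4 = τ) :
    volume (bandSet δ τ T) < ∞ ∧
      volume.real (bandSet δ τ T) ≤ 2048 * π * N ^ 2 / t ^ 4 := by
  obtain ⟨hfin, hvol⟩ := volume_polBox_le (A := bandSet δ τ T) le_rfl (by positivity : 0 ≤ 4 / τ)
    (by positivity : 0 ≤ 8 * N ^ 2 * τ ^ 2) fun x hx =>
      ⟨(band_box hτ hT hTN hTR hx).1.le, (band_box hτ hT hTN hTR hx).2.1,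
        (band_box hτ hT hTN hTR hx).2.2⟩
  refine ⟨hfin, hvol.trans_eq ?_⟩
  rw [ht4]; field_simp; ring

lemma near_volume {δ τ T N R t : ℝ} (hτ : 0 < τ) (hT : 0 < T) (hTN : T ≤ N * τ)
    (hTR : 4 * T * R ≤ 1) (ht : 0 < t) (ht4 : t ^ 4 = τ) (ht2 : t ^ 2 ≤ 1 / 2) :
    volume.real (bandSet δ τ T ∩ nearSet τ t) ≤ 2048 * π * N ^ 2 / t ^ 2 := by
  set a := 1 / (τ * (1 + t ^ 2)) with ha
  set b := 1 / (τ * (1 - t ^ 2)) with hb
  have h1t : 0 < 1 - t ^ 2 := by linarith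
  have hab : a ≤ b := by
    rw [ha, hb]; gcongr; linarith [sq_nonneg t]
  have hb0 : 0 ≤ b := by positivity
  have hbb : b ≤ 2 / τ := by
    rw [hb, div_le_div_iff₀ (by positivity) hτ]; nlinarith
  have hba : b - a ≤ 4 / t ^ 2 := by
    have h4 : 1 - t ^ 4 = (1 - t ^ 2) * (1 + t ^ 2) := by ring
    have e : b - a = 2 * t ^ 2 / (τ * (1 - t ^ 4)) := by
      rw [ha, hb, h4]; field_simp; ring
    rw [e, div_le_div_iff₀ (mul_pos hτ (by nlinarith)) (by positivity), ht4]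
    have : 2 * t ^ 2 * t ^ 2 = 2 * τ := by rw [← ht4]; ring
    have hτq : τ ≤ 1 / 4 := by
      rw [← ht4, show 4 = 2 * 2 from rfl, pow_mul]; nlinarith
    rw [this]; nlinarith
  obtain ⟨-, hv⟩ := volume_polBox_le (A := bandSet δ τ T ∩ nearSet τ t) (by positivity : 0 ≤ a) hab
    (by positivity : 0 ≤ 8 * N ^ 2 * τ ^ 2) fun x hx => by
      obtain ⟨h1, -, h3⟩ := band_box hτ hT hTN hTR hx.1
      obtain ⟨l1, l2⟩ := abs_le.1 (show |‖x‖⁻¹ - τ| ≤ τ * t ^ 2 from hx.2)
      refine ⟨?_, ?_, h3⟩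
      · rw [ha, one_div, inv_le_comm₀ (by positivity) h1]; linarith
      · rw [hb, one_div, le_inv_comm₀ h1 (by positivity)]; linarith
  have hba0 : 0 ≤ b - a := sub_nonneg.2 hab
  refine hv.trans ?_
  calc 4 * π * b ^ 2 * (b - a) * (8 * N ^ 2 * τ ^ 2)
      ≤ 4 * π * (2 / τ) ^ 2 * (4 / t ^ 2) * (8 * N ^ 2 * τ ^ 2) := by gcongr
    _ = 512 * π * N ^ 2 / t ^ 2 := by field_simp; ring
    _ ≤ _ := by gcongr; norm_num

/-- The test weight at and away from the singular time. -/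
lemma weight_split {τ σ t : ℝ} (ht : 0 < t) (ht4 : t ^ 4 = τ) :
    τ ^ 2 / (τ + Real.sqrt |σ - τ|) ≤ t ^ 4 ∧
      (τ * t ^ 2 < |σ - τ| → τ ^ 2 / (τ + Real.sqrt |σ - τ|) ≤ t ^ 5) := by
  have hs := Real.sqrt_nonneg |σ - τ|
  have hτ : 0 < τ := by rw [← ht4]; positivity
  refine ⟨?_, fun h => ?_⟩
  · rw [div_le_iff₀ (by linarith), ht4]
    nlinarith
  · have h3 : t ^ 3 ≤ Real.sqrt |σ - τ| := by
      refine Real.le_sqrt_of_sq_le (le_of_eq_of_le ?_ h.le)
      rw [← ht4]; ring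
    rw [div_le_iff₀ (by linarith)]
    calc τ ^ 2 = t ^ 5 * t ^ 3 := by rw [← ht4]; ring
      _ ≤ t ^ 5 * (τ + Real.sqrt |σ - τ|) :=
          mul_le_mul_of_nonneg_left (h3.trans (le_add_of_nonneg_left hτ.le)) (by positivity)

/-- Integrating `(w + M₀)` against a weight with a small exceptional set. -/
lemma split_integral {A B : Set Space} {w W g : Space → ℝ} {M₀ S1 S2 : ℝ} (hw : RingPot w)
    (hM₀ : 0 ≤ M₀) (hA : MeasurableSet A) (hB : MeasurableSet B) (hfin : volume A < ∞)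
    (hS1 : 0 ≤ S1) (hS2 : 0 ≤ S2) (hW : ∀ x ∈ A, |W x| ≤ w x + M₀) (hg : ∀ x ∈ A, 0 ≤ g x)
    (h1 : ∀ x ∈ A, g x ≤ S1) (h2 : ∀ x ∈ A, x ∉ B → g x ≤ S2) (hWm : Measurable W)
    (hgm : AEStronglyMeasurable g (volume.restrict A)) :
    IntegrableOn (fun x => |W x| * g x) A ∧ ∫ x in A, |W x| * g x ≤
      S1 * (ringNorm w * volume.real A ^ (1 / 3 : ℝ)) + M₀ * (volume.real (A ∩ B) * S1) +
        M₀ * (volume.real A * S2) := by
  obtain ⟨hwi, hwle⟩ := ring_set hw hfin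
  have hconst : ∀ d : ℝ, IntegrableOn (fun _ : Space => d) A := fun d => integrableOn_const hfin.ne
  have hind : IntegrableOn (B.indicator fun _ => S1) A := (hconst S1).indicator hB
  have i12 : IntegrableOn (fun x => S1 * w x + M₀ * B.indicator (fun _ => S1) x) A :=
    (hwi.const_mul S1).add (hind.const_mul M₀)
  set G := fun x => S1 * w x + M₀ * B.indicator (fun _ => S1) x + M₀ * S2 with hG
  have hGi : IntegrableOn G A := i12.add (hconst _)
  have hdom : ∀ x ∈ A, |W x| * g x ≤ G x := by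
    intro x hx
    refine (mul_le_mul_of_nonneg_right (hW x hx) (hg x hx)).trans ?_
    rw [add_mul, hG]
    simp only
    rw [add_assoc]
    refine add_le_add
      ((mul_le_mul_of_nonneg_left (h1 x hx) (hw.nonneg x)).trans_eq (mul_comm _ _)) ?_
    rw [← mul_add]
    refine mul_le_mul_of_nonneg_left ?_ hM₀
    by_cases hxB : x ∈ B
    · rw [Set.indicator_of_mem hxB]; linarith [h1 x hx]
    · rw [Set.indicator_of_notMem hxB]; linarith [h2 x hx hxB]
  have hi : IntegrableOn (fun x => |W x| * g x) A := by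
    refine Integrable.mono' hGi (hWm.abs.aestronglyMeasurable.mul hgm)
      ((ae_restrict_iff' hA).2 (Eventually.of_forall fun x hx => ?_))
    rw [Real.norm_eq_abs, abs_of_nonneg (mul_nonneg (abs_nonneg _) (hg x hx))]
    exact hdom x hx
  refine ⟨hi, (setIntegral_mono_on hi hGi hA hdom).trans ?_⟩
  simp only [hG]
  rw [integral_add i12 (hconst _), integral_add (hwi.const_mul S1) (hind.const_mul M₀),
    integral_const_mul, integral_const_mul, setIntegral_indicator hB, setIntegral_const,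
    setIntegral_const, smul_eq_mul, smul_eq_mul]
  have := mul_le_mul_of_nonneg_left hwle hS1
  linarith

lemma measurable_defectW (S : Setup) : Measurable S.W := by
  unfold Setup.W farPot
  exact (S.meas_v.sub_const _).sub (measurable_const.sub (measurable_const.div measurable_norm))

/-- The sum of the three contributions. -/
lemma band_arith {X t c ρ M₀ V VB V3 : ℝ} (hX : 0 ≤ X) (ht : 0 < t) (ht1 : t ≤ 1) (hc : 0 ≤ c)
    (hρ : 0 ≤ ρ) (hM₀ : 0 ≤ M₀) (hV : V ≤ c / t ^ 4) (hVB : VB ≤ c / t ^ 2)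
    (hV3 : V3 ≤ (1 + c) / t ^ 2) :
    X * t ^ 4 * (ρ * V3) + M₀ * (VB * (X * t ^ 4)) + M₀ * (V * (X * t ^ 5)) ≤
      X * (t * ((1 + c) * (ρ + 2 * M₀))) := by
  calc X * t ^ 4 * (ρ * V3) + M₀ * (VB * (X * t ^ 4)) + M₀ * (V * (X * t ^ 5))
      ≤ X * t ^ 4 * (ρ * ((1 + c) / t ^ 2)) + M₀ * (c / t ^ 2 * (X * t ^ 4)) +
          M₀ * (c / t ^ 4 * (X * t ^ 5)) := by gcongr
    _ = X * (t ^ 2 * (ρ * (1 + c) + M₀ * c) + t * (M₀ * c)) := by
        field_simp
    _ ≤ X * (t * (ρ * (1 + c) + M₀ * c) + t * (M₀ * c)) := by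
        gcongr
        rw [sq]; exact mul_le_of_le_one_left ht.le ht1
    _ ≤ _ := by
        gcongr
        nlinarith [mul_nonneg ht.le hM₀]

theorem band (hP : PotBoundStmt) : BandStmt := by
  intro S Sw K N q hSw hK hN hq D hD
  obtain ⟨C, hC, hsym⟩ := exists_symWt_le hP S hSw hN
  obtain ⟨w, M₀, hw, hM₀, hsplit⟩ := setup_split S
  set c := 2048 * π * N ^ 2 with hc
  have hc0 : 0 ≤ c := by positivity
  have hring := ringNorm_nonneg w
  set Q := C * D * (1 + c) * (ringNorm w + 2 * M₀) with hQ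
  have hQ0 : 0 ≤ Q := by positivity
  set ε := q / (Q + 1) with hε
  have hε0 : 0 < ε := by positivity
  refine ⟨1 / 4, by norm_num, fun δ hδ hδle => ⟨max (max 1 S.R₁) (1 / (40 * ε ^ 4)), ?_⟩⟩
  intro R M η hp hL ν f hf τ θ T hw' hTR
  have hM := hp.M_nonneg
  have hη := hp.η_nonneg
  have hsym' := hsym δ R K M η hK hM hη hL ν f hf D τ θ T hw' hTR
  obtain ⟨hτ, -, hT10, hTN, -, -, hT4⟩ := hw'
  have hT : 0 < T := by linarith
  have hR1 : 1 ≤ R := ((le_max_left _ _).trans (le_max_left _ _)).trans hp.R_ge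
  have hRS : S.R₁ ≤ R := ((le_max_right _ _).trans (le_max_left _ _)).trans hp.R_ge
  have hRε : 1 / (40 * ε ^ 4) ≤ R := (le_max_right _ _).trans hp.R_ge
  have hτR : 40 * τ * R ≤ 1 := by
    exact (mul_le_mul_of_nonneg_right (by linarith) (by linarith)).trans hTR
  have hτ4 : τ ≤ ε ^ 4 := by
    rw [div_le_iff₀ (by positivity)] at hRε
    have : τ * 1 ≤ τ * (R * (40 * ε ^ 4)) := mul_le_mul_of_nonneg_left hRε hτ.le
    nlinarith [pow_pos hε0 4]
  set t := Real.sqrt (Real.sqrt τ) with ht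
  have ht0 : 0 < t := Real.sqrt_pos.2 (Real.sqrt_pos.2 hτ)
  have ht2 : t ^ 2 = Real.sqrt τ := Real.sq_sqrt (Real.sqrt_nonneg _)
  have ht4 : t ^ 4 = τ := by rw [show 4 = 2 * 2 from rfl, pow_mul, ht2, Real.sq_sqrt hτ.le]
  have htε : t ≤ ε := le_of_pow_le_pow_left₀ (by norm_num : 4 ≠ 0) hε0.le (ht4.trans_le hτ4)
  have ht2h : t ^ 2 ≤ 1 / 2 := by
    rw [ht2, Real.sqrt_le_iff]; exact ⟨by norm_num, by linarith⟩
  have ht1 : t ≤ 1 := by nlinarith
  set E := (K + M) * (τ ^ 4 + η * Real.sqrt τ) with hE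
  have hE0 : 0 ≤ E := by positivity
  obtain ⟨hfin, hvol⟩ := band_volume (δ := δ) hτ hT hTN hTR ht4
  have hvolB := near_volume (δ := δ) hτ hT hTN hTR ht0 ht4 ht2h
  rw [← hc] at hvol hvolB
  have hAm := measurableSet_band δ τ T
  have hsub : bandSet δ τ T ⊆ belt S.R₁ := fun x hx =>
    shell_subset_belt hτ hT hTR hRS (by linarith [one_le_R₁ S]) hδle hx.1
  obtain ⟨hi, hle⟩ := split_integral (A := bandSet δ τ T) (B := nearSet τ t) (W := S.W)
    (g := symWt S f D τ θ) (S1 := C * D * E * t ^ 4) (S2 := C * D * E * t ^ 5) hw hM₀ hAm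
    (measurableSet_near τ t) hfin (by positivity) (by positivity)
    (fun x hx => (hsplit x (by linarith [(shell_bounds hτ hT hTR hx.1).2.2.2])).2)
    (fun x hx => (hsym' x hx.1).1)
    (fun x hx => (hsym' x hx.1).2.trans
      (mul_le_mul_of_nonneg_left (weight_split ht0 ht4).1 (by positivity)))
    (fun x hx hxB => (hsym' x hx.1).2.trans
      (mul_le_mul_of_nonneg_left ((weight_split ht0 ht4).2 (not_le.1 hxB)) (by positivity)))
    (measurable_defectW S) (meas_symWt hf (by linarith) hτ hAm hsub)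
  refine ⟨hi, hle.trans ?_⟩
  have hr3 : volume.real (bandSet δ τ T) ^ (1 / 3 : ℝ) ≤ (1 + c) / t ^ 2 := by
    have h1 : 1 ≤ (1 + c) / t ^ 4 := by
      rw [le_div_iff₀ (by positivity), ht4]; linarith
    calc volume.real (bandSet δ τ T) ^ (1 / 3 : ℝ) ≤ ((1 + c) / t ^ 4) ^ (1 / 3 : ℝ) := by
          refine Real.rpow_le_rpow measureReal_nonneg (hvol.trans ?_) (by norm_num)
          gcongr; linarith
      _ ≤ ((1 + c) / t ^ 4) ^ (1 / 2 : ℝ) :=
          Real.rpow_le_rpow_of_exponent_le h1 (by norm_num)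
      _ ≤ _ := by
          rw [← Real.sqrt_eq_rpow]
          refine Real.sqrt_le_iff.2 ⟨by positivity, ?_⟩
          rw [div_pow, ← pow_mul]
          gcongr
          exact le_self_pow₀ (by linarith) two_ne_zero
  calc C * D * E * t ^ 4 * (ringNorm w * volume.real (bandSet δ τ T) ^ (1 / 3 : ℝ)) +
        M₀ * (volume.real (bandSet δ τ T ∩ nearSet τ t) * (C * D * E * t ^ 4)) +
          M₀ * (volume.real (bandSet δ τ T) * (C * D * E * t ^ 5))
      ≤ C * D * E * (t * ((1 + c) * (ringNorm w + 2 * M₀))) :=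
        band_arith (by positivity) ht0 ht1 hc0 hring hM₀ hvol hvolB hr3
    _ = Q * t * E := by rw [hQ]; ring
    _ ≤ q * E := by
        gcongr
        calc Q * t ≤ Q * ε := mul_le_mul_of_nonneg_left htε hQ0
          _ ≤ (Q + 1) * ε := by nlinarith
          _ = q := by rw [hε]; field_simp
    _ ≤ _ := by
        rw [hE, ← mul_assoc]
        gcongr
        linarith

end Vale.Agent.P363.Ext.Growth
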