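import Vale.Agent.P363.Ext.Growth.Mono

/-!
P363, Kohn-Sham side, `GrowthStmt`: the two barriers and their elementary inequalities.
-/

noncomputable section

namespace Vale.Agent.P363.Ext.Growth

open MeasureTheory Filter Set
open scoped BigOperators Topology

/-- `K (τ⁴ - β θ² τ³) + M (θ τ^{7/2} - b θ² τ³ + η θ (1 - Λ τ))`. -/
def barA (S : Setup) (β b Λ K M η : ℝ) : Space → ℝ :=
  combo S ![K, -(K * β), M, -(M * b), M * η, -(M * η * Λ)] ![0, 2, 1, 2, 1, 1]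
    ![4, 3, 7 / 2, 3, 0, 1]

/-- `M (θ⁸ - c τ θ⁶ + η θ (1 - Λ τ))`. -/
def barB (S : Setup) (c Λ M η : ℝ) : Space → ℝ :=
  combo S ![M, -(M * c), M * η, -(M * η * Λ)] ![8, 6, 1, 1] ![0, 1, 0, 1]

/-- The values of `barA`. -/
def valA (β b Λ K M η τ θ : ℝ) : ℝ :=
  K * (τ ^ 4 - β * θ ^ 2 * τ ^ 3) +
    M * (θ * (τ ^ 3 * Real.sqrt τ) - b * θ ^ 2 * τ ^ 3 + η * (θ * (1 - Λ * τ)))

/-- The values of `barB`. -/
def valB (c Λ M η τ θ : ℝ) : ℝ := M * (θ ^ 8 - c * τ * θ ^ 6 + η * (θ * (1 - Λ * τ)))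

lemma rpow_halves {τ : ℝ} (hτ : 0 < τ) :
    τ ^ (7 / 2 : ℝ) = τ ^ 3 * Real.sqrt τ ∧ τ ^ (7 / 2 - 1 : ℝ) = τ ^ 2 * Real.sqrt τ := by
  rw [Real.sqrt_eq_rpow, ← Real.rpow_natCast, ← Real.rpow_natCast, ← Real.rpow_add hτ,
    ← Real.rpow_add hτ]
  norm_num

variable {S : Setup} {x : Space}

lemma barA_eq {β b Λ K M η : ℝ} (hx : x ≠ 0) : barA S β b Λ K M η x =
    ‖x‖ * S.G x * valA β b Λ K M η ‖x‖⁻¹ (height x / ‖x‖) := by
  have hτ : 0 < ‖x‖⁻¹ := inv_pos.2 (norm_pos_iff.2 hx)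
  rw [barA, combo_eq hx]
  congr 1
  simp [Fin.sum_univ_six, valA, (rpow_halves hτ).1]
  norm_cast
  ring

lemma barB_eq {c Λ M η : ℝ} (hx : x ≠ 0) : barB S c Λ M η x =
    ‖x‖ * S.G x * valB c Λ M η ‖x‖⁻¹ (height x / ‖x‖) := by
  rw [barB, combo_eq hx]
  congr 1
  simp [Fin.sum_univ_four, valB]
  ring

/-- Operator inequality for `barA`. -/
lemma opA_le {S : Setup} {C β b Λ K K' M' q η τ θ s₀ : ℝ} (hβ : β = 4 * S.a + 2)
    (hb : b = 1 / (2 * s₀)) (hs₀ : 0 < s₀) (hs₁ : s₀ ≤ 1 / 2) (hs₂ : s₀ ^ 2 * (14 * S.a) ≤ 1)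
    (hq : 0 < q) (hΛ : S.a * Λ = |curv S C 1 0| + 4 / q + 1) (hK : 0 ≤ K) (hM : 0 ≤ M')
    (hK' : K' ≤ M' / q) (hη : 0 ≤ η) (hτ : 0 < τ) (hθ : 0 ≤ θ)
    (hθs : θ ≤ s₀ * Real.sqrt τ)
    (t1 : (2 + |curv S C 0 4| + β * |curv S C 2 3|) * τ ≤ 1) (t2 : |curv S C 1 1| * τ ≤ S.a)
    (t3 : (|curv S C 1 (7 / 2)| + b * |curv S C 2 3| + 512 / q) * τ ≤ 1 / 2) :
    (K * opMono S C 0 4 τ θ - K * β * opMono S C 2 3 τ θ + M' * opMono S C 1 (7 / 2) τ θ -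
        M' * b * opMono S C 2 3 τ θ + M' * η * opMono S C 1 0 τ θ -
        M' * η * Λ * opMono S C 1 1 τ θ) +
      2 * (K * τ ^ 4 + K' * (256 * τ ^ 4 + 2 * (η * θ))) ≤ 0 := by
  have ha := S.data.a_pos
  obtain ⟨h72, h52⟩ := rpow_halves hτ
  set s := Real.sqrt τ
  have hs : 0 ≤ s := Real.sqrt_nonneg _
  have hs2 : s ^ 2 = τ := Real.sq_sqrt hτ.le
  have hβ0 : 0 ≤ β := by linarith
  have hb0 : 0 ≤ b := by rw [hb]; positivity
  have hθ2 : θ ^ 2 ≤ τ := by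
    calc θ ^ 2 ≤ (s₀ * s) ^ 2 := pow_le_pow_left₀ hθ hθs 2
      _ = s₀ ^ 2 * τ := by rw [mul_pow, hs2]
      _ ≤ 1 * τ := mul_le_mul_of_nonneg_right (pow_le_one₀ hs₀.le (by linarith)) hτ.le
      _ = τ := one_mul τ
  have hθs2 : θ * s ≤ s₀ * τ := by
    calc θ * s ≤ s₀ * s * s := mul_le_mul_of_nonneg_right hθs hs
      _ = s₀ * τ := by rw [mul_assoc, ← sq, hs2]
  -- the quadratic monomial
  have h23 : 2 * τ ^ 3 - |curv S C 2 3| * τ ^ 4 ≤ opMono S C 2 3 τ θ := by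
    have e : opMono S C 2 3 τ θ =
        2 * τ ^ 3 + 6 * S.a * θ ^ 2 * τ ^ 2 + curv S C 2 3 * θ ^ 2 * τ ^ 3 := by
      rw [opMono, show (3 : ℝ) - 1 = ((2 : ℕ) : ℝ) by norm_num, Real.rpow_natCast,
        show τ ^ (3 : ℝ) = τ ^ 3 from Real.rpow_natCast τ 3]
      push_cast
      ring
    have h1 : |curv S C 2 3 * θ ^ 2 * τ ^ 3| ≤ |curv S C 2 3| * τ ^ 4 := by
      rw [abs_mul, abs_mul, abs_of_nonneg (sq_nonneg θ), abs_of_nonneg (pow_nonneg hτ.le 3),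
        mul_assoc]
      refine mul_le_mul_of_nonneg_left ?_ (abs_nonneg _)
      calc θ ^ 2 * τ ^ 3 ≤ τ * τ ^ 3 := mul_le_mul_of_nonneg_right hθ2 (by positivity)
        _ = τ ^ 4 := by ring
    have : 0 ≤ 6 * S.a * θ ^ 2 * τ ^ 2 := by positivity
    rw [e]
    linarith [(abs_le.1 h1).1]
  -- the `K` part
  have hKpart : opMono S C 0 4 τ θ - β * opMono S C 2 3 τ θ + 2 * τ ^ 4 ≤ 0 := by
    have e : opMono S C 0 4 τ θ = 8 * S.a * τ ^ 3 + curv S C 0 4 * τ ^ 4 := by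
      rw [opMono, show (4 : ℝ) - 1 = ((3 : ℕ) : ℝ) by norm_num, Real.rpow_natCast,
        show τ ^ (4 : ℝ) = τ ^ 4 from Real.rpow_natCast τ 4]
      push_cast
      ring
    have h1 : curv S C 0 4 * τ ^ 4 ≤ |curv S C 0 4| * τ ^ 4 :=
      mul_le_mul_of_nonneg_right (le_abs_self _) (by positivity)
    have h2 := mul_le_mul_of_nonneg_left h23 hβ0
    have h3 : (2 + |curv S C 0 4| + β * |curv S C 2 3|) * τ * τ ^ 3 ≤ 1 * τ ^ 3 :=
      mul_le_mul_of_nonneg_right t1 (by positivity)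
    have h4 : (0 : ℝ) ≤ τ ^ 3 := by positivity
    rw [e]
    rw [hβ] at h2 h3 ⊢
    linarith
  -- the linear part
  have hMpart : opMono S C 1 (7 / 2) τ θ - b * opMono S C 2 3 τ θ + 512 / q * τ ^ 4 ≤ 0 := by
    have e : opMono S C 1 (7 / 2) τ θ =
        7 * S.a * (θ * s) * τ ^ 2 + curv S C 1 (7 / 2) * (θ * s) * τ ^ 3 := by
      simp only [opMono, h72, h52]
      simp
      ring
    have h1 : 7 * S.a * (θ * s) * τ ^ 2 ≤ 7 * S.a * s₀ * τ ^ 3 := by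
      calc 7 * S.a * (θ * s) * τ ^ 2 ≤ 7 * S.a * (s₀ * τ) * τ ^ 2 := by gcongr
        _ = _ := by ring
    have h2 : curv S C 1 (7 / 2) * (θ * s) * τ ^ 3 ≤ |curv S C 1 (7 / 2)| * τ ^ 4 := by
      calc curv S C 1 (7 / 2) * (θ * s) * τ ^ 3
          ≤ |curv S C 1 (7 / 2)| * (θ * s) * τ ^ 3 := by gcongr; exact le_abs_self _
        _ ≤ |curv S C 1 (7 / 2)| * (1 * τ) * τ ^ 3 := by
          refine mul_le_mul_of_nonneg_right (mul_le_mul_of_nonneg_left ?_ (abs_nonneg _))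
            (pow_nonneg hτ.le 3)
          exact hθs2.trans (mul_le_mul_of_nonneg_right (by linarith) hτ.le)
        _ = _ := by ring
    have h3 := mul_le_mul_of_nonneg_left h23 hb0
    have h4 : (|curv S C 1 (7 / 2)| + b * |curv S C 2 3| + 512 / q) * τ * τ ^ 3 ≤ 1 / 2 * τ ^ 3 :=
      mul_le_mul_of_nonneg_right t3 (by positivity)
    have h5 : 7 * S.a * s₀ + 1 / 2 ≤ 2 * b := by
      rw [hb, show 2 * (1 / (2 * s₀)) = 1 / s₀ by field_simp, le_div_iff₀ hs₀]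
      nlinarith
    have h6 := mul_le_mul_of_nonneg_right h5 (pow_nonneg hτ.le 3)
    rw [e]
    linarith
  -- the part of `η`
  have hηpart : opMono S C 1 0 τ θ - Λ * opMono S C 1 1 τ θ + 4 / q * θ ≤ 0 := by
    have e0 : opMono S C 1 0 τ θ = curv S C 1 0 * θ := by simp [opMono]
    have e1 : opMono S C 1 1 τ θ = 2 * S.a * θ + curv S C 1 1 * θ * τ := by simp [opMono]
    have hΛ0 : 0 ≤ Λ := nonneg_of_mul_nonneg_right (by rw [hΛ]; positivity) ha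
    have h1 : curv S C 1 0 * θ ≤ |curv S C 1 0| * θ :=
      mul_le_mul_of_nonneg_right (le_abs_self _) hθ
    have h2 : -(Λ * θ * S.a) ≤ Λ * θ * (curv S C 1 1 * τ) := by
      rw [← mul_neg]
      refine mul_le_mul_of_nonneg_left ?_ (mul_nonneg hΛ0 hθ)
      have : -(|curv S C 1 1| * τ) ≤ curv S C 1 1 * τ := by
        rw [← neg_mul]; exact mul_le_mul_of_nonneg_right (neg_abs_le _) hτ.le
      linarith
    rw [e0, e1]
    have h3 : (S.a * Λ) * θ = (|curv S C 1 0| + 4 / q + 1) * θ := by rw [hΛ]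
    linarith
  have h1 := mul_le_mul_of_nonneg_left hKpart hK
  have h2 := mul_le_mul_of_nonneg_left hMpart hM
  have h3 := mul_le_mul_of_nonneg_left hηpart (mul_nonneg hM hη)
  have h4 : K' * (256 * τ ^ 4 + 2 * (η * θ)) ≤ M' / q * (256 * τ ^ 4 + 2 * (η * θ)) :=
    mul_le_mul_of_nonneg_right hK' (by positivity)
  have e : M' / q * (256 * τ ^ 4 + 2 * (η * θ)) =
      1 / 2 * (M' * (512 / q * τ ^ 4) + M' * η * (4 / q * θ)) := by ring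
  simp only [mul_zero] at h1 h2 h3
  linarith

/-- Operator inequality for `barB`. -/
lemma opB_le {S : Setup} {C c Λ K K' M' q η τ θ : ℝ} (hc : S.a * c = 30) (hq : 0 < q)
    (hΛ : S.a * Λ = |curv S C 1 0| + 4 / q + 1) (hM : 0 ≤ M') (hK : K ≤ M') 
    (hK' : K' ≤ M' / q) (hη : 0 ≤ η) (hτ : 0 < τ) (hθ : 0 ≤ θ)
    (hτθ : τ ≤ θ ^ 2) (t2 : |curv S C 1 1| * τ ≤ S.a)
    (t1 : (|curv S C 8 0| + 2 + 512 / q) * θ ^ 2 + c * |curv S C 6 1| * τ ≤ 4) :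
    (M' * opMono S C 8 0 τ θ - M' * c * opMono S C 6 1 τ θ + M' * η * opMono S C 1 0 τ θ -
        M' * η * Λ * opMono S C 1 1 τ θ) +
      2 * (K * τ ^ 4 + K' * (256 * θ ^ 8 + 2 * (η * θ))) ≤ 0 := by
  have ha := S.data.a_pos
  have hc0 : 0 ≤ c := nonneg_of_mul_nonneg_right (by rw [hc]; norm_num) ha
  have hMpart : opMono S C 8 0 τ θ - c * opMono S C 6 1 τ θ + (2 + 512 / q) * θ ^ 8 ≤ 0 := by
    have e0 : opMono S C 8 0 τ θ = 56 * θ ^ 6 + curv S C 8 0 * θ ^ 8 := by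
      simp [opMono]; norm_num
    have e1 : opMono S C 6 1 τ θ =
        30 * θ ^ 4 * τ + 2 * S.a * θ ^ 6 + curv S C 6 1 * θ ^ 6 * τ := by
      simp [opMono]; norm_num
    have h1 : curv S C 8 0 * θ ^ 8 ≤ |curv S C 8 0| * θ ^ 8 :=
      mul_le_mul_of_nonneg_right (le_abs_self _) (by positivity)
    have h2 : -(|curv S C 6 1| * (c * θ ^ 6 * τ)) ≤ curv S C 6 1 * (c * θ ^ 6 * τ) := by
      rw [← neg_mul]; exact mul_le_mul_of_nonneg_right (neg_abs_le _) (by positivity)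
    have h3 := mul_le_mul_of_nonneg_left t1 (pow_nonneg hθ 6)
    have h4 : 0 ≤ 30 * c * θ ^ 4 * τ := by positivity
    have h5 : c * (2 * S.a * θ ^ 6) = 60 * θ ^ 6 := by
      rw [show c * (2 * S.a * θ ^ 6) = 2 * (S.a * c) * θ ^ 6 by ring, hc]; ring
    rw [e0, e1]
    linarith
  have hηpart : opMono S C 1 0 τ θ - Λ * opMono S C 1 1 τ θ + 4 / q * θ ≤ 0 := by
    have e0 : opMono S C 1 0 τ θ = curv S C 1 0 * θ := by simp [opMono]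
    have e1 : opMono S C 1 1 τ θ = 2 * S.a * θ + curv S C 1 1 * θ * τ := by simp [opMono]
    have hΛ0 : 0 ≤ Λ := nonneg_of_mul_nonneg_right (by rw [hΛ]; positivity) ha
    have h1 : curv S C 1 0 * θ ≤ |curv S C 1 0| * θ :=
      mul_le_mul_of_nonneg_right (le_abs_self _) hθ
    have h2 : -(Λ * θ * S.a) ≤ Λ * θ * (curv S C 1 1 * τ) := by
      rw [← mul_neg]
      refine mul_le_mul_of_nonneg_left ?_ (mul_nonneg hΛ0 hθ)
      have : -(|curv S C 1 1| * τ) ≤ curv S C 1 1 * τ := by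
        rw [← neg_mul]; exact mul_le_mul_of_nonneg_right (neg_abs_le _) hτ.le
      linarith
    rw [e0, e1]
    have h3 : (S.a * Λ) * θ = (|curv S C 1 0| + 4 / q + 1) * θ := by rw [hΛ]
    linarith
  have h1 := mul_le_mul_of_nonneg_left hMpart hM
  have h2 := mul_le_mul_of_nonneg_left hηpart (mul_nonneg hM hη)
  have h3 : K * τ ^ 4 ≤ M' * θ ^ 8 :=
    mul_le_mul hK (by rw [show θ ^ 8 = (θ ^ 2) ^ 4 by ring]; exact pow_le_pow_left₀ hτ.le hτθ 4)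
      (by positivity) hM
  have h4 : K' * (256 * θ ^ 8 + 2 * (η * θ)) ≤ M' / q * (256 * θ ^ 8 + 2 * (η * θ)) :=
    mul_le_mul_of_nonneg_right hK' (by positivity)
  have e : M' / q * (256 * θ ^ 8 + 2 * (η * θ)) =
      1 / 2 * (M' * (512 / q * θ ^ 8) + M' * η * (4 / q * θ)) := by ring
  simp only [mul_zero] at h1 h2
  linarith

/-- Bounds of `valA` on its region. -/
lemma valA_bounds {β b Λ K M η τ θ s₀ : ℝ} (hβ : β * s₀ ^ 2 ≤ 1 / 4) (hβ0 : 0 ≤ β)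
    (hb : b = 1 / (2 * s₀)) (hs₀ : 0 < s₀) (hΛ : Λ * τ ≤ 1 / 2) (hΛ0 : 0 ≤ Λ) (hK : 0 ≤ K)
    (hM : 0 ≤ M) (hη : 0 ≤ η) (hτ : 0 < τ) (hθ : 0 ≤ θ) (hθs : θ ≤ s₀ * Real.sqrt τ) :
    3 / 4 * K * τ ^ 4 + M / 2 * (θ * (τ ^ 3 * Real.sqrt τ + η)) ≤ valA β b Λ K M η τ θ ∧
      valA β b Λ K M η τ θ ≤ K * τ ^ 4 + M * (θ * (τ ^ 3 * Real.sqrt τ + η)) := by
  set s := Real.sqrt τ
  have hs : 0 ≤ s := Real.sqrt_nonneg _
  have hs2 : s ^ 2 = τ := Real.sq_sqrt hτ.le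
  have hb0 : 0 ≤ b := by rw [hb]; positivity
  have h1 : β * θ ^ 2 * τ ^ 3 ≤ 1 / 4 * τ ^ 4 := by
    calc β * θ ^ 2 * τ ^ 3 ≤ β * (s₀ * s) ^ 2 * τ ^ 3 := by gcongr
      _ = β * s₀ ^ 2 * τ ^ 4 := by rw [mul_pow, hs2]; ring
      _ ≤ _ := mul_le_mul_of_nonneg_right hβ (by positivity)
  have h2 : b * θ ^ 2 * τ ^ 3 ≤ 1 / 2 * (θ * (τ ^ 3 * s)) := by
    calc b * θ ^ 2 * τ ^ 3 = b * θ * θ * τ ^ 3 := by ring
      _ ≤ b * (s₀ * s) * θ * τ ^ 3 := by gcongr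
      _ = _ := by rw [hb]; field_simp
  have h3 : η * θ * (Λ * τ) ≤ η * θ * (1 / 2) := mul_le_mul_of_nonneg_left hΛ (by positivity)
  have h4 : 0 ≤ η * θ * (Λ * τ) := by positivity
  have h5 : 0 ≤ β * θ ^ 2 * τ ^ 3 := by positivity
  have h6 : 0 ≤ b * θ ^ 2 * τ ^ 3 := by positivity
  have k1 := mul_le_mul_of_nonneg_left h1 hK
  have k2 := mul_le_mul_of_nonneg_left h2 hM
  have k3 := mul_le_mul_of_nonneg_left h3 hM
  constructor <;> rw [valA] <;>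
    linarith [mul_nonneg hK h5, mul_nonneg hM h6, mul_nonneg hM h4]

/-- Bounds of `valB` on its region. -/
lemma valB_bounds {c Λ M η τ θ : ℝ} (hc : 0 ≤ c) (hcθ : 2 * (c * τ) ≤ θ ^ 2)
    (hΛ : Λ * τ ≤ 1 / 2) (hΛ0 : 0 ≤ Λ) (hM : 0 ≤ M) (hη : 0 ≤ η) (hτ : 0 < τ) (hθ : 0 ≤ θ) :
    M / 2 * (θ ^ 8 + η * θ) ≤ valB c Λ M η τ θ ∧ valB c Λ M η τ θ ≤ M * (θ ^ 8 + η * θ) := by
  have h1 : 2 * (c * τ) * θ ^ 6 ≤ θ ^ 2 * θ ^ 6 := mul_le_mul_of_nonneg_right hcθ (by positivity)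
  have h3 : η * θ * (Λ * τ) ≤ η * θ * (1 / 2) := mul_le_mul_of_nonneg_left hΛ (by positivity)
  have h4 : 0 ≤ η * θ * (Λ * τ) := by positivity
  have h5 : 0 ≤ c * τ * θ ^ 6 := by positivity
  have k1 := mul_le_mul_of_nonneg_left h1 hM
  have k3 := mul_le_mul_of_nonneg_left h3 hM
  constructor <;> rw [valB] <;> linarith [mul_nonneg hM h4, mul_nonneg hM h5]

end Vale.Agent.P363.Ext.Growth
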