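import Vale.Agent.P363.Ext.Growth.Mono
import Vale.Agent.P363.Ext.StepSpec

/-!
P363, Kohn-Sham side, `GrowthStmt`: comparison for `± f + λ (√n - φu)` with classical barriers,
and the linearised bound of the excess.
-/

noncomputable section

namespace Vale.Agent.P363.Ext.Growth

open MeasureTheory Filter Set
open scoped BigOperators Topology

variable {S : Setup}

/-- The equation of the excess. -/
lemma excess_eqn (S : Setup) : WeakPoisson (far S.R₁) (excess S) fun x =>
    2 * (S.X x + farPot S.a S.k ‖x‖) * Real.sqrt (S.n x) - 2 * (S.v x - S.μ) * S.φu x :=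
  (sqrtStmt S).sub S.eq_u

/-- Comparison on a region of the belt: `X - W` drops out and `X ≥ -C / r²`. -/
theorem compare (S : Setup) : ∃ R₀ : ℝ, S.R₁ ≤ R₀ ∧ ∀ {U : Set Space} {B : Space → ℝ} {lam : ℝ},
    IsOpen U → 0 ≤ lam → closure U ⊆ {x | R₀ ≤ ‖x‖} ∩ belt S.R₁ → ContDiffOn ℝ 2 B (belt S.R₁) →
    (∀ x ∈ U, 0 ≤ B x) →
    ∀ {ν : ℝ} {f : Space → ℝ}, Profile S ν f → (∀ x ∈ U, |f x| ≤ lam * S.φu x) →
    (∀ x ∈ U, lap B x + 2 / ‖x‖ ^ 2 * |f x| ≤
      2 * (farPot S.a S.k ‖x‖ - max S.C 0 / ‖x‖ ^ 2) * B x) →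
    (∀ x ∈ frontier U, |f x| + lam * excess S x ≤ B x) →
    (∀ ε > 0, ∃ R : ℝ, ∀ x ∈ U, R ≤ ‖x‖ → |f x| + lam * excess S x ≤ ε) →
    ∀ x ∈ closure U, |f x| + lam * excess S x ≤ B x := by
  have ha := S.data.a_pos
  refine ⟨max S.R₁ (4 * (|S.k| + max S.C 0) / S.a ^ 2 + 1), le_max_left _ _, ?_⟩
  intro U B lam hU hlam hcl hB hB0 ν f hf hfu hop hfr hinf x hx
  have hUb : U ⊆ belt S.R₁ := fun y hy => (hcl (subset_closure hy)).2
  have hν := hf.sector
  have hc : Continuous (excess S) :=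
    (S.data.continuous.sqrt).sub S.cont_u
  suffices key : ∀ σ : ℝ, |σ| = 1 → σ * f x + lam * excess S x ≤ B x by
    have h1 := key 1 abs_one
    have h2 := key (-1) (by norm_num)
    rcases abs_cases (f x) with ⟨e, -⟩ | ⟨e, -⟩ <;> rw [e] <;> linarith
  intro σ hσ
  set F : Space → ℝ := fun y => σ * f y + lam * excess S y - B y with hF
  have hFc : ContinuousOn F (closure U) :=
    (((continuousOn_const.mul hf.continuousOn).add (continuous_const.mul hc).continuousOn).sub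
      hB.continuousOn).mono fun y hy => (hcl hy).2
  have hsub := (((hf.eqn.mono hUb).const_mul σ).add
    (((excess_eqn S).mono (hUb.trans (belt_subset_far _))).const_mul lam)).sub
      ((WeakPoisson.of_contDiffOn (isOpen_belt _) hB).mono hUb)
  have hle : ∀ y, σ * f y ≤ |f y| := fun y => by
    calc σ * f y ≤ |σ * f y| := le_abs_self _
      _ = |f y| := by rw [abs_mul, hσ, one_mul]
  have hmain : F x ≤ 0 := by
    refine maxCont U F _ hU hFc hsub.toSub ?_ (fun y hy => ?_) ?_ x hx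
    · filter_upwards [S.defect_ge, S.data.defect_lower] with y hW hX hy hFy
      obtain ⟨hyR, hyb⟩ := hcl (subset_closure hy)
      have hr : max S.R₁ (4 * (|S.k| + max S.C 0) / S.a ^ 2 + 1) ≤ ‖y‖ := hyR
      have hr1 : 1 ≤ ‖y‖ := (one_le_R₁ S).trans ((le_max_left _ _).trans hr)
      have hW' : S.v y - S.μ ≤ S.X y + farPot S.a S.k ‖y‖ := by
        have := hW hyb.1
        simp only [Setup.X]
        linarith
      have hX' : -(max S.C 0 / ‖y‖ ^ 2) ≤ S.X y :=
        le_trans (neg_le_neg (div_le_div_of_nonneg_right (le_max_left _ _) (by positivity)))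
          (hX (S.R₀_le.trans hyb.1.le))
      set G0 := farPot S.a S.k ‖y‖
      have hG0 : 0 ≤ G0 - max S.C 0 / ‖y‖ ^ 2 := by
        have h1 := (le_max_right _ _).trans hr
        have h2 : 4 * (|S.k| + max S.C 0) ≤ S.a ^ 2 * ‖y‖ := by
          have := (div_le_iff₀ (pow_pos ha 2)).1 (le_trans (le_add_of_nonneg_right zero_le_one) h1)
          linarith
        have h3 : S.k / ‖y‖ ≤ |S.k| / ‖y‖ := div_le_div_of_nonneg_right (le_abs_self _) (by positivity)
        have h4 : max S.C 0 / ‖y‖ ^ 2 ≤ max S.C 0 / ‖y‖ :=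
          div_le_div_of_nonneg_left (le_max_right _ _) (by positivity) (le_self_pow₀ hr1 two_ne_zero)
        have h5 : (|S.k| + max S.C 0) / ‖y‖ ≤ S.a ^ 2 / 4 := by
          rw [div_le_iff₀ (by positivity)]; linarith
        rw [add_div] at h5
        simp only [G0, farPot]
        linarith [sq_nonneg S.a]
      have hB' := hB0 y hy
      have hg : 0 ≤ σ * f y + lam * excess S y := by
        simp only [hF] at hFy
        linarith
      have hterm : 0 ≤ (S.X y + G0 - (S.v y - S.μ)) * (lam * S.φu y - σ * f y) :=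
        mul_nonneg (by linarith) (by linarith [hfu y hy, hle y])
      have hcent : -(|f y| / ‖y‖ ^ 2) ≤ σ * (centrifugal ν y * f y) := by
        refine le_trans (neg_le_neg ?_) (neg_abs_le _)
        rw [abs_mul, hσ, one_mul, abs_mul, div_eq_inv_mul, inv_eq_one_div]
        rcases hν with hν | hν
        · exact mul_le_mul_of_nonneg_right (abs_centrifugal_le hν hyb).1 (abs_nonneg _)
        · simp [hν]
      have hlow : (G0 - max S.C 0 / ‖y‖ ^ 2) * (σ * f y + lam * excess S y) ≤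
          (S.X y + G0) * (σ * f y + lam * excess S y) :=
        mul_le_mul_of_nonneg_right (by linarith) hg
      have hFpos : 0 ≤ (G0 - max S.C 0 / ‖y‖ ^ 2) * F y := mul_nonneg hG0 hFy.le
      have := hop y hy
      have e : σ * (2 * (S.v y - S.μ + centrifugal ν y) * f y) +
          lam * (2 * (S.X y + G0) * Real.sqrt (S.n y) - 2 * (S.v y - S.μ) * S.φu y) =
          2 * (S.X y + G0) * (σ * f y + lam * excess S y) +
            2 * ((S.X y + G0 - (S.v y - S.μ)) * (lam * S.φu y - σ * f y)) +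
            2 * (σ * (centrifugal ν y * f y)) := by
        simp only [excess]; ring
      simp only [hF] at hFpos
      show 0 ≤ _ - lap B y
      rw [e]
      have e2 : 2 / ‖y‖ ^ 2 * |f y| = 2 * (|f y| / ‖y‖ ^ 2) := by ring
      rw [e2] at this
      linarith
    · have := hfr y hy
      simp only [hF]
      linarith [hle y]
    · intro ε hε
      obtain ⟨R, hR⟩ := hinf ε hε
      refine ⟨R, fun y hy hyR => ?_⟩
      simp only [hF]
      linarith [hR y hy hyR, hle y, hB0 y hy]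
  simp only [hF] at hmain
  linarith

/-- The excess is linear in the bound, with a small factor, above the band. -/
theorem excess_linear (hS : SmallProfilesStmt) (hG : GroundStmt) (hB : BulkOneStmt) (S : Setup) :
    ∃ c : ℝ, 0 < c ∧ ∀ ε : ℝ, 0 < ε → ∃ δ₀ R₀ : ℝ, 0 < δ₀ ∧ δ₀ ≤ 1 / 4 ∧ S.R₁ < R₀ ∧
      ∀ δ R K M η : ℝ, 0 ≤ K → 0 ≤ M → 0 ≤ η → δ ≤ δ₀ → R₀ ≤ R → Level S δ R K M η →
        ∀ x : Space, R ≤ ‖x‖ → 1 / ‖x‖ ≤ height x → height x ≤ δ * ‖x‖ →
          c * height x * S.G x ≤ S.φu x ∧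
          (∀ (ν : ℝ) (f : Space → ℝ), Profile S ν f → |f x| ≤ ε * height x * S.G x) ∧
          excess S x ≤ 2 / c * (‖x‖ * S.G x *
            (ε * bd K M η ‖x‖⁻¹ (height x / ‖x‖) + (‖x‖⁻¹) ^ 5)) := by
  obtain ⟨c, Rb, hc, hb⟩ := hB S
  refine ⟨c, hc, fun ε hε => ?_⟩
  obtain ⟨δ₁, R₁', hδ₁, h1⟩ := hS S ε hε
  obtain ⟨Bg, δ₂, R₂', hδ₂, h2⟩ := hG S 4
  refine ⟨min (min δ₁ δ₂) (1 / 4), max (max (max R₁' R₂') Rb) (max (S.R₁ + 1) (Bg ^ 2 + 3)),
    by positivity, min_le_right _ _, ?_, ?_⟩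
  · exact (lt_add_one _).trans_le ((le_max_left _ _).trans (le_max_right _ _))
  intro δ R K M η hK hM hη hδ hR hL x hx hz hzδ
  have hxR := hR.trans hx
  simp only [max_le_iff] at hxR
  obtain ⟨⟨⟨hx1, hx2⟩, hx3⟩, hx4, hx5⟩ := hxR
  set r := ‖x‖
  set z := height x
  set G := S.G x
  have hr1 : 1 ≤ r := by linarith [one_le_R₁ S]
  have hr : 0 < r := by linarith
  have hz0 : 0 < z := lt_of_lt_of_le (by positivity) hz
  have hG0 : 0 < G := tailG_pos _ _ hr
  have hδ4 : δ ≤ 1 / 4 := hδ.trans (min_le_right _ _)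
  have hδr : ∀ d, δ ≤ d → z ≤ d * r := fun d hd =>
    hzδ.trans (mul_le_mul_of_nonneg_right hd hr.le)
  have hu := hb x hx3 hz
  have hsmall : ∀ (ν : ℝ) (f : Space → ℝ), Profile S ν f → |f x| ≤ ε * z * G := fun ν f hf =>
    h1 ν f hf x hx1 hz (hδr _ (hδ.trans ((min_le_left _ _).trans (min_le_left _ _))))
  refine ⟨hu, hsmall, ?_⟩
  set τ := r⁻¹
  set θ := z / r
  set Bd := bd K M η τ θ
  have hBd : 0 ≤ Bd := bd_nonneg hK hM hη _ _
  have hP : 0 ≤ ε * z * G * (r * G * Bd) := by positivity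
  have hprof : ∀ (ν : ℝ) (f : Space → ℝ), Profile S ν f →
      |f x| ≤ Real.sqrt (ε * z * G * (r * G * Bd)) := fun ν f hf => by
    refine Real.abs_le_sqrt ?_
    rw [← sq_abs, sq]
    exact mul_le_mul (hsmall ν f hf) (hL ν f hf x hx (by rwa [abs_of_pos hz0])) (abs_nonneg _)
      (by positivity)
  have hg : S.φ₀ x ≤ Bg / r ^ 4 * G := h2 x hx2
    (by rw [abs_of_pos hz0]; exact hδr _ (hδ.trans ((min_le_left _ _).trans (min_le_right _ _))))
  have hbelt : x ∈ belt S.R₁ := by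
    refine ⟨by linarith, ?_⟩
    have := hδr _ hδ4
    rw [abs_of_pos hz0]
    linarith
  have hden : 0 < c * z * G := by positivity
  have hX := excess_sq_le hbelt (hden.trans_le hu) hprof
  rw [Real.sq_sqrt hP] at hX
  refine hX.trans ((div_le_div_of_nonneg_left (by positivity) hden hu).trans ?_)
  have hg2 : S.φ₀ x ^ 2 ≤ z * G * (r * G * τ ^ 5) := by
    refine (pow_le_pow_left₀ (S.nonneg₀ x) hg 2).trans ?_
    have h3 : Bg ^ 2 ≤ z * r ^ 4 := by
      have hzr : 1 ≤ z * r := by rwa [div_le_iff₀ hr] at hz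
      have h33 : Bg ^ 2 + 3 ≤ r ^ 3 := hx5.trans (le_self_pow₀ hr1 (by norm_num))
      calc Bg ^ 2 ≤ r ^ 3 := by linarith
        _ ≤ r ^ 3 * (z * r) := le_mul_of_one_le_right (by positivity) hzr
        _ = z * r ^ 4 := by ring
    have e : z * G * (r * G * τ ^ 5) = z * r ^ 4 * (G ^ 2 / r ^ 8) := by
      simp only [τ]; field_simp
    rw [e, mul_pow, div_pow, ← pow_mul, div_mul_eq_mul_div, mul_div_assoc]
    exact mul_le_mul_of_nonneg_right h3 (by positivity)
  rw [div_le_iff₀ hden]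
  have e : 2 / c * (r * G * (ε * Bd + τ ^ 5)) * (c * z * G) =
      2 * (z * G * (r * G * τ ^ 5) + ε * z * G * (r * G * Bd)) := by
    field_simp; ring
  rw [e]
  linarith

end Vale.Agent.P363.Ext.Growth
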