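import Vale.Agent.P363.Ext.Growth.BarrierFun
import Vale.Agent.P363.Ext.Growth.Compare

/-!
P363, Kohn-Sham side, `GrowthStmt`: the two comparisons, below and above the core.
-/

noncomputable section

namespace Vale.Agent.P363.Ext.Growth

open MeasureTheory Filter Set
open scoped BigOperators Topology

variable {S : Setup}

lemma lin_le_low {η τ θ : ℝ} (hη : 0 ≤ η) (hτ : 0 ≤ τ) (h1 : τ ^ 2 ≤ θ)
    (h2 : θ ≤ Real.sqrt τ) : lin η τ θ ≤ 256 * (θ * (τ ^ 3 * Real.sqrt τ)) + 2 * (η * θ) := by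
  have h0 : 0 ≤ θ := le_trans (by positivity) h1
  rw [lin, abs_of_nonneg h0]
  calc (θ + τ ^ 2) * ((Real.sqrt τ + θ) ^ 7 + η)
      ≤ (θ + θ) * ((Real.sqrt τ + Real.sqrt τ) ^ 7 + η) := by gcongr
    _ = 256 * (θ * Real.sqrt τ ^ 7) + 2 * (η * θ) := by ring
    _ = _ := by
      rw [show Real.sqrt τ ^ 7 = (Real.sqrt τ ^ 2) ^ 3 * Real.sqrt τ by ring, Real.sq_sqrt hτ]

lemma lin_le_high {η τ θ : ℝ} (hη : 0 ≤ η) (h1 : τ ^ 2 ≤ θ) (h2 : Real.sqrt τ ≤ θ) :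
    lin η τ θ ≤ 256 * θ ^ 8 + 2 * (η * θ) := by
  have h0 : 0 ≤ θ := le_trans (by positivity) h1
  rw [lin, abs_of_nonneg h0]
  calc (θ + τ ^ 2) * ((Real.sqrt τ + θ) ^ 7 + η) ≤ (θ + θ) * ((θ + θ) ^ 7 + η) := by gcongr
    _ = _ := by ring

lemma low_le_lin {η τ θ : ℝ} (hη : 0 ≤ η) (hτ : 0 ≤ τ) (hθ : 0 ≤ θ) :
    θ * (τ ^ 3 * Real.sqrt τ + η) ≤ lin η τ θ ∧ θ ^ 8 + η * θ ≤ lin η τ θ := by
  rw [lin, abs_of_nonneg hθ]
  have h7 : τ ^ 3 * Real.sqrt τ = Real.sqrt τ ^ 7 := by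
    rw [show Real.sqrt τ ^ 7 = (Real.sqrt τ ^ 2) ^ 3 * Real.sqrt τ by ring, Real.sq_sqrt hτ]
  constructor
  · rw [h7]
    gcongr <;> linarith [sq_nonneg τ, Real.sqrt_nonneg τ]
  · calc θ ^ 8 + η * θ = θ * (θ ^ 7 + η) := by ring
      _ ≤ _ := by gcongr <;> linarith [sq_nonneg τ, Real.sqrt_nonneg τ]

lemma sqrt_mul_inv {r : ℝ} (hr : 0 < r) : Real.sqrt r⁻¹ * r = Real.sqrt r := by
  rw [Real.sqrt_inv]
  field_simp
  rw [Real.sq_sqrt hr.le]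

lemma le_sqrt_pow {τ : ℝ} (hτ : 0 ≤ τ) (hτ1 : τ ≤ 1) : τ ^ 4 ≤ τ ^ 3 * Real.sqrt τ := by
  rw [pow_succ]
  exact mul_le_mul_of_nonneg_left (Real.le_sqrt_of_sq_le (pow_le_of_le_one hτ hτ1 two_ne_zero))
    (by positivity)

lemma tendsto_rG (S : Setup) :
    Tendsto (fun r : ℝ => r * tailG S.a S.k r) atTop (𝓝 0) := by
  refine (tendsto_rpow_mul_exp_neg_mul_atTop_nhds_zero (S.k / S.a - 2 + 1) S.a
    S.data.a_pos).congr' ?_
  filter_upwards [eventually_gt_atTop 0] with r hr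
  rw [tailG, Real.rpow_add_one hr.ne', neg_mul]
  ring

/-- The constants that depend on the setup. -/
structure Shape (S : Setup) (s₀ Sw Cc β b c : ℝ) : Prop where
  s_pos : 0 < s₀
  s_le : s₀ ≤ 1 / 4
  s_sq : s₀ ^ 2 * (14 * S.a) ≤ 1
  β_eq : β = 4 * S.a + 2
  β_s : β * s₀ ^ 2 ≤ 1 / 4
  b_eq : b = 1 / (2 * s₀)
  c_eq : S.a * c = 30
  Sw_ge : 1 ≤ Sw
  Sw_sq : 2 * c ≤ Sw ^ 2
  Cc_ge : 4096 ≤ Cc
  Cc_s : 4096 ≤ Cc * s₀

/-- Everything the two comparisons use. -/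
structure Run (S : Setup) (s₀ Sw Cc β b c C₀ Rc lam e q Λ δ L R K M M₁ η : ℝ) : Prop where
  shape : Shape S s₀ Sw Cc β b c
  C₀_nonneg : 0 ≤ C₀
  apriori : ∀ x : Space, S.R₁ ≤ ‖x‖ →
    Real.sqrt (S.n x) ≤ ‖x‖ * S.G x * (C₀ * (|height x| / ‖x‖ + ‖x‖⁻¹ ^ 4))
  compare : ∀ {U : Set Space} {B : Space → ℝ} {l : ℝ},
    IsOpen U → 0 ≤ l → closure U ⊆ {x | Rc ≤ ‖x‖} ∩ belt S.R₁ → ContDiffOn ℝ 2 B (belt S.R₁) →
    (∀ x ∈ U, 0 ≤ B x) →
    ∀ {ν : ℝ} {f : Space → ℝ}, Profile S ν f → (∀ x ∈ U, |f x| ≤ l * S.φu x) →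
    (∀ x ∈ U, lap B x + 2 / ‖x‖ ^ 2 * |f x| ≤
      2 * (farPot S.a S.k ‖x‖ - max S.C 0 / ‖x‖ ^ 2) * B x) →
    (∀ x ∈ frontier U, |f x| + l * excess S x ≤ B x) →
    (∀ ε > 0, ∃ R : ℝ, ∀ x ∈ U, R ≤ ‖x‖ → |f x| + l * excess S x ≤ ε) →
    ∀ x ∈ closure U, |f x| + l * excess S x ≤ B x
  K_ge : 8 ≤ K
  C₀_K : 4 * C₀ ≤ K
  η_nonneg : 0 ≤ η
  M_nonneg : 0 ≤ M
  δ_pos : 0 < δ
  δ_le : δ ≤ 1 / 4
  δ_q : (|curv S (max S.C 0) 8 0| + 2 + 512 / q) * δ ^ 2 ≤ 2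
  q_pos : 0 < q
  Λ_eq : S.a * Λ = |curv S (max S.C 0) 1 0| + 4 / q + 1
  R_two : 2 ≤ R
  R_far : S.R₁ < R
  R_cmp : Rc ≤ R
  L_ge : R ≤ L * R
  R_large : (2 + |curv S (max S.C 0) 0 4| + β * |curv S (max S.C 0) 2 3| +
    |curv S (max S.C 0) 1 1| / S.a +
    2 * (|curv S (max S.C 0) 1 (7 / 2)| + b * |curv S (max S.C 0) 2 3| + 512 / q) +
    c * |curv S (max S.C 0) 6 1| + 2 * Λ + 1 / δ ^ 2) ≤ R
  lam_nonneg : 0 ≤ lam
  lam_le : lam ≤ 1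
  e_nonneg : 0 ≤ e
  e_K : e * (K + 1) ≤ 1
  e_M : e * (1 + Sw) ^ 8 * M ≤ M₁
  M₁_ge : K + 1 ≤ M₁
  M_le : M ≤ Cc * M₁ / q
  big_R : 24 * C₀ * (L * R) ^ 4 ≤ M₁
  big_δ : 24 * C₀ * (δ ^ 7)⁻¹ ≤ M₁
  level : Level S δ R K M η
  plane : ∀ (ν : ℝ) (f : Space → ℝ), Profile S ν f → ∀ τ θ : ℝ, 0 < τ → L * R * τ ≤ 1 →
    |θ| ≤ 2 * τ ^ 2 → |tred S f τ θ| ≤ K / 2 * τ ^ 4 + M₁ * lin η τ θ
  core : ∀ (ν : ℝ) (f : Space → ℝ), Profile S ν f → ∀ τ θ : ℝ, 0 < τ → L * R * τ ≤ 1 →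
    s₀ * Real.sqrt τ ≤ |θ| → |θ| ≤ Sw * Real.sqrt τ →
    |tred S f τ θ| ≤ M₁ * (τ ^ 4 + η * Real.sqrt τ)
  side : ∀ (ν : ℝ) (f : Space → ℝ), Profile S ν f → ∀ x : Space, R ≤ ‖x‖ →
    1 / ‖x‖ ≤ height x → height x ≤ δ * ‖x‖ →
    |f x| ≤ lam * S.φu x ∧ |f x| + lam * excess S x ≤ ‖x‖ * S.G x *
      (|tred S f ‖x‖⁻¹ (height x / ‖x‖)| +
        e * ((K + 1) * ‖x‖⁻¹ ^ 4 + M * lin η ‖x‖⁻¹ (height x / ‖x‖)))

namespace Run

variable {s₀ Sw Cc β b c C₀ Rc lam e q Λ δ L R K M M₁ η : ℝ}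
  {h : Run S s₀ Sw Cc β b c C₀ Rc lam e q Λ δ L R K M M₁ η}

lemma facts (h : Run S s₀ Sw Cc β b c C₀ Rc lam e q Λ δ L R K M M₁ η) {x : Space}
    (hx : R ≤ ‖x‖) :
    0 < ‖x‖ ∧ 0 < ‖x‖⁻¹ ∧ ‖x‖⁻¹ ≤ 1 ∧ x ≠ 0 ∧ 0 < ‖x‖ * S.G x ∧ Real.sqrt ‖x‖⁻¹ ≤ δ ∧
      Λ * ‖x‖⁻¹ ≤ 1 / 2 ∧ 0 ≤ Λ ∧
      (2 + |curv S (max S.C 0) 0 4| + β * |curv S (max S.C 0) 2 3|) * ‖x‖⁻¹ ≤ 1 ∧
      |curv S (max S.C 0) 1 1| * ‖x‖⁻¹ ≤ S.a ∧
      (|curv S (max S.C 0) 1 (7 / 2)| + b * |curv S (max S.C 0) 2 3| + 512 / q) * ‖x‖⁻¹ ≤ 1 / 2 ∧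
      c * |curv S (max S.C 0) 6 1| * ‖x‖⁻¹ ≤ 1 := by
  have ha := S.data.a_pos
  have hs := h.shape.s_pos
  have hq := h.q_pos
  have hR := h.R_large
  have hr : 0 < ‖x‖ := by linarith [h.R_two]
  have hi := inv_pos.2 hr
  have hβ : 0 ≤ β := by rw [h.shape.β_eq]; positivity
  have hb : 0 ≤ b := by rw [h.shape.b_eq]; positivity
  have hc : 0 ≤ c := nonneg_of_mul_nonneg_right (by rw [h.shape.c_eq]; norm_num) ha
  have hΛ : 0 ≤ Λ := nonneg_of_mul_nonneg_right (by rw [h.Λ_eq]; positivity) ha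
  have n1 : 0 ≤ β * |curv S (max S.C 0) 2 3| := by positivity
  have n2 : 0 ≤ |curv S (max S.C 0) 1 1| / S.a := by positivity
  have n3 : 0 ≤ |curv S (max S.C 0) 1 (7 / 2)| + b * |curv S (max S.C 0) 2 3| + 512 / q := by
    positivity
  have n4 : 0 ≤ c * |curv S (max S.C 0) 6 1| := by positivity
  have n5 : 0 ≤ 1 / δ ^ 2 := by positivity
  have n6 : 0 ≤ |curv S (max S.C 0) 0 4| := abs_nonneg _
  have key : ∀ t, t ≤ R → t * ‖x‖⁻¹ ≤ 1 := fun t ht => by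
    rw [← div_eq_mul_inv, div_le_one hr]; linarith
  refine ⟨hr, hi, inv_le_one_of_one_le₀ (by linarith [h.R_two]), norm_pos_iff.1 hr,
    mul_pos hr (tailG_pos _ _ hr), ?_, by linarith [key (2 * Λ) (by linarith)], hΛ,
    key _ (by linarith), ?_, ?_, key _ (by linarith)⟩
  · rw [Real.sqrt_le_iff]
    refine ⟨h.δ_pos.le, ?_⟩
    have := key (1 / δ ^ 2) (by linarith)
    rwa [one_div_mul_eq_div, div_le_one (pow_pos h.δ_pos 2)] at this
  · have := key (|curv S (max S.C 0) 1 1| / S.a) (by linarith)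
    rwa [div_mul_eq_mul_div, div_le_one ha] at this
  · linarith [key (2 * (|curv S (max S.C 0) 1 (7 / 2)| + b * |curv S (max S.C 0) 2 3| + 512 / q))
      (by linarith)]

lemma belt (h : Run S s₀ Sw Cc β b c C₀ Rc lam e q Λ δ L R K M M₁ η) {y : Space}
    (hy : R ≤ ‖y‖) (hy0 : 0 ≤ height y) (hyd : height y ≤ δ * ‖y‖) :
    y ∈ {x | Rc ≤ ‖x‖} ∩ Ext.belt S.R₁ := by
  have hr := (h.facts hy).1
  have h2 : δ * ‖y‖ ≤ 1 / 4 * ‖y‖ := mul_le_mul_of_nonneg_right h.δ_le hr.le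
  refine ⟨h.R_cmp.trans hy, h.R_far.trans_le hy, ?_⟩
  rw [abs_of_nonneg hy0]
  linarith

/-- The crude bound of the whole mass. -/
lemma crude (h : Run S s₀ Sw Cc β b c C₀ Rc lam e q Λ δ L R K M M₁ η) {ν : ℝ} {f : Space → ℝ}
    (hf : Profile S ν f) {y : Space} (hy : R ≤ ‖y‖) (hy0 : 0 ≤ height y)
    (hyd : height y ≤ δ * ‖y‖) :
    |f y| + lam * excess S y ≤ ‖y‖ * S.G y * (3 * C₀ * (height y / ‖y‖ + ‖y‖⁻¹ ^ 4)) := by
  have hb := (h.belt hy hy0 hyd).2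
  have h1 : lam * excess S y ≤ excess S y := mul_le_of_le_one_left (excess_nonneg S y) h.lam_le
  have h2 := excess_le S y
  have h3 := hf.abs_le_sqrt hb
  have h4 := h.apriori y hb.1.le
  rw [abs_of_nonneg hy0] at h4
  linarith

/-- The mass vanishes at infinity. -/
lemma small (h : Run S s₀ Sw Cc β b c C₀ Rc lam e q Λ δ L R K M M₁ η) {ν : ℝ} {f : Space → ℝ}
    (hf : Profile S ν f) {U : Set Space}
    (hU : ∀ y ∈ U, R ≤ ‖y‖ ∧ 0 ≤ height y ∧ height y ≤ δ * ‖y‖) :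
    ∀ ε > 0, ∃ R' : ℝ, ∀ x ∈ U, R' ≤ ‖x‖ → |f x| + lam * excess S x ≤ ε := by
  intro ε hε
  have ht := (tendsto_rG S).const_mul (6 * C₀)
  rw [mul_zero] at ht
  obtain ⟨R', hR'⟩ := eventually_atTop.1 (ht.eventually (eventually_le_nhds hε))
  refine ⟨R', fun x hx hxR => ?_⟩
  obtain ⟨hx1, hx2, hx3⟩ := hU x hx
  obtain ⟨hr, hi, hi1, -, hrG, -⟩ := h.facts hx1
  refine (h.crude hf hx1 hx2 hx3).trans (le_trans ?_ (hR' ‖x‖ hxR))
  have h1 : height x / ‖x‖ + ‖x‖⁻¹ ^ 4 ≤ 2 := by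
    have a1 : height x / ‖x‖ ≤ 1 := (div_le_one hr).2 ((le_abs_self _).trans (abs_height_le x))
    have a2 : ‖x‖⁻¹ ^ 4 ≤ 1 := pow_le_one₀ hi.le hi1
    linarith
  have := mul_le_mul_of_nonneg_left h1
    (mul_nonneg hrG.le (mul_nonneg (by norm_num : (0 : ℝ) ≤ 3) h.C₀_nonneg))
  show _ ≤ 6 * C₀ * (‖x‖ * S.G x)
  linarith

/-- `(L R)⁴ τ⁴ = 1` on the first sphere. -/
lemma sphere_eq (h : Run S s₀ Sw Cc β b c C₀ Rc lam e q Λ δ L R K M M₁ η) {y : Space}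
    (hy : ‖y‖ = L * R) : (L * R) ^ 4 * ‖y‖⁻¹ ^ 4 = 1 := by
  rw [hy, ← mul_pow, mul_inv_cancel₀ (by linarith [h.L_ge, h.R_two]), one_pow]

/-- Below the core. -/
theorem lower (h : Run S s₀ Sw Cc β b c C₀ Rc lam e q Λ δ L R K M M₁ η) {ν : ℝ} {f : Space → ℝ}
    (hf : Profile S ν f) {x : Space} (hx1 : L * R ≤ ‖x‖) (hx2 : 1 ≤ height x * ‖x‖)
    (hx3 : height x ≤ s₀ * Real.sqrt ‖x‖) :
    |f x| ≤ ‖x‖ * S.G x * bd K (Cc * M₁) η ‖x‖⁻¹ (height x / ‖x‖) := by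
  have hsh := h.shape
  have hη := h.η_nonneg
  have hM := h.M_nonneg
  have hK0 : 0 ≤ K := by linarith [h.K_ge]
  have hM₁0 : 0 ≤ M₁ := by linarith [h.M₁_ge]
  set M' := Cc * M₁ with hM'
  have hM'0 : 0 ≤ M' := mul_nonneg (by linarith [hsh.Cc_ge]) hM₁0
  set U : Set Space :=
    {y | L * R < ‖y‖ ∧ 1 < height y * ‖y‖ ∧ height y < s₀ * Real.sqrt ‖y‖} with hU
  have cn := continuous_norm (E := Space)
  have ch := contHeight
  have hUo : IsOpen U :=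
    (isOpen_lt continuous_const cn).inter ((isOpen_lt continuous_const (ch.mul cn)).inter
      (isOpen_lt ch (continuous_const.mul (Real.continuous_sqrt.comp cn))))
  set U' : Set Space :=
    {y | L * R ≤ ‖y‖ ∧ 1 ≤ height y * ‖y‖ ∧ height y ≤ s₀ * Real.sqrt ‖y‖} with hU'
  have hcl : closure U ⊆ U' := closure_minimal (fun y hy => ⟨hy.1.le, hy.2.1.le, hy.2.2.le⟩)
    ((isClosed_le continuous_const cn).inter ((isClosed_le continuous_const (ch.mul cn)).inter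
      (isClosed_le ch (continuous_const.mul (Real.continuous_sqrt.comp cn)))))
  have reg : ∀ y ∈ U', R ≤ ‖y‖ ∧ 0 < height y ∧ height y ≤ δ * ‖y‖ ∧
      ‖y‖⁻¹ ^ 2 ≤ height y / ‖y‖ ∧ height y / ‖y‖ ≤ s₀ * Real.sqrt ‖y‖⁻¹ ∧
      height y / ‖y‖ ≤ Real.sqrt ‖y‖⁻¹ := by
    rintro y ⟨hy1, hy2, hy3⟩
    obtain ⟨hyr, -, -, -, -, hyδ, -⟩ := h.facts (h.L_ge.trans hy1)
    have hy0 : 0 < height y := pos_of_mul_pos_left (lt_of_lt_of_le one_pos hy2) hyr.le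
    have h5 : height y / ‖y‖ ≤ s₀ * Real.sqrt ‖y‖⁻¹ := by
      rw [div_le_iff₀ hyr, mul_assoc, sqrt_mul_inv hyr]
      exact hy3
    have h6 : height y / ‖y‖ ≤ Real.sqrt ‖y‖⁻¹ :=
      h5.trans (mul_le_of_le_one_left (Real.sqrt_nonneg _) (by linarith [hsh.s_le]))
    refine ⟨h.L_ge.trans hy1, hy0, (div_le_iff₀ hyr).1 (h6.trans hyδ), ?_, h5, h6⟩
    rw [le_div_iff₀ hyr, show ‖y‖⁻¹ ^ 2 * ‖y‖ = 1 / ‖y‖ by field_simp, div_le_iff₀ hyr]
    exact hy2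
  have bounds : ∀ y ∈ U', ‖y‖ * S.G y * (3 / 4 * K * ‖y‖⁻¹ ^ 4 + M' / 2 *
        (height y / ‖y‖ * (‖y‖⁻¹ ^ 3 * Real.sqrt ‖y‖⁻¹ + η))) ≤
      barA S β b Λ K M' η y ∧ barA S β b Λ K M' η y ≤
        ‖y‖ * S.G y * bd K M' η ‖y‖⁻¹ (height y / ‖y‖) := by
    intro y hy
    obtain ⟨hy1, hy0, -, -, h5, -⟩ := reg y hy
    obtain ⟨hyr, hyτ, -, hyx, hyG, -, hyΛ, hΛ0, -⟩ := h.facts hy1
    have hθy : 0 ≤ height y / ‖y‖ := div_nonneg hy0.le hyr.le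
    obtain ⟨v1, v2⟩ := valA_bounds hsh.β_s (by rw [hsh.β_eq]; linarith [S.data.a_pos]) hsh.b_eq
      hsh.s_pos hyΛ hΛ0 hK0 hM'0 hη hyτ hθy h5
    rw [barA_eq hyx]
    refine ⟨mul_le_mul_of_nonneg_left v1 hyG.le, mul_le_mul_of_nonneg_left (v2.trans ?_) hyG.le⟩
    exact add_le_add le_rfl (mul_le_mul_of_nonneg_left (low_le_lin hη hyτ.le hθy).1 hM'0)
  have edge : ∀ y ∈ U', y ∉ U → |f y| + lam * excess S y ≤ barA S β b Λ K M' η y := by
    intro y hy hyU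
    obtain ⟨hy1, hy0, hyd, h4, h5, h6⟩ := reg y hy
    obtain ⟨hy'1, hy'2, hy'3⟩ := id hy
    obtain ⟨hyr, hyτ, hyτ1, hyx, hyG, -⟩ := h.facts hy1
    refine le_trans ?_ (bounds y hy).1
    have hside := (h.side ν f hf y hy1 (by rw [div_le_iff₀ hyr]; exact hy'2) hyd).2
    set τy := ‖y‖⁻¹ with hτy
    set θy := height y / ‖y‖ with hθy
    have hθy0 : 0 ≤ θy := div_nonneg hy0.le hyr.le
    have hK4 : 0 ≤ K * τy ^ 4 := by positivity
    have heK4 : e * (K + 1) * τy ^ 4 ≤ K / 8 * τy ^ 4 :=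
      mul_le_mul_of_nonneg_right (h.e_K.trans (by linarith [h.K_ge])) (by positivity)
    have hLτy : L * R * τy ≤ 1 := by
      rw [hτy, ← div_eq_mul_inv, div_le_one hyr]; exact hy'1
    have heM' : e * M ≤ M₁ := (mul_le_mul_of_nonneg_right (le_mul_of_one_le_right h.e_nonneg
      (one_le_pow₀ (by linarith [hsh.Sw_ge]))) hM).trans h.e_M
    by_cases c1 : height y * ‖y‖ = 1
    · have hθe : θy ≤ 2 * τy ^ 2 := by
        rw [hθy, hτy, div_le_iff₀ hyr,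
          show 2 * ‖y‖⁻¹ ^ 2 * ‖y‖ = 2 / ‖y‖ by field_simp, le_div_iff₀ hyr, c1]
        norm_num
      refine hside.trans (mul_le_mul_of_nonneg_left ?_ hyG.le)
      have hp1 := h.plane ν f hf τy θy hyτ hLτy (by rwa [abs_of_nonneg hθy0])
      have hl1 := mul_le_mul_of_nonneg_left (lin_le_low hη hyτ.le h4 h6) hM₁0
      have hl2 : e * (M * lin η τy θy) ≤ M₁ * lin η τy θy := by
        rw [← mul_assoc]; exact mul_le_mul_of_nonneg_right heM' (lin_nonneg hη _ _)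
      have h8 : 4096 * M₁ * (θy * (τy ^ 3 * Real.sqrt τy + η)) ≤
          M' * (θy * (τy ^ 3 * Real.sqrt τy + η)) :=
        mul_le_mul_of_nonneg_right (mul_le_mul_of_nonneg_right hsh.Cc_ge hM₁0) (by positivity)
      have h9 : 0 ≤ M₁ * (θy * (τy ^ 3 * Real.sqrt τy)) := by positivity
      have h10 : 0 ≤ M₁ * (η * θy) := by positivity
      linarith
    by_cases c2 : height y = s₀ * Real.sqrt ‖y‖
    · have hθe : θy = s₀ * Real.sqrt τy := by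
        rw [hθy, c2, div_eq_iff hyr.ne', mul_assoc, sqrt_mul_inv hyr]
      refine hside.trans (mul_le_mul_of_nonneg_left ?_ hyG.le)
      have hθSw : |θy| ≤ Sw * Real.sqrt τy := by
        rw [abs_of_nonneg hθy0]
        exact h6.trans (le_mul_of_one_le_left (Real.sqrt_nonneg _) hsh.Sw_ge)
      have hc1 := h.core ν f hf τy θy hyτ hLτy (by rw [abs_of_nonneg hθy0, hθe]) hθSw
      have hl : lin η τy θy ≤ (1 + Sw) ^ 8 * (τy ^ 4 + η * Real.sqrt τy) :=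
        (lin_le_scale hη hyτ.le hyτ1 θy).trans
          (scale_le_core hη hyτ.le (by linarith [hsh.Sw_ge]) hθSw)
      have hl2 : e * (M * lin η τy θy) ≤ M₁ * (τy ^ 4 + η * Real.sqrt τy) := by
        refine (mul_le_mul_of_nonneg_left (mul_le_mul_of_nonneg_left hl hM) h.e_nonneg).trans ?_
        refine le_trans (le_of_eq ?_) (mul_le_mul_of_nonneg_right h.e_M (by positivity))
        ring
      have hM2 : 4 * M₁ * (τy ^ 4 + η * Real.sqrt τy) ≤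
          M' * (θy * (τy ^ 3 * Real.sqrt τy + η)) := by
        have e1 : θy * (τy ^ 3 * Real.sqrt τy + η) =
            s₀ * (τy ^ 3 * Real.sqrt τy ^ 2 + η * Real.sqrt τy) := by rw [hθe]; ring
        rw [e1, Real.sq_sqrt hyτ.le, ← pow_succ, ← mul_assoc]
        refine mul_le_mul_of_nonneg_right ?_ (by positivity)
        have := mul_le_mul_of_nonneg_right hsh.Cc_s hM₁0
        rw [hM']
        linarith
      linarith
    have c3 : ‖y‖ = L * R := by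
      by_contra c3
      exact hyU ⟨lt_of_le_of_ne hy'1 (Ne.symm c3), lt_of_le_of_ne hy'2 (Ne.symm c1),
        lt_of_le_of_ne hy'3 c2⟩
    refine (h.crude hf hy1 hy0.le hyd).trans (mul_le_mul_of_nonneg_left ?_ hyG.le)
    rw [← hτy, ← hθy]
    have hC₀ := h.C₀_nonneg
    have hτ4 : τy ^ 4 ≤ θy := (pow_le_pow_of_le_one hyτ.le hyτ1 (by norm_num)).trans h4
    have h2 := le_sqrt_pow hyτ.le hyτ1
    have h3 : 6 * C₀ * (L * R) ^ 4 * (θy * τy ^ 4) ≤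
        M' / 2 * (θy * (τy ^ 3 * Real.sqrt τy + η)) := by
      refine mul_le_mul ?_ (mul_le_mul_of_nonneg_left (by linarith) hθy0) (by positivity)
        (by positivity)
      have : 4096 * M₁ ≤ M' := mul_le_mul_of_nonneg_right hsh.Cc_ge hM₁0
      linarith [h.big_R]
    have h4' : 6 * C₀ * (L * R) ^ 4 * (θy * τy ^ 4) = 6 * C₀ * θy := by
      rw [show 6 * C₀ * (L * R) ^ 4 * (θy * τy ^ 4) =
        6 * C₀ * θy * ((L * R) ^ 4 * τy ^ 4) by ring, hτy, h.sphere_eq c3, mul_one]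
    have h5' := mul_le_mul_of_nonneg_left hτ4 (show (0 : ℝ) ≤ 3 * C₀ by positivity)
    linarith
  have hmem : x ∈ U' := ⟨hx1, hx2, hx3⟩
  suffices key : |f x| + lam * excess S x ≤ barA S β b Λ K M' η x by
    have := (bounds x hmem).2
    have h0 := mul_nonneg h.lam_nonneg (excess_nonneg S x)
    linarith
  by_cases hxU : x ∈ U
  swap
  · exact edge x hmem hxU
  have regU : ∀ y ∈ U, R ≤ ‖y‖ ∧ 0 ≤ height y ∧ height y ≤ δ * ‖y‖ := fun y hy => by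
    obtain ⟨a1, a2, a3, -⟩ := reg y (hcl (subset_closure hy))
    exact ⟨a1, a2.le, a3⟩
  refine h.compare (B := barA S β b Λ K M' η) hUo h.lam_nonneg (fun y hy => ?_) ?_ ?_ hf ?_ ?_ ?_
    (h.small hf regU) x (subset_closure hxU)
  · obtain ⟨a1, a2, a3, -⟩ := reg y (hcl hy)
    exact h.belt a1 a2.le a3
  · exact contDiffOn_combo.mono fun y hy => norm_pos_iff.1
      (lt_trans (lt_of_lt_of_le one_pos (one_le_R₁ S)) hy.1)
  · intro y hy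
    have hy' := hcl (subset_closure hy)
    obtain ⟨hy1, hy0, -⟩ := reg y hy'
    obtain ⟨hyr, hyτ, -, -, hyG, -⟩ := h.facts hy1
    refine le_trans ?_ (bounds y hy').1
    have : 0 ≤ height y / ‖y‖ := div_nonneg hy0.le hyr.le
    positivity
  · intro y hy
    obtain ⟨hy1, -, hyd, -⟩ := reg y (hcl (subset_closure hy))
    refine (h.side ν f hf y hy1 ?_ hyd).1
    rw [div_le_iff₀ (h.facts hy1).1]
    exact hy.2.1.le
  · intro y hy
    obtain ⟨hy1, hy0, hyd, h4, h5, h6⟩ := reg y (hcl (subset_closure hy))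
    obtain ⟨hyr, hyτ, -, hyx, hyG, -, -, -, t1, t2, t3, -⟩ := h.facts hy1
    set τy := ‖y‖⁻¹ with hτy
    set θy := height y / ‖y‖ with hθy
    have hθy0 : 0 ≤ θy := div_nonneg hy0.le hyr.le
    have hp : 0 ≤ S.G y / ‖y‖ := (div_pos (tailG_pos _ _ hyr) hyr).le
    have hop := opA_le (S := S) (C := max S.C 0) (θ := θy) (K := K) (K' := M) (M' := M') (q := q)
      (η := η) (τ := τy) hsh.β_eq hsh.b_eq hsh.s_pos (by linarith [hsh.s_le]) hsh.s_sq h.q_pos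
      h.Λ_eq hK0 hM'0 h.M_le hη hyτ hθy0 h5 t1 t2 t3
    have hfy : |f y| ≤ ‖y‖ * S.G y * (K * τy ^ 4 + M * (256 * τy ^ 4 + 2 * (η * θy))) := by
      refine (h.level ν f hf y hy1 (by rw [abs_of_pos hy0]; exact hyd)).trans ?_
      refine mul_le_mul_of_nonneg_left
        (add_le_add le_rfl (mul_le_mul_of_nonneg_left ?_ hM)) hyG.le
      refine (lin_le_low hη hyτ.le h4 h6).trans (add_le_add ?_ le_rfl)
      refine mul_le_mul_of_nonneg_left ?_ (by norm_num)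
      calc θy * (τy ^ 3 * Real.sqrt τy) ≤ Real.sqrt τy * (τy ^ 3 * Real.sqrt τy) :=
            mul_le_mul_of_nonneg_right h6 (by positivity)
        _ = Real.sqrt τy ^ 2 * τy ^ 3 := by ring
        _ = _ := by rw [Real.sq_sqrt hyτ.le]; ring
    have h2f : 2 / ‖y‖ ^ 2 * |f y| ≤
        S.G y / ‖y‖ * (2 * (K * τy ^ 4 + M * (256 * τy ^ 4 + 2 * (η * θy)))) := by
      refine (mul_le_mul_of_nonneg_left hfy (by positivity)).trans_eq ?_
      field_simp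
    have := mul_le_mul_of_nonneg_left hop hp
    rw [mul_zero] at this
    rw [barA, lap_combo (max S.C 0) hyx]
    simp only [Fin.sum_univ_six, Matrix.cons_val, ← hτy, ← hθy]
    linarith
  · intro y hy
    rw [hUo.frontier_eq] at hy
    exact edge y (hcl hy.1) hy.2

/-- Above the core. -/
theorem upper (h : Run S s₀ Sw Cc β b c C₀ Rc lam e q Λ δ L R K M M₁ η) {ν : ℝ} {f : Space → ℝ}
    (hf : Profile S ν f) {x : Space} (hx1 : L * R ≤ ‖x‖) (hx2 : Sw * Real.sqrt ‖x‖ ≤ height x)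
    (hx3 : height x ≤ δ * ‖x‖) :
    |f x| ≤ ‖x‖ * S.G x * bd K (Cc * M₁) η ‖x‖⁻¹ (height x / ‖x‖) := by
  have hsh := h.shape
  have hη := h.η_nonneg
  have hM := h.M_nonneg
  have hK0 : 0 ≤ K := by linarith [h.K_ge]
  have hM₁0 : 0 ≤ M₁ := by linarith [h.M₁_ge]
  set M' := Cc * M₁ with hM'
  have hC4 : 4096 * M₁ ≤ M' := mul_le_mul_of_nonneg_right hsh.Cc_ge hM₁0
  have hM'0 : 0 ≤ M' := by linarith
  set U : Set Space :=
    {y | L * R < ‖y‖ ∧ Sw * Real.sqrt ‖y‖ < height y ∧ height y < δ * ‖y‖} with hU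
  have cn := continuous_norm (E := Space)
  have ch := contHeight
  have cs : Continuous fun y : Space => Sw * Real.sqrt ‖y‖ :=
    continuous_const.mul (Real.continuous_sqrt.comp cn)
  have hUo : IsOpen U := (isOpen_lt continuous_const cn).inter
    ((isOpen_lt cs ch).inter (isOpen_lt ch (continuous_const.mul cn)))
  set U' : Set Space :=
    {y | L * R ≤ ‖y‖ ∧ Sw * Real.sqrt ‖y‖ ≤ height y ∧ height y ≤ δ * ‖y‖} with hU'
  have hcl : closure U ⊆ U' := closure_minimal (fun y hy => ⟨hy.1.le, hy.2.1.le, hy.2.2.le⟩)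
    ((isClosed_le continuous_const cn).inter
      ((isClosed_le cs ch).inter (isClosed_le ch (continuous_const.mul cn))))
  have reg : ∀ y ∈ U', R ≤ ‖y‖ ∧ 0 < height y ∧ 1 / ‖y‖ ≤ height y ∧
      ‖y‖⁻¹ ^ 2 ≤ height y / ‖y‖ ∧ Sw * Real.sqrt ‖y‖⁻¹ ≤ height y / ‖y‖ ∧
      Real.sqrt ‖y‖⁻¹ ≤ height y / ‖y‖ ∧ height y / ‖y‖ ≤ δ := by
    rintro y ⟨hy1, hy2, hy3⟩
    obtain ⟨hyr, hyτ, hyτ1, -, -, -⟩ := h.facts (h.L_ge.trans hy1)
    have h5 : Sw * Real.sqrt ‖y‖⁻¹ ≤ height y / ‖y‖ := by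
      rw [le_div_iff₀ hyr, mul_assoc, sqrt_mul_inv hyr]
      exact hy2
    have h6 : Real.sqrt ‖y‖⁻¹ ≤ height y / ‖y‖ :=
      (le_mul_of_one_le_left (Real.sqrt_nonneg _) hsh.Sw_ge).trans h5
    have h7 : ‖y‖⁻¹ ^ 2 ≤ Real.sqrt ‖y‖⁻¹ :=
      (pow_le_of_le_one hyτ.le hyτ1 two_ne_zero).trans
        (Real.le_sqrt_of_sq_le (pow_le_of_le_one hyτ.le hyτ1 two_ne_zero))
    have h8 : 1 ≤ height y := by
      refine le_trans ?_ hy2
      refine one_le_mul_of_one_le_of_one_le hsh.Sw_ge (Real.one_le_sqrt.2 ?_)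
      linarith [h.L_ge, h.R_two]
    refine ⟨h.L_ge.trans hy1, by linarith, ?_, h7.trans h6, h5, h6, (div_le_iff₀ hyr).2 hy3⟩
    rw [div_le_iff₀ hyr]
    exact one_le_mul_of_one_le_of_one_le h8 (by linarith [h.L_ge, h.R_two])
  have sq_le : ∀ y ∈ U', ‖y‖⁻¹ ≤ (height y / ‖y‖) ^ 2 ∧
      2 * (c * ‖y‖⁻¹) ≤ (height y / ‖y‖) ^ 2 := by
    intro y hy
    obtain ⟨hy1, -, -, -, h5, h6, -⟩ := reg y hy
    obtain ⟨-, hyτ, -⟩ := h.facts hy1
    have hs := Real.sq_sqrt hyτ.le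
    constructor
    · rw [← hs]; exact pow_le_pow_left₀ (Real.sqrt_nonneg _) h6 2
    · refine le_trans ?_ (pow_le_pow_left₀
        (mul_nonneg (by linarith [hsh.Sw_ge]) (Real.sqrt_nonneg _)) h5 2)
      rw [mul_pow, hs, ← mul_assoc]
      exact mul_le_mul_of_nonneg_right hsh.Sw_sq hyτ.le
  have hc0 : 0 ≤ c := nonneg_of_mul_nonneg_right (by rw [hsh.c_eq]; norm_num) S.data.a_pos
  have bounds : ∀ y ∈ U', ‖y‖ * S.G y * (M' / 2 *
        ((height y / ‖y‖) ^ 8 + η * (height y / ‖y‖))) ≤ barB S c Λ M' η y ∧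
      barB S c Λ M' η y ≤ ‖y‖ * S.G y * bd K M' η ‖y‖⁻¹ (height y / ‖y‖) := by
    intro y hy
    obtain ⟨hy1, hy0, -⟩ := reg y hy
    obtain ⟨hyr, hyτ, -, hyx, hyG, -, hyΛ, hΛ0, -⟩ := h.facts hy1
    have hθy : 0 ≤ height y / ‖y‖ := div_nonneg hy0.le hyr.le
    obtain ⟨v1, v2⟩ := valB_bounds hc0 (sq_le y hy).2 hyΛ hΛ0 hM'0 hη hyτ hθy
    rw [barB_eq hyx]
    refine ⟨mul_le_mul_of_nonneg_left v1 hyG.le, mul_le_mul_of_nonneg_left (v2.trans ?_) hyG.le⟩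
    refine le_trans (mul_le_mul_of_nonneg_left (low_le_lin hη hyτ.le hθy).2 hM'0) ?_
    exact le_add_of_nonneg_left (by positivity)
  have edge : ∀ y ∈ U', y ∉ U → |f y| + lam * excess S y ≤ barB S c Λ M' η y := by
    intro y hy hyU
    obtain ⟨hy1, hy0, hyz, h4, h5, h6, h7⟩ := reg y hy
    obtain ⟨hy'1, hy'2, hy'3⟩ := id hy
    obtain ⟨hyr, hyτ, hyτ1, hyx, hyG, -⟩ := h.facts hy1
    refine le_trans ?_ (bounds y hy).1
    have hcrude := h.crude hf hy1 hy0.le hy'3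
    set τy := ‖y‖⁻¹ with hτy
    set θy := height y / ‖y‖ with hθy
    have hθy0 : 0 ≤ θy := div_nonneg hy0.le hyr.le
    have hC₀ := h.C₀_nonneg
    have hLτy : L * R * τy ≤ 1 := by
      rw [hτy, ← div_eq_mul_inv, div_le_one hyr]; exact hy'1
    by_cases c1 : height y = Sw * Real.sqrt ‖y‖
    · have hθe : θy = Sw * Real.sqrt τy := by
        rw [hθy, c1, div_eq_iff hyr.ne', mul_assoc, sqrt_mul_inv hyr]
      refine (h.side ν f hf y hy1 hyz hy'3).2.trans (mul_le_mul_of_nonneg_left ?_ hyG.le)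
      have hθSw : |θy| ≤ Sw * Real.sqrt τy := by rw [abs_of_nonneg hθy0, hθe]
      have hc1 := h.core ν f hf τy θy hyτ hLτy (by
        rw [abs_of_nonneg hθy0, hθe]
        exact mul_le_mul_of_nonneg_right (by linarith [hsh.s_le, hsh.Sw_ge]) (Real.sqrt_nonneg _))
        hθSw
      have hl : lin η τy θy ≤ (1 + Sw) ^ 8 * (τy ^ 4 + η * Real.sqrt τy) :=
        (lin_le_scale hη hyτ.le hyτ1 θy).trans
          (scale_le_core hη hyτ.le (by linarith [hsh.Sw_ge]) hθSw)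
      have hl2 : e * (M * lin η τy θy) ≤ M₁ * (τy ^ 4 + η * Real.sqrt τy) := by
        refine (mul_le_mul_of_nonneg_left (mul_le_mul_of_nonneg_left hl hM) h.e_nonneg).trans ?_
        refine le_trans (le_of_eq ?_) (mul_le_mul_of_nonneg_right h.e_M (by positivity))
        ring
      have hK4 : e * (K + 1) * τy ^ 4 ≤ M₁ * τy ^ 4 :=
        mul_le_mul_of_nonneg_right (h.e_K.trans (by linarith [h.M₁_ge])) (by positivity)
      have hp1 : τy ^ 4 + η * Real.sqrt τy ≤ θy ^ 8 + η * θy := by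
        refine add_le_add ?_ (mul_le_mul_of_nonneg_left h6 hη)
        rw [show θy ^ 8 = (θy ^ 2) ^ 4 by ring]
        exact pow_le_pow_left₀ hyτ.le (sq_le y hy).1 4
      have hp2 : 6 * M₁ * (τy ^ 4 + η * Real.sqrt τy) ≤ M' * (θy ^ 8 + η * θy) :=
        mul_le_mul (by linarith) hp1 (by positivity) hM'0
      have : 0 ≤ M₁ * (η * Real.sqrt τy) := by positivity
      linarith
    refine hcrude.trans (mul_le_mul_of_nonneg_left ?_ hyG.le)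
    have hτ4 : τy ^ 4 ≤ θy := (pow_le_pow_of_le_one hyτ.le hyτ1 (by norm_num)).trans h4
    have h5' := mul_le_mul_of_nonneg_left hτ4 (show (0 : ℝ) ≤ 3 * C₀ by positivity)
    have hw : θy * θy ^ 7 ≤ θy ^ 8 + η * θy := by
      rw [← pow_succ']; exact le_add_of_nonneg_right (by positivity)
    by_cases c2 : height y = δ * ‖y‖
    · have hθe : θy = δ := by rw [hθy, c2, mul_div_cancel_right₀ _ hyr.ne']
      have h1 : 6 * C₀ * (δ ^ 7)⁻¹ * (θy * θy ^ 7) ≤ M' / 2 * (θy ^ 8 + η * θy) :=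
        mul_le_mul (by linarith [h.big_δ]) hw (by positivity) (by positivity)
      have h2 : 6 * C₀ * (δ ^ 7)⁻¹ * (θy * θy ^ 7) = 6 * C₀ * θy := by
        have := pow_pos h.δ_pos 7
        rw [hθe]; field_simp
      linarith
    have c3 : ‖y‖ = L * R := by
      by_contra c3
      exact hyU ⟨lt_of_le_of_ne hy'1 (Ne.symm c3), lt_of_le_of_ne hy'2 (Ne.symm c1),
        lt_of_le_of_ne hy'3 c2⟩
    have h7' : τy ^ 4 ≤ θy ^ 7 := by
      refine le_trans (le_sqrt_pow hyτ.le hyτ1) ?_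
      calc τy ^ 3 * Real.sqrt τy = Real.sqrt τy ^ 7 := by
            rw [show Real.sqrt τy ^ 7 = (Real.sqrt τy ^ 2) ^ 3 * Real.sqrt τy by ring,
              Real.sq_sqrt hyτ.le]
        _ ≤ _ := pow_le_pow_left₀ (Real.sqrt_nonneg _) h6 7
    have h1 : 6 * C₀ * (L * R) ^ 4 * (θy * τy ^ 4) ≤ M' / 2 * (θy ^ 8 + η * θy) :=
      mul_le_mul (by linarith [h.big_R]) ((mul_le_mul_of_nonneg_left h7' hθy0).trans hw)
        (by positivity) (by positivity)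
    have h2 : 6 * C₀ * (L * R) ^ 4 * (θy * τy ^ 4) = 6 * C₀ * θy := by
      rw [show 6 * C₀ * (L * R) ^ 4 * (θy * τy ^ 4) =
        6 * C₀ * θy * ((L * R) ^ 4 * τy ^ 4) by ring, hτy, h.sphere_eq c3, mul_one]
    linarith
  have hmem : x ∈ U' := ⟨hx1, hx2, hx3⟩
  suffices key : |f x| + lam * excess S x ≤ barB S c Λ M' η x by
    have := (bounds x hmem).2
    have h0 := mul_nonneg h.lam_nonneg (excess_nonneg S x)
    linarith
  by_cases hxU : x ∈ U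
  swap
  · exact edge x hmem hxU
  have regU : ∀ y ∈ U, R ≤ ‖y‖ ∧ 0 ≤ height y ∧ height y ≤ δ * ‖y‖ := fun y hy => by
    obtain ⟨a1, a2, -⟩ := reg y (hcl (subset_closure hy))
    exact ⟨a1, a2.le, hy.2.2.le⟩
  refine h.compare (B := barB S c Λ M' η) hUo h.lam_nonneg (fun y hy => ?_) ?_ ?_ hf ?_ ?_ ?_
    (h.small hf regU) x (subset_closure hxU)
  · obtain ⟨a1, a2, -⟩ := reg y (hcl hy)
    exact h.belt a1 a2.le (hcl hy).2.2
  · exact contDiffOn_combo.mono fun y hy => norm_pos_iff.1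
      (lt_trans (lt_of_lt_of_le one_pos (one_le_R₁ S)) hy.1)
  · intro y hy
    have hy' := hcl (subset_closure hy)
    obtain ⟨hy1, hy0, -⟩ := reg y hy'
    obtain ⟨hyr, hyτ, -, -, hyG, -⟩ := h.facts hy1
    refine le_trans ?_ (bounds y hy').1
    have : 0 ≤ height y / ‖y‖ := div_nonneg hy0.le hyr.le
    positivity
  · intro y hy
    obtain ⟨hy1, -, hyz, -⟩ := reg y (hcl (subset_closure hy))
    exact (h.side ν f hf y hy1 hyz hy.2.2.le).1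
  · intro y hy
    have hy' := hcl (subset_closure hy)
    obtain ⟨hy1, hy0, hyz, h4, h5, h6, h7⟩ := reg y hy'
    obtain ⟨hyr, hyτ, -, hyx, hyG, -, -, -, -, t2, -, t4⟩ := h.facts hy1
    set τy := ‖y‖⁻¹ with hτy
    set θy := height y / ‖y‖ with hθy
    have hθy0 : 0 ≤ θy := div_nonneg hy0.le hyr.le
    have hp : 0 ≤ S.G y / ‖y‖ := (div_pos (tailG_pos _ _ hyr) hyr).le
    have hq := h.q_pos
    have t1 : (|curv S (max S.C 0) 8 0| + 2 + 512 / q) * θy ^ 2 +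
        c * |curv S (max S.C 0) 6 1| * τy ≤ 4 := by
      have := mul_le_mul_of_nonneg_left (pow_le_pow_left₀ hθy0 h7 2)
        (show (0 : ℝ) ≤ |curv S (max S.C 0) 8 0| + 2 + 512 / q by positivity)
      linarith [h.δ_q]
    have hKM : K ≤ M' := by linarith [h.M₁_ge]
    have hop := opB_le (S := S) (C := max S.C 0) (θ := θy) (K := K) (K' := M) (M' := M') (q := q)
      (η := η) (τ := τy) hsh.c_eq h.q_pos h.Λ_eq hM'0 hKM h.M_le hη hyτ hθy0 (sq_le y hy').1 t2 t1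
    have hfy : |f y| ≤ ‖y‖ * S.G y * (K * τy ^ 4 + M * (256 * θy ^ 8 + 2 * (η * θy))) := by
      refine (h.level ν f hf y hy1 (by rw [abs_of_pos hy0]; exact hy.2.2.le)).trans ?_
      exact mul_le_mul_of_nonneg_left
        (add_le_add le_rfl (mul_le_mul_of_nonneg_left (lin_le_high hη h4 h6) hM)) hyG.le
    have h2f : 2 / ‖y‖ ^ 2 * |f y| ≤
        S.G y / ‖y‖ * (2 * (K * τy ^ 4 + M * (256 * θy ^ 8 + 2 * (η * θy)))) := by
      refine (mul_le_mul_of_nonneg_left hfy (by positivity)).trans_eq ?_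
      field_simp
    have := mul_le_mul_of_nonneg_left hop hp
    rw [mul_zero] at this
    rw [barB, lap_combo (max S.C 0) hyx]
    simp only [Fin.sum_univ_four, Matrix.cons_val, ← hτy, ← hθy]
    linarith
  · intro y hy
    rw [hUo.frontier_eq] at hy
    exact edge y (hcl hy.1) hy.2

end Run

end Vale.Agent.P363.Ext.Growth
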