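import Vale.Agent.P363.Ext.Growth.Basic
import Vale.Agent.P363.Ext.Growth.JumpBox
import Vale.Agent.P363.Ext.Heat.Node
import Vale.Agent.P363.Ext.Heat.Jump

/-!
P363, Kohn-Sham side, `CoreStmt`: averages over boxes, the late data of the jump identity and
the continuity of their heat averages.
-/

noncomputable section

namespace Vale.Agent.P363.Ext.Growth

open MeasureTheory Filter Set
open scoped BigOperators Topology

lemma continuous_bump1 : Continuous bump1 := ContDiffBump.continuous_normed _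

lemma continuous_box (D τ θ : ℝ) : Continuous fun p : ℝ × ℝ => box D τ θ p.1 p.2 := by
  unfold box
  exact ((continuous_bump1.comp ((continuous_fst.sub continuous_const).div_const _)).mul
    (continuous_bump1.comp ((continuous_snd.sub continuous_const).div_const _))).div_const _

lemma integral_box {D τ : ℝ} (hD : 0 < D) (hτ : 0 < τ) (θ : ℝ) :
    ∫ p : ℝ × ℝ, box D τ θ p.1 p.2 = 1 := by
  simp only [box]
  rw [integral_div, Measure.volume_eq_prod,
    integral_prod_mul (fun s => bump1 ((s - τ) / (D * τ ^ 2))) (fun t => bump1 ((t - θ) / τ)),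
    integral_sub_right_eq_self (fun s => bump1 (s / (D * τ ^ 2))) τ,
    integral_sub_right_eq_self (fun s => bump1 (s / τ)) θ,
    Measure.integral_comp_div bump1, Measure.integral_comp_div bump1, integral_bump1,
    smul_eq_mul, smul_eq_mul, abs_of_pos hτ, abs_of_pos (mul_pos hD (pow_pos hτ 2))]
  field_simp

/-- An average over a box differs from a value by at most the variation over the box. -/
lemma box_avg_sub_le {D τ θ c ε : ℝ} (hD : 0 < D) (hτ : 0 < τ) {F : ℝ × ℝ → ℝ}
    (hF : ContinuousOn F (Icc (τ - D * τ ^ 2) (τ + D * τ ^ 2) ×ˢ Icc (θ - τ) (θ + τ)))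
    (hε : ∀ σ y, |σ - τ| ≤ D * τ ^ 2 → |y - θ| ≤ τ → |F (σ, y) - c| ≤ ε) :
    |(∫ p : ℝ × ℝ, F p * box D τ θ p.1 p.2) - c| ≤ ε := by
  set Q := Icc (τ - D * τ ^ 2) (τ + D * τ ^ 2) ×ˢ Icc (θ - τ) (θ + τ)
  set b : ℝ × ℝ → ℝ := fun p => box D τ θ p.1 p.2
  have hQ : IsCompact Q := isCompact_Icc.prod isCompact_Icc
  have hzero : ∀ p, p ∉ Q → b p = 0 := fun p hp => by
    by_contra h
    obtain ⟨h1, h2⟩ := box_supp hD hτ h
    rw [abs_le] at h1 h2
    exact hp ⟨⟨by linarith, by linarith⟩, by linarith, by linarith⟩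
  have hbi : Integrable b := (continuous_box D τ θ).integrable_of_hasCompactSupport
    (HasCompactSupport.intro hQ hzero)
  have hFi : Integrable fun p => F p * b p := by
    refine (integrableOn_iff_integrable_of_support_subset fun p hp => ?_).1
      ((hF.mul (continuous_box D τ θ).continuousOn).integrableOn_compact hQ)
    by_contra h
    exact hp (by simp [b, hzero p h])
  have e : (∫ p, F p * b p) - c = ∫ p, (F p - c) * b p := by
    simp only [sub_mul]
    rw [integral_sub hFi (hbi.const_mul c), integral_const_mul,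
      show ∫ p, b p = 1 from integral_box hD hτ θ, mul_one]
  show |(∫ p, F p * b p) - c| ≤ ε
  rw [e, ← mul_one ε, ← show ∫ p, b p = 1 from integral_box hD hτ θ, ← integral_const_mul]
  refine abs_integral_le_integral_abs.trans (integral_mono
    ((hFi.sub (hbi.const_mul c)).congr (Eventually.of_forall fun p => ?_)).abs (hbi.const_mul ε)
    fun p => ?_)
  · simp only [Pi.sub_apply]; ring
  · show |(F p - c) * b p| ≤ ε * b p
    by_cases h : b p = 0
    · simp [h]
    · obtain ⟨h1, h2⟩ := box_supp hD hτ h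
      rw [abs_mul, abs_of_nonneg (box_nonneg hD.le hτ.le θ p.1 p.2)]
      exact mul_le_mul_of_nonneg_right (hε p.1 p.2 h1 h2) (box_nonneg hD.le hτ.le θ p.1 p.2)

lemma exists_smoothTransition_deriv :
    ∃ C : ℝ, 0 ≤ C ∧ ∀ x, |deriv Real.smoothTransition x| ≤ C := by
  have hc : Continuous (deriv Real.smoothTransition) :=
    (Real.smoothTransition.contDiff (n := 1)).continuous_deriv le_rfl
  obtain ⟨C, hC⟩ := isCompact_Icc.exists_bound_of_continuousOn
    (hc.continuousOn (s := Icc (0 : ℝ) 1))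
  refine ⟨max C 0, le_max_right _ _, fun x => ?_⟩
  by_cases hx : x ∈ Icc (0 : ℝ) 1
  · exact (hC x hx).trans (le_max_left _ _)
  · rcases not_and_or.1 hx with h | h
    · have e : Real.smoothTransition =ᶠ[𝓝 x] fun _ => (0 : ℝ) :=
        (eventually_lt_nhds (not_le.1 h)).mono fun y hy =>
          Real.smoothTransition.zero_of_nonpos hy.le
      rw [e.deriv_eq, deriv_const]; simp
    · have e : Real.smoothTransition =ᶠ[𝓝 x] fun _ => (1 : ℝ) :=
        (eventually_gt_nhds (not_le.1 h)).mono fun y hy =>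
          Real.smoothTransition.one_of_one_le hy.le
      rw [e.deriv_eq, deriv_const]; simp

lemma contDiff_downT (T : ℝ) : ContDiff ℝ 1 (downT T) := by
  unfold downT
  exact Real.smoothTransition.contDiff.comp (contDiff_const.sub (contDiff_id.div_const T))

lemma deriv_downT_eq_zero {T σ : ℝ} (hT : 0 < T) (h : σ ∉ Icc T (2 * T)) :
    deriv (downT T) σ = 0 := by
  rcases not_and_or.1 h with h | h
  · have e : downT T =ᶠ[𝓝 σ] fun _ => (1 : ℝ) :=
      (eventually_lt_nhds (not_le.1 h)).mono fun y hy => Real.smoothTransition.one_of_one_le (by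
        have : y / T ≤ 1 := (div_le_one hT).2 hy.le
        linarith)
    rw [e.deriv_eq, deriv_const]
  · have e : downT T =ᶠ[𝓝 σ] fun _ => (0 : ℝ) :=
      (eventually_gt_nhds (not_le.1 h)).mono fun y hy => Real.smoothTransition.zero_of_nonpos (by
        have : 2 ≤ y / T := (le_div_iff₀ hT).2 hy.le
        linarith)
    rw [e.deriv_eq, deriv_const]

lemma abs_deriv_downT_le {C T : ℝ} (hC : ∀ x, |deriv Real.smoothTransition x| ≤ C) (hT : 0 < T)
    (σ : ℝ) : |deriv (downT T) σ| ≤ C / T := by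
  have h1 : HasDerivAt Real.smoothTransition (deriv Real.smoothTransition (2 - σ / T))
      (2 - σ / T) :=
    ((Real.smoothTransition.contDiff (n := 1)).differentiable one_ne_zero _).hasDerivAt
  have h2 : HasDerivAt (fun t => 2 - t / T) (-(1 / T)) σ :=
    ((hasDerivAt_id σ).div_const T).const_sub 2
  have e : deriv (downT T) σ = deriv Real.smoothTransition (2 - σ / T) * -(1 / T) :=
    (h1.comp σ h2).deriv
  rw [e, abs_mul, abs_neg, abs_of_pos (one_div_pos.2 hT), ← div_eq_mul_one_div]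
  exact div_le_div_of_nonneg_right (hC _) hT.le

lemma cutθ_eq_zero {δ θ : ℝ} (hδ : 0 < δ) (h : δ ≤ |θ|) : cutθ δ θ = 0 := by
  refine Real.smoothTransition.zero_of_nonpos ?_
  have : 1 ≤ (θ / δ) ^ 2 := by
    rw [← sq_abs, abs_div, abs_of_pos hδ]
    exact one_le_pow₀ ((one_le_div hδ).2 h)
  linarith

lemma abs_cutθ_le (δ θ : ℝ) : |cutθ δ θ| ≤ 1 := by
  rw [cutθ, abs_of_nonneg (Real.smoothTransition.nonneg _)]
  exact Real.smoothTransition.le_one _

lemma tred_neg {S : Setup} {f : Space → ℝ} (hf : AxialSym f) (τ θ : ℝ) :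
    tred S f τ (-θ) = tred S f τ θ := by
  have e : pt τ⁻¹ (-θ) = mirror (pt τ⁻¹ θ) := by
    ext i
    fin_cases i <;> simp [mirror, height, pt, unit3]
    ring
  simp only [tred, red, e, hf.2]

lemma continuousOn_tred {S : Setup} {ν : ℝ} {f : Space → ℝ} (hf : Profile S ν f) :
    ContinuousOn (fun p : ℝ × ℝ => tred S f p.1 p.2)
      (Ioo 0 S.R₁⁻¹ ×ˢ Ioo (-(1 / 2)) (1 / 2)) :=
  Heat.continuousOn_red (one_le_R₁ S) hf.continuousOn

lemma late_even {S : Setup} {f : Space → ℝ} (hf : AxialSym f) (δ T τ θ : ℝ) :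
    late S f δ T (τ, -θ) = late S f δ T (τ, θ) := by
  simp only [late, tred_neg hf, cutθ, neg_div, neg_sq]

lemma inv_weight_ten_le {a : ℝ} (ha : 0 ≤ a) : (1 + a) ^ 8 / (1 + a) ^ 10 ≤ (1 + a ^ 2)⁻¹ := by
  rw [inv_eq_one_div, div_le_div_iff₀ (by positivity) (by positivity),
    show (1 + a) ^ 10 = (1 + a) ^ 8 * (1 + a) ^ 2 by ring, one_mul]
  exact mul_le_mul_of_nonneg_left (by nlinarith) (by positivity)

/-- The late data in the norm of the heat averages. -/
lemma exists_late_data :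
    ∃ C : ℝ, 0 ≤ C ∧ ∀ (S : Setup) (δ R K M η T : ℝ), 0 < δ → δ ≤ 1 / 4 → S.R₁ < R →
      0 ≤ K → 0 ≤ M → 0 ≤ η → 0 < T → 2 * T * R ≤ 1 → Level S δ R K M η →
      ∀ (ν : ℝ) (f : Space → ℝ), Profile S ν f →
        Heat.LateData (late S f δ T) 10 T (C * (K + M) * (T ^ 4 + η * Real.sqrt T)) := by
  obtain ⟨C, hC0, hC⟩ := exists_smoothTransition_deriv
  refine ⟨C * 256 * Real.pi, by positivity,
    fun S δ R K M η T hδ hδ' hR hK hM hη hT hTR hL ν f hf => ?_⟩
  set s := Real.sqrt T
  have hs : 0 < s := Real.sqrt_pos.2 hT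
  have hs8 : s ^ 8 = T ^ 4 := by rw [show 8 = 2 * 4 from rfl, pow_mul, Real.sq_sqrt hT.le]
  set B := C * 256 * (K + M) * (T ^ 4 + η * s) / T with hB
  set φ : ℝ × ℝ → ℝ := fun p =>
    (Icc T (2 * T)).indicator (fun _ => B) p.1 * (1 + (p.2 / s) ^ 2)⁻¹ with hφ
  have hR1 := one_le_R₁ S
  set Q := Icc T (2 * T) ×ˢ Icc (-δ) δ
  have hTR1 : 2 * T < S.R₁⁻¹ := by
    rw [lt_inv_comm₀ (by positivity) (by linarith)]
    refine hR.trans_le ?_
    rw [inv_eq_one_div, le_div_iff₀ (by positivity)]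
    linarith
  have hsub : Q ⊆ Ioo 0 S.R₁⁻¹ ×ˢ Ioo (-(1 / 2 : ℝ)) (1 / 2) := fun p hp =>
    ⟨⟨hT.trans_le hp.1.1, hp.1.2.trans_lt hTR1⟩, by linarith [hp.2.1], by linarith [hp.2.2]⟩
  have hzero : ∀ p, p ∉ Q → late S f δ T p = 0 := fun p hp => by
    rcases not_and_or.1 hp with h | h
    · simp [late, deriv_downT_eq_zero hT h]
    · have : δ ≤ |p.2| := by
        by_contra hlt
        obtain ⟨h1, h2⟩ := abs_lt.1 (not_le.1 hlt)
        exact h ⟨h1.le, h2.le⟩
      simp [late, cutθ_eq_zero hδ this]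
  have hm : AEStronglyMeasurable (late S f δ T) := by
    have hc : ContinuousOn (late S f δ T) Q := by
      refine ContinuousOn.mul (ContinuousOn.mul ?_ ?_) ((continuousOn_tred hf).mono hsub)
      · exact (((contDiff_downT T).continuous_deriv le_rfl).comp continuous_fst).neg.continuousOn
      · refine (Continuous.comp (g := cutθ δ) ?_ continuous_snd).continuousOn
        exact (Real.smoothTransition.contDiff (n := 0)).continuous.comp
          (continuous_const.mul (continuous_const.sub ((continuous_id.div_const δ).pow 2)))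
    have e : late S f δ T = Q.indicator (late S f δ T) := funext fun p => by
      by_cases hp : p ∈ Q
      · rw [indicator_of_mem hp]
      · rw [indicator_of_notMem hp, hzero p hp]
    rw [e, aestronglyMeasurable_indicator_iff (measurableSet_Icc.prod measurableSet_Icc)]
    exact hc.aestronglyMeasurable (measurableSet_Icc.prod measurableSet_Icc)
  have hb : ∀ p, |late S f δ T p| / (1 + |p.2| / s) ^ 10 ≤ φ p := by
    intro p
    have hφ0 : 0 ≤ φ p :=
      mul_nonneg (indicator_nonneg (fun _ _ => by positivity) _) (by positivity)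
    by_cases hp : p ∈ Q
    swap
    · rw [hzero p hp, abs_zero, zero_div]; exact hφ0
    obtain ⟨h1, h2⟩ := hp
    have hp2 : |p.2| ≤ δ := abs_le.2 h2
    have hp0 : 0 < p.1 := hT.trans_le h1.1
    have hR0 : 0 < R := by linarith
    have hpR : R * p.1 ≤ 1 := (mul_le_mul_of_nonneg_left h1.2 hR0.le).trans (by linarith)
    have hp1 : p.1 ≤ 1 := le_trans (le_mul_of_one_le_left hp0.le (by linarith)) hpR
    have ht := (hL.tred_le hf hp0 hpR hp2 (by linarith)).trans
      (bd_le_scale hK hM hη hp0.le hp1 p.2)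
    set w := 1 + |p.2| / s with hw
    have hw1 : 1 ≤ w := le_add_of_nonneg_right (by positivity)
    have hsw : Real.sqrt p.1 + |p.2| ≤ 2 * s * w := by
      have : Real.sqrt p.1 ≤ 2 * s :=
        (Real.sqrt_le_sqrt (show p.1 ≤ 4 * T by linarith [h1.2])).trans_eq (by
          rw [Real.sqrt_mul (by norm_num), show (4 : ℝ) = 2 ^ 2 by norm_num,
            Real.sqrt_sq (by norm_num)])
      have e : 2 * s * w = 2 * s + 2 * |p.2| := by rw [hw]; field_simp
      linarith [abs_nonneg p.2]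
    have hsc : scale η p.1 p.2 ≤ 256 * (T ^ 4 + η * s) * w ^ 8 := by
      have a1 := pow_le_pow_left₀ (by positivity) hsw 8
      have a2 := mul_le_mul_of_nonneg_left hsw hη
      have a3 : w ≤ w ^ 8 := le_self_pow₀ hw1 (by norm_num)
      rw [show (2 * s * w) ^ 8 = 256 * T ^ 4 * w ^ 8 by rw [← hs8]; ring] at a1
      rw [scale]
      nlinarith [mul_le_mul_of_nonneg_left a3 (mul_nonneg hη hs.le),
        mul_nonneg (mul_nonneg hη hs.le) (pow_nonneg (zero_le_one.trans hw1) 8)]
    have hl : |late S f δ T p| ≤ B * w ^ 8 := by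
      simp only [late, abs_mul, abs_neg]
      calc |deriv (downT T) p.1| * |cutθ δ p.2| * |tred S f p.1 p.2|
          ≤ C / T * 1 * ((K + M) * (256 * (T ^ 4 + η * s) * w ^ 8)) := by
            refine mul_le_mul (mul_le_mul (abs_deriv_downT_le hC hT _) (abs_cutθ_le _ _)
              (abs_nonneg _) (by positivity)) (ht.trans (mul_le_mul_of_nonneg_left hsc
                (add_nonneg hK hM))) (abs_nonneg _) (by positivity)
        _ = B * w ^ 8 := by rw [hB]; ring
    rw [hφ]
    simp only [indicator_of_mem h1]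
    refine (div_le_div_of_nonneg_right hl (by positivity)).trans ?_
    rw [mul_div_assoc]
    refine mul_le_mul_of_nonneg_left ?_ (by positivity)
    rw [← sq_abs (p.2 / s), abs_div, abs_of_pos hs]
    exact inv_weight_ten_le (by positivity)
  have hi1 : Integrable ((Icc T (2 * T)).indicator fun _ => B) :=
    (integrable_indicator_iff measurableSet_Icc).2 (integrableOn_const measure_Icc_lt_top.ne)
  have hi2 : Integrable fun y : ℝ => (1 + (y / s) ^ 2)⁻¹ :=
    integrable_inv_one_add_sq.comp_div hs.ne'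
  have hφi : Integrable φ := hi1.mul_prod hi2
  have hgm : AEStronglyMeasurable fun p : ℝ × ℝ => late S f δ T p / (1 + |p.2| / s) ^ 10 :=
    (hm.mul ((Continuous.inv₀ (f := fun p : ℝ × ℝ => (1 + |p.2| / s) ^ 10) (by fun_prop)
      fun p => by positivity).aestronglyMeasurable)).congr
      (Eventually.of_forall fun p => (div_eq_mul_inv _ _).symm)
  refine ⟨hT, hφi.mono' hgm (Eventually.of_forall fun p => ?_), fun p hp => ?_, ?_⟩
  · rw [Real.norm_eq_abs, abs_div, abs_of_pos (a := (1 + |p.2| / s) ^ 10) (by positivity)]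
    exact hb p
  · by_contra h
    exact hp (hzero p fun hq => h hq.1)
  · refine (integral_mono_of_nonneg (Eventually.of_forall fun p => by positivity) hφi
      (Eventually.of_forall hb)).trans (le_of_eq ?_)
    have ev : (volume : Measure ℝ).real (Icc T (2 * T)) = T := by
      rw [measureReal_def, Real.volume_Icc, ENNReal.toReal_ofReal (by linarith)]; ring
    rw [Measure.volume_eq_prod, hφ,
      integral_prod_mul ((Icc T (2 * T)).indicator fun _ => B) fun y => (1 + (y / s) ^ 2)⁻¹,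
      integral_indicator measurableSet_Icc, setIntegral_const, ev,
      Measure.integral_comp_div (fun y => (1 + y ^ 2)⁻¹), integral_univ_inv_one_add_sq,
      smul_eq_mul, smul_eq_mul, abs_of_pos hs, hB]
    field_simp
    rfl

/-- Heat averages vary at the parabolic rate of their data. -/
lemma exists_avg_lip {κ : ℝ} (hκ : 0 < κ) (N : ℕ) : ∃ C : ℝ, 0 ≤ C ∧
    ∀ (g : ℝ × ℝ → ℝ) (T A : ℝ), Heat.LateData g N T A → ∀ σ σ' y y' : ℝ,
      σ ∈ Icc 0 (T / 2) → σ' ∈ Icc 0 (T / 2) → |y| ≤ Real.sqrt T → |y'| ≤ Real.sqrt T →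
      |Heat.heatAvg κ g 0 σ' y' - Heat.heatAvg κ g 0 σ y| ≤
        C * A * (|σ' - σ| / T + |y' - y| / Real.sqrt T) := by
  obtain ⟨C0, h0⟩ := Heat.avg κ hκ N 0
  obtain ⟨C1, h1⟩ := Heat.avg κ hκ N 1
  obtain ⟨C2, h2⟩ := Heat.avg κ hκ N 2
  refine ⟨max (|C1|) (κ * |C2|), le_max_of_le_left (abs_nonneg _),
    fun g T A h σ σ' y y' hσ hσ' hy hy' => ?_⟩
  set C := max (|C1|) (κ * |C2|)
  have hA := h.A_nonneg
  have hT := h.pos
  set s := Real.sqrt T
  have hs : 0 < s := Real.sqrt_pos.2 hT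
  have a1 : |Heat.heatAvg κ g 0 σ' y - Heat.heatAvg κ g 0 σ y| ≤ C * A / T * |σ' - σ| := by
    refine Heat.abs_sub_le_of_deriv_bound (convex_Icc 0 (T / 2))
      (f' := fun u => -κ * Heat.heatAvg κ g (0 + 2) u y)
      (fun u hu => (h0 g T A h u y hu.1 hu.2 hy).2.1) (fun u hu => ?_) hσ hσ'
    rw [abs_mul, abs_neg, abs_of_pos hκ]
    refine (mul_le_mul_of_nonneg_left (h2 g T A h u y hu.1 hu.2 hy).2.2 hκ.le).trans ?_
    rw [Real.sq_sqrt hT.le, ← mul_div_assoc]
    refine div_le_div_of_nonneg_right ?_ hT.le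
    rw [← mul_assoc]
    exact mul_le_mul_of_nonneg_right
      ((mul_le_mul_of_nonneg_left (le_abs_self C2) hκ.le).trans (le_max_right _ _)) hA
  have a2 : |Heat.heatAvg κ g 0 σ' y' - Heat.heatAvg κ g 0 σ' y| ≤ C * A / s * |y' - y| := by
    refine Heat.abs_sub_le_of_deriv_bound (convex_Icc (-s) s)
      (f' := fun u => Heat.heatAvg κ g (0 + 1) σ' u)
      (fun u hu => (h0 g T A h σ' u hσ'.1 hσ'.2 (abs_le.2 hu)).1) (fun u hu => ?_)
      (abs_le.1 hy) (abs_le.1 hy')
    refine (h1 g T A h σ' u hσ'.1 hσ'.2 (abs_le.2 hu)).2.2.trans ?_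
    rw [pow_one]
    exact div_le_div_of_nonneg_right
      (mul_le_mul_of_nonneg_right ((le_abs_self C1).trans (le_max_left _ _)) hA) hs.le
  refine (abs_sub_le _ (Heat.heatAvg κ g 0 σ' y) _).trans ?_
  refine (add_le_add a2 a1).trans (le_of_eq ?_)
  ring

lemma continuousOn_avg {κ : ℝ} (hκ : 0 < κ) {g : ℝ × ℝ → ℝ} {N : ℕ} {T A : ℝ}
    (h : Heat.LateData g N T A) :
    ContinuousOn (fun p : ℝ × ℝ => Heat.heatAvg κ g 0 p.1 p.2)
      (Icc 0 (T / 2) ×ˢ Icc (-Real.sqrt T) (Real.sqrt T)) := by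
  obtain ⟨C, -, hC⟩ := exists_avg_lip hκ N
  rw [Metric.continuousOn_iff]
  intro p hp ε hε
  have hc : Continuous fun q : ℝ × ℝ =>
      C * A * (|q.1 - p.1| / T + |q.2 - p.2| / Real.sqrt T) := by fun_prop
  obtain ⟨d, hd, hd'⟩ := Metric.continuous_iff.1 hc p ε hε
  refine ⟨d, hd, fun q hq hqp => lt_of_le_of_lt ?_ (hd' q hqp)⟩
  rw [Real.dist_eq, Real.dist_eq]
  refine (hC g T A h p.1 q.1 p.2 q.2 hp.1 hq.1 (abs_le.2 hp.2) (abs_le.2 hq.2)).trans ?_
  simp only [sub_self, abs_zero, zero_div, add_zero, mul_zero, sub_zero]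
  exact le_abs_self _

end Vale.Agent.P363.Ext.Growth
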