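import Vale.Agent.P363.Ext.Growth.CoreBase

/-!
P363, Kohn-Sham side, `CoreStmt`: the steps at a fixed time: trace, value, sizes.
-/

noncomputable section

namespace Vale.Agent.P363.Ext.Growth

open MeasureTheory Filter Set
open scoped BigOperators Topology

/-- The size at the time `t ≤ c τ` on the plane. -/
lemma core_size_le {η τ t c : ℝ} (hη : 0 ≤ η) (ht : 0 ≤ t) (hc : 1 ≤ c) (h : t ≤ c * τ) :
    t ^ 4 + η * Real.sqrt t ≤ c ^ 4 * (τ ^ 4 + η * Real.sqrt τ) := by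
  have a1 : t ^ 4 ≤ c ^ 4 * τ ^ 4 := (pow_le_pow_left₀ ht h 4).trans_eq (mul_pow c τ 4)
  have a2 : Real.sqrt t ≤ c ^ 4 * Real.sqrt τ := by
    refine (Real.sqrt_le_sqrt h).trans ?_
    rw [Real.sqrt_mul (by linarith)]
    refine mul_le_mul_of_nonneg_right ?_ (Real.sqrt_nonneg _)
    exact (Real.sqrt_le_left (by positivity)).2 (by
      rw [← pow_mul]; exact le_self_pow₀ hc (by norm_num))
  linarith [mul_le_mul_of_nonneg_left a2 hη]

/-- The bound of the induction on the plane. -/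
lemma bd_plane_le {K M η t : ℝ} (hM : 0 ≤ M) (hη : 0 ≤ η) (hK : 0 ≤ K) (ht : 0 ≤ t)
    (ht1 : t ≤ 1) : bd K M η t 0 ≤ (K + M * Real.sqrt t) * (t ^ 4 + η * Real.sqrt t) := by
  set s := Real.sqrt t with hs'
  have hs : 0 ≤ s := Real.sqrt_nonneg _
  have hs1 : s ≤ 1 := Real.sqrt_le_one.2 ht1
  have e : t = s ^ 2 := (Real.sq_sqrt ht).symm
  have h1 : lin η t 0 ≤ s * (t ^ 4 + η * s) := by
    have el : lin η t 0 = t ^ 2 * (s ^ 7 + η) := by simp [lin, hs']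
    rw [el, e, ← pow_mul, ← pow_mul]
    have a1 : s ^ (2 * 2) * s ^ 7 ≤ s * s ^ (2 * 4) := by
      rw [← pow_succ', ← pow_add]; exact pow_le_pow_of_le_one hs hs1 (by norm_num)
    have a2 : s ^ (2 * 2) ≤ s * s := by
      exact (pow_le_pow_of_le_one hs hs1 (m := 2) (n := 2 * 2) (by norm_num)).trans_eq (pow_two s)
    linarith [mul_le_mul_of_nonneg_left a2 hη]
  rw [bd, add_mul, mul_assoc]
  refine add_le_add (mul_le_mul_of_nonneg_left ?_ hK) (mul_le_mul_of_nonneg_left h1 hM)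
  exact le_add_of_nonneg_right (mul_nonneg hη hs)

/-- The smallness of the time `τ`: the traces are at times up to `c τ`, the data from `N τ` on. -/
structure CoreTime (S : Setup) (w D c N R δ τ : ℝ) : Prop where
  pos : 0 < τ
  one_w : 1 ≤ w
  one_D : 1 ≤ D
  c_eq : c = 5 * w ^ 2
  N_ge : 10 * c ≤ N
  R_gt : S.R₁ < R
  δ_le : δ ≤ 1 / 4
  early : 8 * R * (c * τ) ≤ 1
  late : 4 * (N * τ) * R ≤ 1
  box_small : D * (c * τ) < 1
  plane : c * τ ≤ δ / 4
  para : w * Real.sqrt τ ≤ δ / 4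

namespace CoreTime

variable {S : Setup} {w D c N R δ τ : ℝ} (h : CoreTime S w D c N R δ τ)
include h

lemma one_c : 1 ≤ c := by
  rw [h.c_eq]; nlinarith [h.one_w]

lemma one_R : 1 ≤ R := le_trans (one_le_R₁ S) h.R_gt.le

lemma data_pos : 0 < N * τ := mul_pos (by linarith [h.N_ge, h.one_c]) h.pos

lemma box_le {t : ℝ} (ht : t ≤ c * τ) : D * t < 1 :=
  lt_of_le_of_lt (mul_le_mul_of_nonneg_left ht (by linarith [h.one_D])) h.box_small

lemma early_le {t : ℝ} (ht : t ≤ c * τ) : 8 * R * t ≤ 1 :=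
  le_trans (mul_le_mul_of_nonneg_left ht (by linarith [h.one_R])) h.early

lemma time_le : c * τ ≤ 1 := by
  have := h.plane
  linarith [h.δ_le]

lemma four_le {t : ℝ} (ht : t ≤ c * τ) : 4 * t ≤ N * τ := by
  have h1 := mul_le_mul_of_nonneg_right h.N_ge h.pos.le
  nlinarith [mul_nonneg (zero_le_one.trans h.one_c) h.pos.le]

lemma le_root {t : ℝ} (ht0 : 0 ≤ t) (ht : t ≤ c * τ) : t ≤ Real.sqrt (N * τ) :=
  Real.le_sqrt_of_sq_le (by
    have := h.four_le ht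
    nlinarith [mul_le_mul_of_nonneg_left (ht.trans h.time_le) ht0])

/-- Box averages of the heat average against values of the reduced function. -/
lemma avg_sub_value {f : Space → ℝ} {ν : ℝ} (hf : Profile S ν f) {t θ X Y : ℝ} (ht0 : 0 < t)
    (ht : t ≤ c * τ) (hθ : |θ| + t ≤ δ / 4) {F : ℝ × ℝ → ℝ}
    (hj : |(∫ p : ℝ × ℝ, tred S f p.1 p.2 * box D t θ p.1 p.2) -
      ∫ p : ℝ × ℝ, box D t θ p.1 p.2 * F p| ≤ X)
    (hY : ∀ σ y, |σ - t| ≤ D * t ^ 2 → |y - θ| ≤ t →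
      |tred S f σ y - tred S f t θ| ≤ Y) :
    |(∫ p : ℝ × ℝ, F p * box D t θ p.1 p.2) - tred S f t θ| ≤ X + Y := by
  have hD := h.one_D
  have hDt := h.box_le ht
  have h8 := h.early_le ht
  have hS1 := one_le_R₁ S
  have hR := h.R_gt
  have hDt2 : D * t ^ 2 < t := by nlinarith
  have hb := box_avg_sub_le (F := fun p => tred S f p.1 p.2) (c := tred S f t θ) (by linarith) ht0
    ((continuousOn_tred hf).mono fun z hz => ?_) hY
  · have e : (∫ p : ℝ × ℝ, F p * box D t θ p.1 p.2) = ∫ p : ℝ × ℝ, box D t θ p.1 p.2 * F p :=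
      integral_congr_ae (Eventually.of_forall fun p => mul_comm _ _)
    rw [e]
    rw [abs_sub_comm] at hj
    exact (abs_sub_le _ _ _).trans (add_le_add hj hb)
  · obtain ⟨⟨h1, h2⟩, h3, h4⟩ := hz
    have hδ := h.δ_le
    refine ⟨⟨by linarith, ?_⟩, by linarith [neg_abs_le θ], by linarith [le_abs_self θ]⟩
    rw [inv_eq_one_div, lt_div_iff₀ (by linarith)]
    have a1 : z.1 * S.R₁ ≤ 2 * t * S.R₁ := mul_le_mul_of_nonneg_right (by linarith) (by linarith)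
    have a2 : 2 * t * S.R₁ ≤ 2 * t * R := mul_le_mul_of_nonneg_left hR.le (by linarith)
    linarith

lemma continuousOn_box {κ : ℝ} (hκ : 0 < κ) {g : ℝ × ℝ → ℝ} {n : ℕ} {A : ℝ}
    (hg : Heat.LateData g n (N * τ) A) {t θ : ℝ} (ht0 : 0 < t) (ht : t ≤ c * τ)
    (hθ : |θ| + t ≤ Real.sqrt (N * τ)) :
    ContinuousOn (fun p : ℝ × ℝ => Heat.heatAvg κ g 0 p.1 p.2)
      (Icc (t - D * t ^ 2) (t + D * t ^ 2) ×ˢ Icc (θ - t) (θ + t)) := by
  refine (continuousOn_avg hκ hg).mono fun z hz => ?_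
  obtain ⟨⟨h1, h2⟩, h3, h4⟩ := hz
  have hDt := h.box_le ht
  have h4t := h.four_le ht
  have hDt2 : D * t ^ 2 ≤ t := by nlinarith
  exact ⟨⟨by linarith, by linarith⟩, by linarith [neg_abs_le θ], by linarith [le_abs_self θ]⟩

/-- The trace of the heat average at the time `t`. -/
lemma trace_le {f : Space → ℝ} {ν : ℝ} (hf : Profile S ν f) {κ : ℝ} (hκ : 0 < κ)
    {g : ℝ × ℝ → ℝ} {n : ℕ} {A C : ℝ} (hg : Heat.LateData g n (N * τ) A) (hC : 0 ≤ C)
    (hlip : ∀ σ σ' y y' : ℝ,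
      σ ∈ Icc 0 (N * τ / 2) → σ' ∈ Icc 0 (N * τ / 2) → |y| ≤ Real.sqrt (N * τ) →
      |y'| ≤ Real.sqrt (N * τ) → |Heat.heatAvg κ g 0 σ' y' - Heat.heatAvg κ g 0 σ y| ≤
        C * A * (|σ' - σ| / (N * τ) + |y' - y| / Real.sqrt (N * τ)))
    {t X Y : ℝ} (ht0 : 0 < t) (ht : t ≤ c * τ)
    (hj : |(∫ p : ℝ × ℝ, tred S f p.1 p.2 * box D t 0 p.1 p.2) -
      ∫ p : ℝ × ℝ, box D t 0 p.1 p.2 * Heat.heatAvg κ g 0 p.1 p.2| ≤ X)
    (hY : ∀ σ y, |σ - t| ≤ D * t ^ 2 → |y - 0| ≤ t →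
      |tred S f σ y - tred S f t 0| ≤ Y) :
    |Heat.heatAvg κ g 0 t 0| ≤
      C * A * ((D * c ^ 2 + c) * Real.sqrt τ) + (X + Y) + |tred S f t 0| := by
  have hD := h.one_D
  have hDt := h.box_le ht
  have h4t := h.four_le ht
  have hτ := h.pos
  have hc := h.one_c
  have hT := h.data_pos
  have hroot := h.le_root ht0.le ht
  have hδ4 : |(0 : ℝ)| + t ≤ δ / 4 := by simpa using ht.trans h.plane
  have hθ0 : |(0 : ℝ)| + t ≤ Real.sqrt (N * τ) := by simpa using hroot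
  have a1 := h.avg_sub_value hf ht0 ht hδ4 hj hY
  have hDt2 : D * t ^ 2 ≤ t := by nlinarith
  have hN : 1 ≤ N := by linarith [h.N_ge]
  have hτs : τ ≤ Real.sqrt τ := Real.le_sqrt_of_sq_le (by
    have : τ ≤ 1 := le_trans (le_mul_of_one_le_left hτ.le hc) h.time_le
    nlinarith)
  have a2 : |(∫ p : ℝ × ℝ, Heat.heatAvg κ g 0 p.1 p.2 * box D t 0 p.1 p.2) -
      Heat.heatAvg κ g 0 t 0| ≤ C * A * ((D * c ^ 2 + c) * Real.sqrt τ) := by
    refine box_avg_sub_le (by linarith) ht0 (h.continuousOn_box hκ hg ht0 ht hθ0) fun σ y h1 h2 => ?_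
    rw [sub_zero] at h2
    refine (hlip t σ 0 y ⟨ht0.le, by linarith⟩
      ⟨by linarith [(abs_le.1 h1).1], by linarith [(abs_le.1 h1).2]⟩
      (by rw [abs_zero]; positivity) (h2.trans hroot)).trans ?_
    rw [sub_zero]
    refine mul_le_mul_of_nonneg_left ?_ (mul_nonneg hC hg.A_nonneg)
    rw [add_mul]
    refine add_le_add ?_ ?_
    · rw [div_le_iff₀ hT]
      calc |σ - t| ≤ D * t ^ 2 := h1
        _ ≤ D * (c * τ) ^ 2 :=
          mul_le_mul_of_nonneg_left (pow_le_pow_left₀ ht0.le ht 2) (by linarith)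
        _ = D * c ^ 2 * τ * τ := by ring
        _ ≤ D * c ^ 2 * Real.sqrt τ * (N * τ) :=
          mul_le_mul (mul_le_mul_of_nonneg_left hτs (by positivity))
            (le_mul_of_one_le_left hτ.le hN) hτ.le (by positivity)
    · rw [div_le_iff₀ (Real.sqrt_pos.2 hT)]
      have hsT : Real.sqrt τ ≤ Real.sqrt (N * τ) :=
        Real.sqrt_le_sqrt (le_mul_of_one_le_left hτ.le hN)
      calc |y| ≤ c * τ := h2.trans ht
        _ = c * Real.sqrt τ * Real.sqrt τ := by rw [mul_assoc, Real.mul_self_sqrt hτ.le]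
        _ ≤ c * Real.sqrt τ * Real.sqrt (N * τ) :=
          mul_le_mul_of_nonneg_left hsT (by positivity)
  have := abs_le.1 a1
  have := abs_le.1 a2
  rw [abs_le]
  constructor <;> linarith [le_abs_self (tred S f t 0), neg_abs_le (tred S f t 0)]

/-- The value at `(τ, θ)` from a bound of the heat average at the parabolic scale. -/
lemma value_le {f : Space → ℝ} {ν : ℝ} (hf : Profile S ν f) {κ : ℝ} (hκ : 0 < κ)
    {g : ℝ × ℝ → ℝ} {n : ℕ} {A : ℝ} (hg : Heat.LateData g n (N * τ) A) {θ X Y V : ℝ}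
    (hθ : |θ| ≤ (w - 1) * Real.sqrt τ)
    (hV : ∀ σ y : ℝ, 0 ≤ σ → σ ≤ 5 * (w * Real.sqrt τ) ^ 2 → |y| ≤ w * Real.sqrt τ →
      |Heat.heatAvg κ g 0 σ y| ≤ V)
    (hj : |(∫ p : ℝ × ℝ, tred S f p.1 p.2 * box D τ θ p.1 p.2) -
      ∫ p : ℝ × ℝ, box D τ θ p.1 p.2 * Heat.heatAvg κ g 0 p.1 p.2| ≤ X)
    (hY : ∀ σ y, |σ - τ| ≤ D * τ ^ 2 → |y - θ| ≤ τ →
      |tred S f σ y - tred S f τ θ| ≤ Y) :
    |tred S f τ θ| ≤ V + (X + Y) := by
  have hτ := h.pos
  have hc := h.one_c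
  have htc : τ ≤ c * τ := le_mul_of_one_le_left hτ.le hc
  have hw := h.one_w
  set s := Real.sqrt τ
  have hss : s ^ 2 = τ := Real.sq_sqrt hτ.le
  have hs0 : 0 ≤ s := Real.sqrt_nonneg _
  have hτs : τ ≤ s := Real.le_sqrt_of_sq_le (by
    have : τ ≤ 1 := htc.trans h.time_le
    nlinarith)
  have hθs : |θ| + τ ≤ w * s := by linarith
  have hws : w * s ≤ Real.sqrt (N * τ) := by
    refine Real.le_sqrt_of_sq_le ?_
    rw [mul_pow, hss]
    exact mul_le_mul_of_nonneg_right (by nlinarith [h.N_ge, h.c_eq]) hτ.le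
  have a1 := h.avg_sub_value hf hτ htc (hθs.trans h.para) hj hY
  have hD := h.one_D
  have hDt := h.box_le htc
  have hDt2 : D * τ ^ 2 ≤ τ := by nlinarith
  have a2 : |(∫ p : ℝ × ℝ, Heat.heatAvg κ g 0 p.1 p.2 * box D τ θ p.1 p.2) - 0| ≤ V := by
    refine box_avg_sub_le (by linarith) hτ
      (h.continuousOn_box hκ hg hτ htc (hθs.trans hws)) fun σ y h1 h2 => ?_
    rw [sub_zero]
    obtain ⟨h1a, h1b⟩ := abs_le.1 h1
    refine hV σ y (by linarith) ?_ (by linarith [abs_sub_abs_le_abs_sub y θ])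
    rw [mul_pow, hss]
    have : 2 * τ ≤ 5 * (w ^ 2 * τ) := by
      rw [← mul_assoc]
      exact mul_le_mul_of_nonneg_right (by nlinarith) hτ.le
    linarith
  rw [sub_zero] at a2
  have := abs_le.1 a1
  have := abs_le.1 a2
  rw [abs_le]
  constructor <;> linarith

end CoreTime

end Vale.Agent.P363.Ext.Growth
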