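import Vale.Agent.P363.Ext.Growth.PartTools

/-!
P363, Kohn-Sham side: the defect above the edge (`DefectPartStmt`).

Above the edge `z ≥ 2 / r`, so `|X|` has means `O (r⁻²) = O (τ²)` on the balls of radius
`min (z, 1) / 4`. A covering by these balls in the averaged form (Tonelli) bounds the integral over
the window `z ≤ δ r`, `r = O (1 / τ)`, by `O (δ / τ)`. The test weight is `O (D τ)`, so the part
contributes `O (D δ)` times `(K + M) (τ⁴ + η √τ)`.
-/

noncomputable section

namespace Vale.Agent.P363.Ext.Growth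

open MeasureTheory Filter Set Metric
open scoped BigOperators Topology ENNReal Real

/-- A mean bound on balls of slowly varying radius bounds the integral. -/
theorem lintegral_le_avg {h : Space → ℝ≥0∞} (hh : AEMeasurable h) {ρ : Space → ℝ}
    (hρ : Measurable ρ) {A U : Set Space} (hA : MeasurableSet A) (hU : MeasurableSet U) {L : ℝ≥0∞}
    (hs : ∀ y ∈ A, ∃ s, 0 < s ∧ ball y s ⊆ U ∧
      ∀ x ∈ ball y s, dist y x < ρ x ∧ ρ x ≤ 3 * s)
    (hb : ∀ x ∈ U, ∫⁻ y in ball x (ρ x), h y ≤ L * ENNReal.ofReal (ρ x ^ 3)) :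
    (volume (ball (0 : Space) 1) / 27) * ∫⁻ y in A, h y ≤ L * volume U := by
  set P : Set (Space × Space) := {p | p.1 ∈ U ∧ dist p.2 p.1 < ρ p.1} with hP
  have hPm : MeasurableSet P :=
    (measurable_fst hU).inter
      (measurableSet_lt (measurable_snd.dist measurable_fst) (hρ.comp measurable_fst))
  set k : Space → ℝ≥0∞ := fun x => (ENNReal.ofReal (ρ x ^ 3))⁻¹ with hk
  have hkm : Measurable k := (hρ.pow_const 3).ennreal_ofReal.inv
  set F : Space → Space → ℝ≥0∞ :=
    fun x y => P.indicator (fun p => k p.1 * h p.2) (x, y) with hF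
  have hFm : AEMeasurable (Function.uncurry F) ((volume : Measure Space).prod volume) := by
    exact ((hkm.comp measurable_fst).aemeasurable.mul hh.comp_snd).indicator hPm
  have hup : ∀ x, ∫⁻ y, F x y ≤ U.indicator (fun _ => L) x := by
    intro x
    by_cases hx : x ∈ U
    · rw [Set.indicator_of_mem hx]
      have e : (fun y => F x y) = (ball x (ρ x)).indicator fun y => k x * h y := by
        funext y
        by_cases hy : y ∈ ball x (ρ x)
        · rw [Set.indicator_of_mem hy]
          exact Set.indicator_of_mem (show (x, y) ∈ P from ⟨hx, mem_ball.1 hy⟩) _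
        · rw [Set.indicator_of_notMem hy]
          exact Set.indicator_of_notMem (show (x, y) ∉ P from fun hp => hy (mem_ball.2 hp.2)) _
      rw [e, lintegral_indicator measurableSet_ball, lintegral_const_mul'' _ hh.restrict]
      rcases le_or_gt (ρ x) 0 with h0 | h0
      · rw [ball_eq_empty.2 h0]; simp
      refine (mul_le_mul' le_rfl (hb x hx)).trans_eq ?_
      rw [hk]
      have hne : ENNReal.ofReal (ρ x ^ 3) ≠ 0 := by
        rw [Ne, ENNReal.ofReal_eq_zero, not_le]; positivity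
      rw [mul_comm L, ← mul_assoc, ENNReal.inv_mul_cancel hne ENNReal.ofReal_ne_top, one_mul]
    · rw [Set.indicator_of_notMem hx]
      refine le_of_eq (lintegral_eq_zero_of_ae_eq_zero (Eventually.of_forall fun y => ?_))
      exact Set.indicator_of_notMem (show (x, y) ∉ P from fun hp => hx hp.1) _
  have hdown : ∀ y ∈ A, volume (ball (0 : Space) 1) / 27 * h y ≤ ∫⁻ x, F x y := by
    intro y hy
    obtain ⟨s, hs0, hsU, hsρ⟩ := hs y hy
    set V := volume (ball (0 : Space) 1)
    have hvol : volume (ball y s) = ENNReal.ofReal (s ^ 3) * V := by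
      rw [Measure.addHaar_ball_of_pos volume y hs0, Yuk.finrank_space]
    calc V / 27 * h y = ∫⁻ _ in ball y s, (ENNReal.ofReal (27 * s ^ 3))⁻¹ * h y := by
          rw [setLIntegral_const, hvol, ENNReal.ofReal_mul (by norm_num),
            ENNReal.mul_inv (Or.inr ENNReal.ofReal_ne_top) (Or.inl (by simp)), div_eq_mul_inv]
          have hne : ENNReal.ofReal (s ^ 3) ≠ 0 := by
            rw [Ne, ENNReal.ofReal_eq_zero, not_le]; positivity
          rw [show (ENNReal.ofReal (27 : ℝ)) = 27 by simp,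
            show (27 : ℝ≥0∞)⁻¹ * (ENNReal.ofReal (s ^ 3))⁻¹ * h y * (ENNReal.ofReal (s ^ 3) * V) =
              V * (27 : ℝ≥0∞)⁻¹ * h y *
                ((ENNReal.ofReal (s ^ 3))⁻¹ * ENNReal.ofReal (s ^ 3)) by ring,
            ENNReal.inv_mul_cancel hne ENNReal.ofReal_ne_top, mul_one]
      _ ≤ ∫⁻ x in ball y s, F x y := by
          refine setLIntegral_mono' measurableSet_ball fun x hx => ?_
          obtain ⟨h1, h2⟩ := hsρ x hx
          rw [hF]
          simp only
          rw [Set.indicator_of_mem (show (x, y) ∈ P from ⟨hsU hx, h1⟩), hk]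
          refine mul_le_mul' (ENNReal.inv_le_inv.2 (ENNReal.ofReal_le_ofReal ?_)) le_rfl
          have h0 : 0 ≤ ρ x := dist_nonneg.trans h1.le
          calc ρ x ^ 3 ≤ (3 * s) ^ 3 := pow_le_pow_left₀ h0 h2 3
            _ = _ := by ring
      _ ≤ _ := setLIntegral_le_lintegral _ _
  calc volume (ball (0 : Space) 1) / 27 * ∫⁻ y in A, h y
      = ∫⁻ y in A, volume (ball (0 : Space) 1) / 27 * h y :=
        (lintegral_const_mul'' _ hh.restrict).symm
    _ ≤ ∫⁻ y in A, ∫⁻ x, F x y := setLIntegral_mono' hA hdown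
    _ ≤ ∫⁻ y, ∫⁻ x, F x y := setLIntegral_le_lintegral _ _
    _ = ∫⁻ x, ∫⁻ y, F x y := (lintegral_lintegral_swap hFm).symm
    _ ≤ ∫⁻ x, U.indicator (fun _ => L) x := lintegral_mono hup
    _ = _ := by rw [lintegral_indicator hU, setLIntegral_const]

lemma aestronglyMeasurable_defect (S : Setup) : AEStronglyMeasurable S.X := by
  have hln : AEStronglyMeasurable S.ln :=
    (locallyIntegrableOn_univ.1 S.data.poisson.2.1).aestronglyMeasurable
  have hgn : ∀ i, AEStronglyMeasurable (S.gn i) := fun i =>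
    (locallyIntegrableOn_univ.1 (S.data.hasGrad.2.1 i)).aestronglyMeasurable
  have hnm := S.data.continuous.measurable.aemeasurable (μ := volume)
  refine AEMeasurable.aestronglyMeasurable ?_
  unfold Setup.X sqrtDefect farPot
  exact ((hln.aemeasurable.div (hnm.const_mul 4)).sub
    ((Finset.aemeasurable_fun_sum _ fun i _ => (hgn i).aemeasurable.pow_const 2).div
      ((hnm.pow_const 2).const_mul 8))).sub
    ((measurable_const.sub (measurable_const.div measurable_norm)).aemeasurable)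

/-- The part of the shell above the edge. -/
def aboveSet (δ τ T : ℝ) : Set Space := shell δ τ T ∩ {x | edge T * ‖x‖ ≤ height x}

/-- The region met by the averaging balls. -/
def nbhdSet (δ τ T : ℝ) : Set Space :=
  {x | 1 / (4 * T) ≤ ‖x‖ ∧ ‖x‖ ≤ 5 / τ ∧ ‖x‖⁻¹ ≤ |height x| ∧ |height x| ≤ 3 * δ * ‖x‖}

lemma measurableSet_nbhd (δ τ T : ℝ) : MeasurableSet (nbhdSet δ τ T) := by
  have hh : Measurable height := by unfold height; fun_prop
  exact (measurableSet_le measurable_const measurable_norm).inter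
    ((measurableSet_le measurable_norm measurable_const).inter
      ((measurableSet_le measurable_norm.inv hh.abs).inter
        (measurableSet_le hh.abs (measurable_norm.const_mul _))))

lemma measurableSet_above (δ τ T : ℝ) : MeasurableSet (aboveSet δ τ T) :=
  (measurableSet_shell δ τ T).inter
    (measurableSet_le (measurable_norm.const_mul _) (by unfold height; fun_prop))

/-- The averaging balls of the points above the edge. -/
lemma above_ball {δ τ T R : ℝ} (hτ : 0 < τ) (hτ1 : τ ≤ 1) (hT : 0 < T) (hT4 : 4 * T ≤ 1)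
    (hTR : 4 * T * R ≤ 1) (hδ : 0 ≤ δ) {y : Space} (hy : y ∈ aboveSet δ τ T) :
    ∃ s, 0 < s ∧ ball y s ⊆ nbhdSet δ τ T ∧
      ∀ x ∈ ball y s, dist y x < min |height x| 1 / 4 ∧ min |height x| 1 / 4 ≤ 3 * s := by
  obtain ⟨hr, hr4, hr2, -⟩ := shell_bounds hτ hT hTR hy.1
  obtain ⟨⟨-, -, hz0, hzδ⟩, he⟩ := hy
  change edge T * ‖y‖ ≤ height y at he
  set r := ‖y‖ with hrdef
  set z := height y with hzdef
  rw [edge] at he
  have hzr : 2 ≤ z * r := by
    rw [div_le_iff₀ (by positivity)] at hr2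
    calc (2 : ℝ) = 2 * 1 ^ 2 := by norm_num
      _ ≤ 2 * (r * (2 * T)) ^ 2 := by gcongr
      _ = 8 * T ^ 2 * r * r := by ring
      _ ≤ z * r := mul_le_mul_of_nonneg_right he hr.le
  have hz : 0 < z := by nlinarith
  have hr22 : 2 ≤ r := by
    refine le_trans ?_ hr2
    rw [le_div_iff₀ (by positivity)]; linarith
  have hm0 : 0 < min z 1 := lt_min hz one_pos
  set s := min z 1 / 8 with hs
  have hs1 : s ≤ 1 / 8 := by rw [hs]; linarith [min_le_right z (1 : ℝ)]
  have hsz : s ≤ z / 8 := by rw [hs]; linarith [min_le_left z (1 : ℝ)]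
  have key : ∀ x ∈ ball y s, |‖x‖ - r| < s ∧ |height x - z| < s ∧ dist y x < s := by
    intro x hx
    rw [mem_ball, dist_eq_norm] at hx
    refine ⟨(abs_norm_sub_norm_le x y).trans_lt hx, lt_of_le_of_lt ?_ hx, ?_⟩
    · have h : height x - z = height (x - y) := by simp [hzdef, height]
      rw [h]; exact abs_height_le _
    · rwa [dist_eq_norm, norm_sub_rev]
  refine ⟨s, by positivity, fun x hx => ?_, fun x hx => ?_⟩
  · obtain ⟨h1, h2, -⟩ := key x hx
    rw [abs_lt] at h1 h2
    have hx0 : 0 < ‖x‖ := by linarith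
    refine ⟨?_, ?_, ?_, ?_⟩
    · rw [div_le_iff₀ (by positivity)] at hr2 ⊢
      nlinarith
    · rw [le_div_iff₀ hτ] at hr4 ⊢
      nlinarith
    · rw [abs_of_pos (by linarith), inv_le_iff_one_le_mul₀' hx0]
      nlinarith
    · rw [abs_of_pos (by linarith)]
      nlinarith
  · obtain ⟨-, h2, h3⟩ := key x hx
    rw [abs_lt] at h2
    rw [abs_of_pos (by linarith : 0 < height x)]
    constructor
    · have : 7 / 8 * min z 1 ≤ min (height x) 1 := by
        refine le_min ?_ ?_
        · linarith [min_le_left z (1 : ℝ)]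
        · linarith [min_le_right z (1 : ℝ)]
      linarith
    · have : min (height x) 1 ≤ 3 / 2 * min z 1 := by
        rcases le_total z 1 with h | h
        · rw [min_eq_left h]; linarith [min_le_left (height x) (1 : ℝ)]
        · rw [min_eq_right h]; linarith [min_le_right (height x) (1 : ℝ)]
      linarith

/-- The integral of the defect above the edge. -/
theorem exists_defect_le (S : Setup) {N : ℝ} (hN : 10 ≤ N) :
    ∃ C : ℝ, 0 ≤ C ∧ ∀ δ τ T R : ℝ, 0 < δ → 0 < τ → τ ≤ 1 → 0 < T → T ≤ N * τ → 4 * T ≤ 1 →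
      4 * T * R ≤ 1 → S.R₀ ≤ R →
      IntegrableOn S.X (aboveSet δ τ T) ∧ ∫ x in aboveSet δ τ T, |S.X x| ≤ C * δ / τ := by
  set V := volume.real (ball (0 : Space) 1) with hV
  have hV0 : 0 < V :=
    ENNReal.toReal_pos (measure_ball_pos _ _ one_pos).ne' measure_ball_lt_top.ne
  refine ⟨32 * |S.C| * N ^ 2 * (1500 * π) * 27 / V, by positivity,
    fun δ τ T R hδ hτ hτ1 hT hTN hT4 hTR hRS => ?_⟩
  set U := nbhdSet δ τ T with hU
  set Lr := 32 * |S.C| * N ^ 2 * τ ^ 2 with hLr
  obtain ⟨hUfin, hUvol⟩ := volume_polBox_le (A := U) le_rfl (by positivity : 0 ≤ 5 / τ)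
    (by positivity : 0 ≤ 3 * δ) fun x hx => ⟨norm_nonneg x, hx.2.1, hx.2.2.2⟩
  have hh : AEMeasurable fun y => ENNReal.ofReal |S.X y| :=
    (aestronglyMeasurable_defect S).aemeasurable.norm.ennreal_ofReal
  have hρm : Measurable fun x : Space => min |height x| 1 / 4 := by unfold height; fun_prop
  have hb : ∀ x ∈ U, ∫⁻ y in ball x (min |height x| 1 / 4), ENNReal.ofReal |S.X y| ≤
      ENNReal.ofReal Lr * ENNReal.ofReal ((min |height x| 1 / 4) ^ 3) := by
    intro x hx
    obtain ⟨h1, -, h3, -⟩ := hx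
    set r := ‖x‖ with hr
    set z := |height x| with hz
    have hr0 : 0 < r := lt_of_lt_of_le (by positivity) h1
    have hRr : S.R₀ ≤ r := by
      refine hRS.trans (le_trans ?_ h1)
      rw [le_div_iff₀ (by positivity)]; linarith
    obtain ⟨hi, hle⟩ := S.data.defect_avg x hRr h3
    have hLr0 : 0 ≤ Lr := by positivity
    refine (ofReal_integral_eq_lintegral_ofReal hi.abs
      (Eventually.of_forall fun y => abs_nonneg _)).symm.trans_le ?_
    rw [← ENNReal.ofReal_mul hLr0]
    refine ENNReal.ofReal_le_ofReal (hle.trans ?_)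
    simp only [← hr, ← hz]
    have hzr : 1 ≤ r * z := by rwa [inv_le_iff_one_le_mul₀' hr0] at h3
    have e2 : (r ^ 6 * z ^ 4)⁻¹ ≤ (r ^ 2)⁻¹ := by
      refine inv_anti₀ (by positivity) ?_
      calc r ^ 2 = r ^ 2 * 1 ^ 4 := by ring
        _ ≤ r ^ 2 * (r * z) ^ 4 := by gcongr
        _ = r ^ 6 * z ^ 4 := by ring
    have hri : r⁻¹ ≤ 4 * (N * τ) := by
      rw [div_le_iff₀ (by positivity)] at h1
      rw [inv_le_iff_one_le_mul₀' hr0]
      nlinarith
    have e1 : (r ^ 2)⁻¹ ≤ 16 * N ^ 2 * τ ^ 2 := by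
      calc (r ^ 2)⁻¹ = r⁻¹ ^ 2 := by rw [inv_pow]
        _ ≤ (4 * (N * τ)) ^ 2 := pow_le_pow_left₀ (by positivity) hri 2
        _ = _ := by ring
    have hm : 0 ≤ min z 1 / 4 := div_nonneg (le_min (abs_nonneg _) zero_le_one) (by norm_num)
    calc S.C * (min z 1 / 4) ^ 3 * ((r ^ 2)⁻¹ + (r ^ 6 * z ^ 4)⁻¹)
        ≤ |S.C| * (min z 1 / 4) ^ 3 * ((r ^ 2)⁻¹ + (r ^ 2)⁻¹) := by
          gcongr; exact le_abs_self _
      _ ≤ |S.C| * (min z 1 / 4) ^ 3 * (16 * N ^ 2 * τ ^ 2 + 16 * N ^ 2 * τ ^ 2) := by gcongr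
      _ = _ := by rw [hLr]; ring
  have hmain := lintegral_le_avg hh hρm (measurableSet_above δ τ T) (measurableSet_nbhd δ τ T)
    (fun y hy => above_ball hτ hτ1 hT hT4 hTR hδ.le hy) hb
  have hVe : volume (ball (0 : Space) 1) / 27 = ENNReal.ofReal (V / 27) := by
    rw [hV, measureReal_def, ENNReal.ofReal_div_of_pos (by norm_num),
      ENNReal.ofReal_toReal measure_ball_lt_top.ne]
    simp
  have hub : ∫⁻ y in aboveSet δ τ T, ENNReal.ofReal |S.X y| ≤
      ENNReal.ofReal (Lr * volume.real U / (V / 27)) := by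
    rw [ENNReal.ofReal_div_of_pos (by positivity), ENNReal.ofReal_mul (by positivity),
      measureReal_def, ENNReal.ofReal_toReal hUfin.ne, ← hVe,
      ENNReal.le_div_iff_mul_le (Or.inl (by rw [hVe]; simp [hV0]))
        (Or.inl (by rw [hVe]; exact ENNReal.ofReal_ne_top)), mul_comm]
    exact hmain
  have hiX : IntegrableOn S.X (aboveSet δ τ T) := by
    refine ⟨(aestronglyMeasurable_defect S).restrict, ?_⟩
    rw [hasFiniteIntegral_iff_norm]
    simp only [Real.norm_eq_abs]
    exact hub.trans_lt ENNReal.ofReal_lt_top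
  refine ⟨hiX, ?_⟩
  rw [integral_eq_lintegral_of_nonneg_ae (Eventually.of_forall fun y => abs_nonneg _)
    (aestronglyMeasurable_defect S).restrict.norm]
  refine (ENNReal.toReal_mono ENNReal.ofReal_ne_top hub).trans ?_
  rw [ENNReal.toReal_ofReal (by positivity)]
  calc Lr * volume.real U / (V / 27)
      ≤ Lr * (4 * π * (5 / τ) ^ 2 * (5 / τ - 0) * (3 * δ)) / (V / 27) := by gcongr
    _ = _ := by rw [hLr]; field_simp; ring

theorem defectPart (hP : PotBoundStmt) : DefectPartStmt := by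
  intro S Sw K N q hSw hK hN hq D hD
  obtain ⟨C, hC, hsym⟩ := exists_symWt_le hP S hSw hN
  obtain ⟨C₁, hC₁, hX⟩ := exists_defect_le S hN
  set Q := C * D * C₁ with hQ
  have hQ0 : 0 ≤ Q := by positivity
  set δ₀ := min (1 / 4) (q / (Q + 1)) with hδ₀
  refine ⟨δ₀, lt_min (by norm_num) (by positivity), fun δ hδ hδle => ⟨S.R₁, ?_⟩⟩
  intro R M η hp hL ν f hf τ θ T hw' hTR
  have hM := hp.M_nonneg
  have hη := hp.η_nonneg
  have hsym' := hsym δ R K M η hK hM hη hL ν f hf D τ θ T hw' hTR
  obtain ⟨hτ, -, hT10, hTN, -, -, hT4⟩ := hw'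
  have hT : 0 < T := by linarith
  have hRS : S.R₀ ≤ R := S.R₀_le.trans hp.R_ge
  obtain ⟨hiX, hleX⟩ := hX δ τ T R hδ hτ (by linarith) hT hTN hT4 hTR hRS
  change IntegrableOn (fun x => |S.X x| * symWt S f D τ θ x) (aboveSet δ τ T) ∧
    ∫ x in aboveSet δ τ T, |S.X x| * symWt S f D τ θ x ≤ _
  set E := (K + M) * (τ ^ 4 + η * Real.sqrt τ) with hE
  have hE0 : 0 ≤ E := by positivity
  have hAm := measurableSet_above δ τ T
  have hsub : aboveSet δ τ T ⊆ belt S.R₁ := fun x hx =>
    shell_subset_belt hτ hT hTR hp.R_ge (by linarith [one_le_R₁ S])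
      (hδle.trans (min_le_left _ _)) hx.1
  have hbd : ∀ x ∈ aboveSet δ τ T, |S.X x| * symWt S f D τ θ x ≤ C * D * E * τ * |S.X x| := by
    intro x hx
    rw [mul_comm (C * D * E * τ)]
    refine mul_le_mul_of_nonneg_left ((hsym' x hx.1).2.trans
      (mul_le_mul_of_nonneg_left ?_ (by positivity))) (abs_nonneg _)
    rw [div_le_iff₀ (by positivity)]
    nlinarith [Real.sqrt_nonneg |‖x‖⁻¹ - τ|]
  have hg : IntegrableOn (fun x => C * D * E * τ * |S.X x|) (aboveSet δ τ T) :=
    hiX.abs.const_mul _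
  have hi : IntegrableOn (fun x => |S.X x| * symWt S f D τ θ x) (aboveSet δ τ T) := by
    refine Integrable.mono' hg ((aestronglyMeasurable_defect S).restrict.norm.mul
      (meas_symWt hf (by linarith) hτ hAm hsub))
      ((ae_restrict_iff' hAm).2 (Eventually.of_forall fun x hx => ?_))
    rw [Real.norm_eq_abs, abs_of_nonneg (mul_nonneg (abs_nonneg _) (hsym' x hx.1).1)]
    exact hbd x hx
  refine ⟨hi, (setIntegral_mono_on hi hg hAm hbd).trans ?_⟩
  rw [integral_const_mul]
  calc C * D * E * τ * ∫ x in aboveSet δ τ T, |S.X x|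
      ≤ C * D * E * τ * (C₁ * δ / τ) := mul_le_mul_of_nonneg_left hleX (by positivity)
    _ = Q * δ * E := by rw [hQ]; field_simp
    _ ≤ q * E := by
        gcongr
        calc Q * δ ≤ Q * (q / (Q + 1)) :=
              mul_le_mul_of_nonneg_left (hδle.trans (min_le_right _ _)) hQ0
          _ ≤ (Q + 1) * (q / (Q + 1)) := by gcongr; linarith
          _ = q := by field_simp
    _ ≤ _ := by
        rw [hE, ← mul_assoc]
        gcongr
        linarith

end Vale.Agent.P363.Ext.Growth
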