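import Vale.Agent.P363.Ext.Growth.ExcessTest
import Vale.Agent.P363.Ext.Growth.JumpBox
import Vale.Agent.P363.Ext.Bulk
import Vale.Agent.P363.Ext.Combination

/-!
P363, Kohn-Sham side, `ExcessStmt`: the excess at a point of the upper half, and the reflection of
the potential of the box.
-/

noncomputable section

namespace Vale.Agent.P363.Ext.Growth

open MeasureTheory Filter Set
open scoped BigOperators Topology

/-- The odd orbital below, the excess above. -/
theorem exists_exr_bounds (hsmall : SmallOneStmt) (hground : GroundStmt) (S : Setup) :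
    ∃ c : ℝ, 0 < c ∧ ∀ ε : ℝ, 0 < ε → ∃ δs Rs : ℝ, 0 < δs ∧ 1 ≤ Rs ∧ S.R₁ < Rs ∧
      ∀ σ y : ℝ, 0 < σ → Rs * σ ≤ 1 → σ ^ 2 ≤ y → y ≤ δs →
        0 ≤ exr S σ y ∧ exr S σ y ≤ ε * y ∧
        c * y * (σ⁻¹ * tailG S.a S.k σ⁻¹) ≤ S.φu (pt σ⁻¹ y) ∧
        ∀ b : ℝ, 0 ≤ b → (∀ (ν : ℝ) (f : Space → ℝ), Profile S ν f → |tred S f σ y| ≤ b) →
          exr S σ y ≤ ε * (σ ^ 4 + b) := by
  obtain ⟨c, Rb, hc, hbulk⟩ := bulkOne S
  obtain ⟨B, δg, Rg, hδg, hgr⟩ := hground S 4
  refine ⟨c, hc, fun ε hε => ?_⟩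
  set ε₀ := min 1 (ε * c / 2) with hε₀
  have hε₀0 : 0 < ε₀ := lt_min one_pos (by positivity)
  have hε₀1 : ε₀ ≤ 1 := min_le_left _ _
  have hε₀2 : ε₀ ≤ ε * c / 2 := min_le_right _ _
  obtain ⟨δ₁, Rsm, hδ₁, hsm⟩ := hsmall S (ε₀ ^ 2) (by positivity)
  set Rs := max (max Rb Rsm) (max (max Rg |B|) (S.R₁ + 1)) with hRs
  refine ⟨min (min δ₁ δg) (1 / 4), Rs, lt_min (lt_min hδ₁ hδg) (by norm_num), ?_, ?_,
    fun σ y hσ hR hy hyδ => ?_⟩
  · exact le_max_of_le_right (le_max_of_le_right (by linarith [one_le_R₁ S]))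
  · exact lt_of_lt_of_le (lt_add_one _) (le_max_of_le_right (le_max_right _ _))
  have hy0 : 0 < y := lt_of_lt_of_le (pow_pos hσ 2) hy
  have hy1 : |y| ≤ 1 / 4 := by rw [abs_of_pos hy0]; exact hyδ.trans (min_le_right _ _)
  obtain ⟨hn, hz, -⟩ := pt_inv hσ (show |y| ≤ 1 by linarith)
  set x := pt σ⁻¹ y with hx
  set r := σ⁻¹ with hr
  have hr0 : 0 < r := inv_pos.2 hσ
  have hRr : Rs ≤ r := by rw [hr, inv_eq_one_div, le_div_iff₀ hσ]; exact hR
  have hzy : height x = y * ‖x‖ := by rw [hz, hn]; ring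
  have h1r : 1 / ‖x‖ ≤ height x := by
    rw [hz, hn, div_le_iff₀ hr0]
    have h := mul_le_mul_of_nonneg_left hy (sq_nonneg r)
    rw [hr, inv_pow, inv_mul_cancel₀ (pow_ne_zero 2 hσ.ne')] at h
    rw [hr]
    linarith [h, show (σ⁻¹ * y * σ⁻¹ : ℝ) = (σ ^ 2)⁻¹ * y by field_simp]
  set G := tailG S.a S.k r with hG
  have hG0 : 0 < G := tailG_pos _ _ hr0
  have hxG : S.G x = G := by rw [Setup.G, hn]
  have hbelt : x ∈ belt S.R₁ := by
    refine ⟨?_, ?_⟩
    · rw [hn]; exact lt_of_lt_of_le (lt_add_one _)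
        (le_trans (le_max_of_le_right (le_max_right _ _)) hRr)
    · rw [hzy, abs_mul, abs_norm, hn]; nlinarith
  set z := height x with hzd
  have hz0 : 0 < z := by rw [hz]; positivity
  have hlow := hbulk x (by rw [hn]; exact le_trans (le_max_of_le_left (le_max_left _ _)) hRr) h1r
  rw [hxG, ← hzd] at hlow
  have hs := hsm x (by rw [hn]; exact le_trans (le_max_of_le_left (le_max_right _ _)) hRr) h1r
    (by
      rw [← hzd, hzy]
      exact mul_le_mul_of_nonneg_right
        (hyδ.trans ((min_le_left _ _).trans (min_le_left _ _))) (norm_nonneg _))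
  rw [hxG, ← hzd, ← mul_pow] at hs
  have hgx := hgr x
    (by rw [hn]; exact le_trans (le_max_of_le_right (le_max_of_le_left (le_max_left _ _))) hRr)
    (by
      rw [← hzd, hzy, abs_mul, abs_norm]
      exact mul_le_mul_of_nonneg_right
        (by rw [abs_of_pos hy0]; exact hyδ.trans ((min_le_left _ _).trans (min_le_right _ _)))
        (norm_nonneg _))
  rw [hn, hxG] at hgx
  have hφ : 0 < S.φu x := lt_of_lt_of_le (by positivity) hlow
  have hs2 := Real.sq_sqrt (S.data.positive x).le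
  have hle := S.le_sum x
  have he0 : 0 ≤ excess S x := excess_nonneg S x
  have hexr : exr S σ y = excess S x / (r * G) := rfl
  have hrG : 0 < r * G := mul_pos hr0 hG0
  -- `excess * φu ≤ n - φu²`
  have hkey : excess S x * (c * z * G) ≤ S.n x - S.φu x ^ 2 := by
    refine (mul_le_mul_of_nonneg_left
      (hlow.trans (le_add_of_nonneg_left (Real.sqrt_nonneg (S.n x)))) he0).trans_eq ?_
    rw [excess]
    linear_combination hs2
  have hcz : 0 < c * z * G := by positivity
  refine ⟨?_, ?_, ?_, fun b hb hbf => ?_⟩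
  · rw [hexr]; positivity
  · rw [hexr, div_le_iff₀ hrG]
    refine le_of_mul_le_mul_right (hkey.trans (hs.trans (le_trans ?_ (le_of_eq
      (show ε * c * (z * G) ^ 2 = ε * y * (r * G) * (c * z * G) by rw [hz]; ring))))) hcz
    rw [mul_pow]
    refine mul_le_mul_of_nonneg_right ?_ (sq_nonneg _)
    calc ε₀ ^ 2 ≤ ε₀ := by rw [sq]; exact mul_le_of_le_one_left hε₀0.le hε₀1
      _ ≤ ε * c / 2 := hε₀2
      _ ≤ ε * c := by linarith [mul_pos hε hc]
  · refine le_of_eq_of_le ?_ hlow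
    rw [hz]; ring
  · set m := min (ε₀ * (z * G)) (b * (r * G)) with hm
    have hm0 : 0 ≤ m := le_min (by positivity) (by positivity)
    have hprof : ∀ (ν : ℝ) (f : Space → ℝ), Profile S ν f → |f x| ≤ m := fun ν f hf => by
      refine le_min ?_ ?_
      · refine (hf.abs_le hbelt).trans ((Real.sqrt_le_sqrt (le_trans ?_ hs)).trans_eq
          (Real.sqrt_sq (by positivity)))
        linarith [sq_nonneg (S.φ₀ x)]
      · have h := hbf ν f hf
        rwa [tred, red, ← hr, ← hx, ← hG, abs_div, abs_of_pos hrG, div_le_iff₀ hrG] at h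
    have hp := profile_part_le hbelt hprof
    have h0a : S.φ₀ x ≤ ε₀ * (z * G) := by
      refine (pow_le_pow_iff_left₀ (S.nonneg₀ x) (by positivity) two_ne_zero).1 (le_trans ?_ hs)
      linarith [sq_nonneg (S.φ₀ x)]
    have h0b : S.φ₀ x ≤ σ ^ 4 * (r * G) := by
      refine hgx.trans ?_
      rw [← mul_assoc]
      refine mul_le_mul_of_nonneg_right ?_ hG0.le
      rw [div_le_iff₀ (pow_pos hr0 4),
        show σ ^ 4 * r * r ^ 4 = r by rw [hr]; field_simp]
      exact (le_abs_self B).trans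
        (le_trans (le_max_of_le_right (le_max_of_le_left (le_max_right _ _))) hRr)
    have hnm : S.n x - S.φu x ^ 2 ≤ 2 * (ε₀ * (z * G)) * (σ ^ 4 + b) * (r * G) := by
      have a := mul_le_mul h0a h0b (S.nonneg₀ x) (by positivity)
      have a' := mul_le_mul (min_le_left (ε₀ * (z * G)) (b * (r * G)))
        (min_le_right (ε₀ * (z * G)) (b * (r * G))) hm0 (by positivity)
      rw [← hm] at a'
      linarith [show 2 * (ε₀ * (z * G)) * (σ ^ 4 + b) * (r * G) =
        2 * (ε₀ * (z * G) * (σ ^ 4 * (r * G))) + 2 * (ε₀ * (z * G) * (b * (r * G))) by ring,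
        sq (S.φ₀ x), sq m]
    rw [hexr, div_le_iff₀ hrG]
    refine le_of_mul_le_mul_right (hkey.trans (hnm.trans ?_)) hcz
    have : 0 ≤ z * G * (σ ^ 4 + b) * (r * G) := by positivity
    calc 2 * (ε₀ * (z * G)) * (σ ^ 4 + b) * (r * G)
        = 2 * ε₀ * (z * G * (σ ^ 4 + b) * (r * G)) := by ring
      _ ≤ ε * c * (z * G * (σ ^ 4 + b) * (r * G)) :=
          mul_le_mul_of_nonneg_right (by linarith) this
      _ = _ := by ring

/-- Reflection of the potential of the box. -/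
theorem boxPot_neg (κ D τ θ σ y : ℝ) : boxPot κ D τ θ σ (-y) = boxPot κ D τ (-θ) σ y := by
  have hneg : MeasurePreserving (fun p : ℝ × ℝ => (p.1, -p.2)) :=
    (MeasurePreserving.id (volume : Measure ℝ)).prod (Measure.measurePreserving_neg volume)
  have hemb : MeasurableEmbedding fun p : ℝ × ℝ => (p.1, -p.2) :=
    (MeasurableEquiv.prodCongr (MeasurableEquiv.refl ℝ) (MeasurableEquiv.neg ℝ)).measurableEmbedding
  have hb : ∀ z : ℝ, bump1 (-z) = bump1 z := fun z => ContDiffBump.normed_neg _ z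
  rw [boxPot, boxPot, Heat.pot, Heat.pot, ← hneg.integral_comp hemb]
  refine integral_congr_ae (Eventually.of_forall fun p => ?_)
  simp only [box, Heat.kern, neg_sq]
  rw [← hb ((-y - -p.2 - θ) / τ), show -((-y - -p.2 - θ) / τ) = (y - p.2 - -θ) / τ by ring]

end Vale.Agent.P363.Ext.Growth
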