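import Vale.Agent.P363.Ext.Growth.ExcessOper
import Vale.Agent.P363.Ext.Growth.ExcessPoint
import Vale.Agent.P363.Ext.Growth.Band
import Vale.Agent.P363.Ext.Growth.DefectPart
import Vale.Agent.P363.Ext.KernelSmall

/-!
P363, Kohn-Sham side: `ExcessStmt`, the excess `X - W` above the edge, from the budget identity.

The test is `φ (σ) a (y) P (σ, y)` with `a` the bound of the induction divided by `y`, cut at the
edge. The excess is at most `ε y` and at most `ε` times the bound of the induction, and the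
potential solves the heat equation, so the operator on the test is small.
-/

noncomputable section

namespace Vale.Agent.P363.Ext.Growth

open MeasureTheory Filter Set
open scoped BigOperators Topology ContDiff

/-- The operator vanishes where the test does. -/
lemma fullOp_zero_of_eventually {a k : ℝ} {Z : ℝ → ℝ → ℝ} {p : ℝ × ℝ}
    (hev : ∀ᶠ q in 𝓝 p, Z q.1 q.2 = 0) : fullOp a k Z p.1 p.2 = 0 := by
  have hT : ∀ᶠ q in 𝓝 p, Heat.dT Z q.1 q.2 = 0 :=
    hev.eventually_nhds.mono fun q hq => HasDerivAt.deriv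
      ((hasDerivAt_const q.1 (0 : ℝ)).congr_of_eventuallyEq
        ((continuous_id.prodMk continuous_const).continuousAt.eventually
          (show ∀ᶠ w in 𝓝 (id q.1, q.2), Z w.1 w.2 = 0 from hq)))
  have hY : ∀ᶠ q in 𝓝 p, Heat.dY Z q.1 q.2 = 0 :=
    hev.eventually_nhds.mono fun q hq => HasDerivAt.deriv
      ((hasDerivAt_const q.2 (0 : ℝ)).congr_of_eventuallyEq
        ((continuous_const.prodMk continuous_id).continuousAt.eventually
          (show ∀ᶠ w in 𝓝 (q.1, id q.2), Z w.1 w.2 = 0 from hq)))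
  have hTT : Heat.dT (Heat.dT Z) p.1 p.2 = 0 := HasDerivAt.deriv
    ((hasDerivAt_const p.1 (0 : ℝ)).congr_of_eventuallyEq
      ((continuous_id.prodMk continuous_const).continuousAt.eventually
        (show ∀ᶠ w in 𝓝 (id p.1, p.2), Heat.dT Z w.1 w.2 = 0 from hT)))
  have hYY : Heat.dY (Heat.dY Z) p.1 p.2 = 0 := HasDerivAt.deriv
    ((hasDerivAt_const p.2 (0 : ℝ)).congr_of_eventuallyEq
      ((continuous_const.prodMk continuous_id).continuousAt.eventually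
        (show ∀ᶠ w in 𝓝 (p.1, id p.2), Heat.dY Z w.1 w.2 = 0 from hY)))
  simp [fullOp, Heat.timeOp, hev.self_of_nhds, hT.self_of_nhds, hY.self_of_nhds, hTT, hYY]

/-- The potential of the box: smooth, nonnegative, late, caloric. -/
lemma boxPot_props {κ D τ : ℝ} (hκ : 0 < κ) (hD : 0 < D) (hτ : 0 < τ) (θ : ℝ) :
    ContDiff ℝ ∞ (Function.uncurry (boxPot κ D τ θ)) ∧
      (∀ σ y, 0 ≤ boxPot κ D τ θ σ y) ∧
      (∀ σ y, σ ≤ τ - D * τ ^ 2 → boxPot κ D τ θ σ y = 0) ∧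
      ∀ σ y, Heat.dT (boxPot κ D τ θ) σ y =
        κ * Heat.dY (Heat.dY (boxPot κ D τ θ)) σ y + box D τ θ σ y := by
  have hs := source_box hD hτ θ
  obtain ⟨-, p1, p2, -⟩ := Heat.potProps κ hκ _ _ _ hs
  refine ⟨?_, fun σ y => ?_, fun σ y h => p2 σ y h, p1⟩
  · refine Heat.contDiff_pot hκ (n := (⊤ : ℕ∞)) ?_ hs.compact
    rw [box_eq]
    exact contDiff_const.mul (contDiff_tens unit1_bump1 unit1_bump1)
  · exact integral_nonneg fun p => mul_nonneg
      (div_nonneg (Real.exp_pos _).le (Real.sqrt_nonneg _)) (box_nonneg hD.le hτ.le _ _ _)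

/-- The parameters of one test. -/
structure ExSetting (S : Setup) (Sw N D δ R K M η ε Rs δs C₀ τ θ T : ℝ) : Prop where
  win : Window Sw N D τ θ T
  win2 : Window Sw (2 * N) D τ θ (2 * T)
  N_ge : 10 ≤ N
  K_nonneg : 0 ≤ K
  M_nonneg : 0 ≤ M
  η_nonneg : 0 ≤ η
  ε_nonneg : 0 ≤ ε
  C₀_nonneg : 0 ≤ C₀
  C₀_le : C₀ ≤ R
  δ_pos : 0 < δ
  δ_le : 16 * δ ≤ 1
  δs_ge : 4 * δ ≤ δs
  R_pos : 0 < R
  Rs_le : Rs ≤ R
  δR : 1 / δ ^ 2 ≤ R
  HR : 8 * N ^ 2 ≤ R
  TR : 4 * T * R ≤ 1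
  level : Level S δ R K M η
  exr_bd : ∀ σ y : ℝ, 0 < σ → Rs * σ ≤ 1 → σ ^ 2 ≤ y → y ≤ δs →
    0 ≤ exr S σ y ∧ exr S σ y ≤ ε * y ∧ ∀ b : ℝ, 0 ≤ b →
      (∀ (ν : ℝ) (f : Space → ℝ), Profile S ν f → |tred S f σ y| ≤ b) →
        exr S σ y ≤ ε * (σ ^ 4 + b)

/-- The test of one step. -/
def stepTest (S : Setup) (K M N D δ η τ θ T : ℝ) : ℝ → ℝ → ℝ :=
  exTest (exCoef (K * (2 * N) ^ 4) (2 * M) (2 * N) τ η (edge T) δ) T (boxPot S.κ D τ θ)

section Step

variable {S : Setup} {Sw N D δ R K M η ε Rs δs C₀ τ θ T : ℝ}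

lemma ExSetting.basic (h : ExSetting S Sw N D δ R K M η ε Rs δs C₀ τ θ T) :
    0 < τ ∧ 10 * τ ≤ T ∧ T ≤ N * τ ∧ 0 < T ∧ 0 < edge T ∧ 8 * τ ^ 2 ≤ 7 * edge T ∧
      edge T ≤ 8 * N ^ 2 * τ ^ 2 ∧ edge T ≤ Real.sqrt τ ∧ Real.sqrt τ ≤ δ ∧ τ ≤ 1 := by
  have hτ := h.win.τ_pos
  have h1 := h.win.T_ge
  have h2 := h.win.T_le
  have hT : 0 < T := by linarith
  have hR := h.R_pos
  have hτR : R * τ ≤ 1 := by nlinarith [h.TR]
  have hτ1 : τ ≤ 1 := by linarith [h.win.small]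
  have he : edge T ≤ 8 * N ^ 2 * τ ^ 2 := by
    rw [edge, show 8 * N ^ 2 * τ ^ 2 = 8 * (N * τ) ^ 2 by ring]
    exact mul_le_mul_of_nonneg_left (pow_le_pow_left₀ hT.le h2 2) (by norm_num)
  refine ⟨hτ, h1, h2, hT, by rw [edge]; positivity, ?_, he, he.trans ?_, ?_, hτ1⟩
  · have := pow_le_pow_left₀ (by linarith) h1 2
    rw [edge]
    nlinarith
  · calc 8 * N ^ 2 * τ ^ 2 ≤ R * τ ^ 2 := mul_le_mul_of_nonneg_right h.HR (sq_nonneg _)
      _ = R * τ * τ := by ring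
      _ ≤ 1 * τ := mul_le_mul_of_nonneg_right hτR hτ.le
      _ ≤ Real.sqrt τ := by
          rw [one_mul]
          exact Real.le_sqrt_of_sq_le (by nlinarith)
  · refine (Real.sqrt_le_left h.δ_pos.le).2 ?_
    have h3 := mul_le_mul_of_nonneg_right h.δR hτ.le
    have h4 : 1 / δ ^ 2 * τ ≤ 1 := h3.trans hτR
    rw [div_mul_eq_mul_div, one_mul, div_le_one (pow_pos h.δ_pos 2)] at h4
    exact h4

lemma stepTest_supp (hκ : 0 < S.κ) (h : ExSetting S Sw N D δ R K M η ε Rs δs C₀ τ θ T) {σ y : ℝ}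
    (hne : stepTest S K M N D δ η τ θ T σ y ≠ 0) :
    σ ∈ Icc (3 * τ / 4) (5 * T / 2) ∧ y ∈ Icc (7 * edge T / 8) (4 * δ) := by
  obtain ⟨hτ, -, -, hT, he, -⟩ := h.basic
  obtain ⟨-, -, hlate, -⟩ := boxPot_props hκ (zero_lt_one.trans_le h.win.D_ge) hτ θ
  rw [stepTest, exTest] at hne
  obtain ⟨h1, h2⟩ := mul_ne_zero_iff.1 hne
  obtain ⟨h3, h4⟩ := mul_ne_zero_iff.1 h2
  refine ⟨⟨?_, ?_⟩, ?_, ?_⟩
  · by_contra hc
    refine h4 (hlate σ y ?_)
    have := h.win.box_le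
    nlinarith [not_le.1 hc]
  · by_contra hc
    refine h1 (step01_zero ?_)
    have := not_le.1 hc
    rw [neg_mul, ← sub_eq_neg_add, sub_nonpos, div_mul_eq_mul_div, le_div_iff₀ hT]
    linarith
  · by_contra hc
    exact h3 (exCoef_zero_left he (by linarith [not_le.1 hc]))
  · by_contra hc
    exact h3 (exCoef_zero_right h.δ_pos (not_le.1 hc).le)

/-- The excess in the box of the test. -/
lemma exr_step (h : ExSetting S Sw N D δ R K M η ε Rs δs C₀ τ θ T) {σ y : ℝ}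
    (hσ : σ ∈ Icc (3 * τ / 4) (5 * T / 2)) (hy : y ∈ Icc (7 * edge T / 8) (4 * δ)) :
    0 ≤ exr S σ y ∧ exr S σ y ≤ (8 * N) ^ 8 * ε * y ∧
      (y ≤ Real.sqrt τ → exr S σ y ≤ (8 * N) ^ 8 * ε * (2 * (1 + K + M)) *
        (τ ^ 4 + y * (Real.sqrt τ ^ 7 + η))) := by
  obtain ⟨hτ, hT10, hTN, hT, -, -, -, -, hsδ, -⟩ := h.basic
  obtain ⟨hσ1, hσ2⟩ := hσ
  obtain ⟨hy1, hy2⟩ := hy
  have hσ0 : 0 < σ := by linarith
  have hRσ : R * σ ≤ 1 := by nlinarith [h.TR, h.R_pos]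
  have hσy : σ ^ 2 ≤ y := by
    refine le_trans ?_ hy1
    rw [edge]
    nlinarith [pow_le_pow_left₀ hσ0.le hσ2 2]
  obtain ⟨e0, e1, e2⟩ := h.exr_bd σ y hσ0
    ((mul_le_mul_of_nonneg_right h.Rs_le hσ0.le).trans hRσ) hσy (hy2.trans h.δs_ge)
  have hN1 : (1 : ℝ) ≤ (8 * N) ^ 8 := one_le_pow₀ (by linarith [h.N_ge])
  have hy0 : 0 < y := lt_of_lt_of_le (pow_pos hσ0 2) hσy
  refine ⟨e0, e1.trans ?_, fun hys => ?_⟩
  · rw [mul_assoc]; exact le_mul_of_one_le_left (mul_nonneg h.ε_nonneg hy0.le) hN1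
  have hy1' : |y| ≤ δ := by rw [abs_of_pos hy0]; exact hys.trans hsδ
  have hN := h.N_ge
  have hσN : σ ≤ 4 * N * τ := by linarith
  set s := Real.sqrt τ with hs'
  have hs : 0 < s := Real.sqrt_pos.2 hτ
  have hbd : bd K M η σ y ≤ (8 * N) ^ 8 * (2 * (K + M)) * (τ ^ 4 + y * (s ^ 7 + η)) := by
    have h4 : σ ^ 4 ≤ (8 * N) ^ 8 * τ ^ 4 := by
      refine (pow_le_pow_left₀ hσ0.le hσN 4).trans ?_
      rw [mul_pow]
      refine mul_le_mul_of_nonneg_right ((pow_le_pow_left₀ (by linarith) (by linarith) 4).trans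
        (pow_le_pow_right₀ (show (1 : ℝ) ≤ 8 * N by linarith) (by norm_num))) (by positivity)
    have h7 : (Real.sqrt σ + |y|) ^ 7 + η ≤ (8 * N) ^ 8 * (s ^ 7 + η) := by
      have hb : Real.sqrt σ + |y| ≤ 8 * N * s := by
        have : Real.sqrt σ ≤ 4 * N * s := by
          refine Real.sqrt_le_iff.2 ⟨by positivity, hσN.trans ?_⟩
          rw [mul_pow, Real.sq_sqrt hτ.le]
          exact mul_le_mul_of_nonneg_right (le_self_pow₀ (by linarith) two_ne_zero) hτ.le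
        have hys' : |y| ≤ s := by rwa [abs_of_pos hy0]
        nlinarith
      rw [mul_add]
      refine add_le_add ((pow_le_pow_left₀ (by positivity) hb 7).trans ?_)
        (le_mul_of_one_le_left h.η_nonneg hN1)
      rw [mul_pow]
      exact mul_le_mul_of_nonneg_right (pow_le_pow_right₀ (by linarith) (by norm_num))
        (by positivity)
    rw [bd, lin, abs_of_pos hy0]
    rw [abs_of_pos hy0] at h7
    have h8 : (y + σ ^ 2) * ((Real.sqrt σ + y) ^ 7 + η) ≤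
        2 * y * ((8 * N) ^ 8 * (s ^ 7 + η)) :=
      mul_le_mul (by linarith) h7 (add_nonneg (by positivity) h.η_nonneg) (by positivity)
    have a := mul_le_mul_of_nonneg_left h4 h.K_nonneg
    have b := mul_le_mul_of_nonneg_left h8 h.M_nonneg
    have : 0 ≤ (8 * N) ^ 8 * (K * (τ ^ 4 + 2 * (y * (s ^ 7 + η))) + 2 * M * τ ^ 4) := by
      have := h.K_nonneg
      have := h.M_nonneg
      have := h.η_nonneg
      positivity
    nlinarith
  refine (e2 _ (bd_nonneg h.K_nonneg h.M_nonneg h.η_nonneg _ _)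
    fun ν f hf => h.level.tred_le hf hσ0 hRσ hy1' (by linarith [h.δ_le, h.δ_pos])).trans ?_
  rw [mul_comm ((8 * N) ^ 8) ε, mul_assoc ε, mul_assoc ε]
  refine mul_le_mul_of_nonneg_left ?_ h.ε_nonneg
  have h4 : σ ^ 4 ≤ (8 * N) ^ 8 * (τ ^ 4 + y * (s ^ 7 + η)) := by
    refine (pow_le_pow_left₀ hσ0.le hσN 4).trans ?_
    rw [mul_pow]
    refine mul_le_mul ((pow_le_pow_left₀ (by linarith) (by linarith) 4).trans
      (pow_le_pow_right₀ (show (1 : ℝ) ≤ 8 * N by linarith) (by norm_num)))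
      (le_add_of_nonneg_right ?_) (by positivity) (by positivity)
    have := h.η_nonneg
    positivity
  have : 0 ≤ (8 * N) ^ 8 * (τ ^ 4 + y * (s ^ 7 + η)) := le_trans (by positivity) h4
  nlinarith

/-- The bounds of the coefficient against the weight. -/
lemma coef_parts {d α α₁ α₂ U s Q Y y : ℝ} (hU : 0 ≤ U) (hQ : 0 ≤ Q) (hs : 0 < s)
    (b0 : d * |α| ≤ U * (s * Q * (1 + |y| / s) ^ 8))
    (b1 : d * |α₁| ≤ U * (Q * (1 + |y| / s) ^ 8))
    (b2 : d * |α₂| ≤ U * (Q / s * (1 + |y| / s) ^ 8 + Y)) :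
    d * |α| ≤ U * (s * Q * (1 + |y| / s) ^ 18) ∧
      d * |α| * y ^ 2 ≤ U * (s * Q * (1 + |y| / s) ^ 18) * s ^ 2 ∧
      d * |α₁| ≤ U * (Q * (1 + |y| / s) ^ 18) ∧
      d * |α₁| * |y| ≤ U * (Q * (1 + |y| / s) ^ 18) * s ∧
      d * |α₂| ≤ U * (Q / s * (1 + |y| / s) ^ 18 + Y) := by
  set o := 1 + |y| / s with ho
  have ho1 : 1 ≤ o := le_add_of_nonneg_right (by positivity)
  have hys : |y| ≤ s * o := by
    rw [ho, mul_add, mul_one, mul_div_cancel₀ _ hs.ne']; linarith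
  have h8 : o ^ 8 ≤ o ^ 18 := pow_le_pow_right₀ ho1 (by norm_num)
  have hA : 0 ≤ U * (s * Q) := by positivity
  refine ⟨b0.trans (by gcongr), ?_, b1.trans (by gcongr), ?_, b2.trans (by gcongr)⟩
  · refine (mul_le_mul b0 (le_of_eq_of_le (sq_abs y).symm (pow_le_pow_left₀ (abs_nonneg y) hys 2))
      (sq_nonneg y) (by positivity)).trans ?_
    rw [show U * (s * Q * o ^ 8) * (s * o) ^ 2 = U * (s * Q) * s ^ 2 * o ^ 10 by ring,
      show U * (s * Q * o ^ 18) * s ^ 2 = U * (s * Q) * s ^ 2 * o ^ 18 by ring]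
    exact mul_le_mul_of_nonneg_left (pow_le_pow_right₀ ho1 (by norm_num)) (by positivity)
  · refine (mul_le_mul b1 hys (abs_nonneg y) (by positivity)).trans ?_
    rw [show U * (Q * o ^ 8) * (s * o) = U * Q * s * o ^ 9 by ring,
      show U * (Q * o ^ 18) * s = U * Q * s * o ^ 18 by ring]
    exact mul_le_mul_of_nonneg_left (pow_le_pow_right₀ ho1 (by norm_num)) (by positivity)

/-- The test itself against the majorant. -/
lemma zero_part {κ Sw N D τ θ T C₀ U Q d φ α σ y : ℝ} (hw : Window Sw N D τ θ T) (hC₀ : 0 ≤ C₀)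
    (hU : 0 ≤ U) (hQ : 0 ≤ Q) (hd : 0 ≤ d) (hφ1 : φ ≤ 1) (hα : 0 ≤ α)
    (hP : 0 ≤ boxPot κ D τ θ σ y) (a0 : d * |α| ≤ U * (Real.sqrt τ * Q * wt τ y)) :
    d * (C₀ * (φ * (α * boxPot κ D τ θ σ y))) ≤
      C₀ * (U * (Real.sqrt τ * Q * exMajor κ D τ θ (σ, y) +
        (τ ^ 6 + τ ^ 2 * Q) * exSing κ D τ θ (σ, y))) := by
  have hτ := hw.τ_pos
  have hτ1 : τ ≤ 1 := by linarith [hw.T_ge, hw.small]
  have hb := box_nonneg (zero_le_one.trans hw.D_ge) hτ.le θ σ y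
  have hW : 0 ≤ wt τ y := zero_le_one.trans (wt_one_le τ y)
  set P := boxPot κ D τ θ with hPd
  rw [mul_left_comm d C₀]
  refine mul_le_mul_of_nonneg_left ?_ hC₀
  rw [abs_of_nonneg hα] at a0
  have h1 : φ * (α * P σ y) ≤ α * P σ y := mul_le_of_le_one_left (mul_nonneg hα hP) hφ1
  refine (mul_le_mul_of_nonneg_left h1 hd).trans ?_
  rw [← mul_assoc]
  refine (mul_le_mul_of_nonneg_right a0 hP).trans ?_
  rw [mul_assoc U]
  refine mul_le_mul_of_nonneg_left (le_trans ?_ (le_add_of_nonneg_right ?_)) hU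
  · rw [mul_assoc]
    refine mul_le_mul_of_nonneg_left (mul_le_mul_of_nonneg_left ?_ hW) (by positivity)
    have h2 : P σ y ≤ |P σ y| / τ := (le_abs_self _).trans (le_div_self (abs_nonneg _) hτ hτ1)
    simp only [← hPd]
    have : 0 ≤ |Heat.dY P σ y| / Real.sqrt τ + τ ^ 2 * |Heat.dT (Heat.dT P) σ y| +
        τ * |Heat.dT P σ y| + τ * |Heat.dY (Heat.dY P) σ y| := by positivity
    linarith
  · unfold exSing
    split_ifs <;> positivity

/-- The sum of the two parts. -/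
lemma step_final {d A z C₀ X C' c₀ U ε L Maj : ℝ} (h1 : d * A ≤ X * U * Maj)
    (h2 : d * (C₀ * z) ≤ C₀ * (U * Maj)) (hU : U = c₀ * ε * L) (hC : C' = X * c₀) (hC' : 0 ≤ C')
    (hc₀ : 0 ≤ c₀) (hC₀ : 0 ≤ C₀) (hε : 0 ≤ ε) (hL : 0 ≤ L) (hMaj : 0 ≤ Maj) :
    d * (A + C₀ * z) ≤ (C' + c₀) * (1 + C₀) * ε * L * Maj := by
  subst hU hC
  have a : 0 ≤ ε * L * Maj := by positivity
  have b := mul_nonneg (mul_nonneg hC' hC₀) a
  have c := mul_nonneg hc₀ a
  linarith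

/-- The excess against the operator on the test. -/
theorem exists_step_bound (S : Setup) (K N : ℝ) (hK : 0 ≤ K) (hN : 10 ≤ N) :
    ∃ C : ℝ, 0 ≤ C ∧ ∀ Sw D δ R M η ε Rs δs C₀ τ θ T : ℝ,
      ExSetting S Sw N D δ R K M η ε Rs δs C₀ τ θ T → ∀ p : ℝ × ℝ,
        exr S p.1 p.2 * (|fullOp S.a S.k (stepTest S K M N D δ η τ θ T) p.1 p.2| +
            C₀ * stepTest S K M N D δ η τ θ T p.1 p.2) ≤
          (Icc (3 * τ / 4) (5 * T / 2) ×ˢ Icc (7 * edge T / 8) (4 * δ)).indicator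
            (fun p => C * (1 + C₀) * ε * (1 + K + M) *
              (Real.sqrt τ * (Real.sqrt τ ^ 7 + η) * exMajor S.κ D τ θ p +
                (τ ^ 6 + τ ^ 2 * (Real.sqrt τ ^ 7 + η)) * exSing S.κ D τ θ p)) p := by
  obtain ⟨C₁, hC₁, hcoef⟩ := exists_coef_bound
  obtain ⟨Cs, hCs, hstep⟩ := exists_step
  set K₁ := K * (2 * N) ^ 4 with hK₁
  have hK₁0 : 0 ≤ K₁ := by positivity
  set Hc := 8 * N ^ 2 with hHc
  set c₀ := C₁ * wgtC K₁ (2 * N) Hc * (8 * N) ^ 8 * 2 with hc₀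
  have hW := wgtC_nonneg (H := Hc) hK₁0 (show (1 : ℝ) ≤ 2 * N by linarith) (by rw [hHc]; nlinarith)
  have hc₀0 : 0 ≤ c₀ := by positivity
  set k' := S.k / S.a with hk'
  set Cp := 1 + 4 * Cs with hCp
  set C' := 20 * (1 + |S.a| + |k'|) * Cp * (4 * N) ^ 2 * c₀ with hC'
  refine ⟨C' + c₀, by positivity, fun Sw D δ R M η ε Rs δs C₀ τ θ T h p => ?_⟩
  have hκ : 0 < S.κ := one_div_pos.2 (by linarith [S.data.a_pos])
  set Z := stepTest S K M N D δ η τ θ T with hZ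
  set B := Icc (3 * τ / 4) (5 * T / 2) ×ˢ Icc (7 * edge T / 8) (4 * δ) with hB
  by_cases hp : p ∈ B
  swap
  · have hev : ∀ᶠ q in 𝓝 p, Z q.1 q.2 = 0 :=
      eventually_of_mem ((isClosed_Icc.prod isClosed_Icc).isOpen_compl.mem_nhds hp) fun q hq => by
        by_contra hne; exact hq (stepTest_supp hκ h hne)
    rw [indicator_of_notMem hp, fullOp_zero_of_eventually hev, hev.self_of_nhds]
    simp
  rw [indicator_of_mem hp]
  obtain ⟨σ, y⟩ := p
  obtain ⟨hσ, hy⟩ := hp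
  obtain ⟨d0, d1, d2⟩ := exr_step h hσ hy
  obtain ⟨hτ, hT10, hTN, hT, he, he8, heH, hes, hsδ, hτ1⟩ := h.basic
  set d := exr S σ y with hd
  set s := Real.sqrt τ with hs'
  have hs : 0 < s := Real.sqrt_pos.2 hτ
  set Q := s ^ 7 + η with hQ
  have hη := h.η_nonneg
  have hQ0 : 0 ≤ Q := by positivity
  have hy0 : 0 < y := lt_of_lt_of_le (by linarith) hy.1
  have hy1 : |y| ≤ 1 := by rw [abs_of_pos hy0]; linarith [hy.2, h.δ_le]
  set α := exCoef K₁ (2 * M) (2 * N) τ η (edge T) δ with hα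
  set L := 2 * (1 + K + M) with hL
  have hM0 := h.M_nonneg
  obtain ⟨b0, b1, b2⟩ := hcoef K₁ (2 * M) (2 * N) Hc τ η ((8 * N) ^ 8 * ε) L (edge T) δ y d
    hK₁0 (by linarith) (by rw [hHc]; nlinarith) hτ hτ1 hη (by linarith)
    (mul_nonneg (by positivity) h.ε_nonneg) (by linarith) (by linarith) he8 heH hes hsδ d0
    (fun _ => ⟨d1, fun hys => d2 hys⟩)
  rw [← hα, ← hs', ← hQ] at b0 b1 b2
  set U := c₀ * ε * (1 + K + M) with hU
  have hU0 : 0 ≤ U := mul_nonneg (mul_nonneg hc₀0 h.ε_nonneg) (by linarith)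
  have eU : C₁ * wgtC K₁ (2 * N) Hc * ((8 * N) ^ 8 * ε) * L = U := by
    rw [hU, hc₀, hL]; ring
  rw [eU] at b0 b1 b2
  set o := 1 + |y| / s with ho
  have ho1 : 1 ≤ o := le_add_of_nonneg_right (by positivity)
  set W := wt τ y with hWd
  have hW18 : W = o ^ 18 := rfl
  have hW1 : 1 ≤ W := wt_one_le τ y
  have h8 : o ^ 8 ≤ W := by rw [hW18]; exact pow_le_pow_right₀ ho1 (by norm_num)
  have hys : |y| ≤ s * o := by
    rw [ho, mul_add, mul_one, mul_div_cancel₀ _ hs.ne']; linarith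
  set Y := if τ ^ 2 ≤ y then (τ ^ 6 + τ ^ 2 * Q) / y ^ 2 else 0 with hY
  have hY0 : 0 ≤ Y := by rw [hY]; split_ifs <;> positivity
  set P := boxPot S.κ D τ θ with hP
  obtain ⟨hPs, hPn, -, hPh⟩ := boxPot_props hκ (zero_lt_one.trans_le h.win.D_ge) hτ θ
  obtain ⟨φ0, φ1', φ1, φ2, -⟩ := hstep (-(2 / T)) 5 σ
  have hτT : 2 / T ≤ 1 / τ := by rw [div_le_div_iff₀ hT hτ]; linarith
  have hs2 : s ^ 2 = τ := Real.sq_sqrt hτ.le
  have f1 : |deriv (step01 (-(2 / T)) 5) σ| ≤ Cp / s ^ 2 := by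
    refine φ1.trans ?_
    rw [abs_neg, abs_of_pos (by positivity), hs2]
    calc Cs * (2 / T) ≤ Cs * (1 / τ) := mul_le_mul_of_nonneg_left hτT hCs
      _ = Cs / τ := by ring
      _ ≤ _ := by gcongr; linarith
  have f2 : |deriv (deriv (step01 (-(2 / T)) 5)) σ| ≤ Cp / s ^ 4 := by
    refine φ2.trans ?_
    rw [show s ^ 4 = (s ^ 2) ^ 2 by ring, hs2]
    calc Cs * (-(2 / T)) ^ 2 ≤ Cs * (1 / τ) ^ 2 := by
          rw [neg_sq]; exact mul_le_mul_of_nonneg_left (pow_le_pow_left₀ (by positivity) hτT 2) hCs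
      _ = Cs / τ ^ 2 := by ring
      _ ≤ _ := by gcongr; linarith
  have hσH : |σ| ≤ 4 * N * s ^ 2 := by
    rw [hs2, abs_of_pos (by linarith [hσ.1])]
    linarith [hσ.2]
  have hsW : 0 ≤ s * Q := by positivity
  obtain ⟨a0, a0', a1, a1', a2⟩ := coef_parts hU0 hQ0 hs b0 b1 b2
  rw [← ho, ← hW18] at a0 a0' a1 a1' a2
  have key := op_arith (a := S.a) (k' := k') (φ := step01 (-(2 / T)) 5 σ) (P := P σ y)
    (P₁ := Heat.dY P σ y) (T₁ := Heat.dT P σ y) (T₂ := Heat.dT (Heat.dT P) σ y)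
    (Y₂ := Heat.dY (Heat.dY P) σ y) (b := box D τ θ σ y) d0 (show (1 : ℝ) ≤ Cp by linarith) hU0
    hQ0 hY0 hs (Real.sqrt_le_one.2 hτ1) hW1 (show (1 : ℝ) ≤ 4 * N by linarith) hσH hy1
    (abs_le.2 ⟨by linarith, φ1'⟩) f1 f2 a0 a0' a1 a1' a2
  have hop := fullOp_exTest (A := α) (T := T) (P := P) (b := box D τ θ)
    ((contDiff_exCoef he).of_le (by norm_cast)) (hPs.of_le (by norm_cast)) S.data.a_pos.ne' S.k
    hPh σ y
  -- the majorant
  set Maj := s * Q * exMajor S.κ D τ θ (σ, y) +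
    (τ ^ 6 + τ ^ 2 * Q) * exSing S.κ D τ θ (σ, y) with hMaj
  have hM : s * Q * (W * (|P σ y| / s ^ 2 + |Heat.dY P σ y| / s +
      s ^ 4 * |Heat.dT (Heat.dT P) σ y| + s ^ 2 * |Heat.dT P σ y| +
      s ^ 2 * |Heat.dY (Heat.dY P) σ y| + |box D τ θ σ y|)) + Y * |P σ y| = Maj := by
    rw [hMaj, show s ^ 4 = (s ^ 2) ^ 2 by ring, hs2,
      abs_of_nonneg (box_nonneg (zero_le_one.trans h.win.D_ge) hτ.le θ σ y)]
    refine congrArg₂ (· + ·) rfl ?_
    rw [hY, exSing]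
    simp only
    split_ifs <;> ring
  rw [hM] at key
  have hZp : Z σ y = step01 (-(2 / T)) 5 σ * (α y * P σ y) := rfl
  have hMaj0 : 0 ≤ Maj := by
    rw [hMaj]
    refine add_nonneg (mul_nonneg hsW ?_) (mul_nonneg (by positivity) ?_)
    · have := box_nonneg (zero_le_one.trans h.win.D_ge) hτ.le θ σ y
      unfold exMajor
      positivity
    · unfold exSing
      split_ifs <;> positivity
  have hC0 := h.C₀_nonneg
  -- the zeroth order part
  have hz : d * (C₀ * Z σ y) ≤ C₀ * (U * Maj) := by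
    rw [hZp]
    exact zero_part h.win hC0 hU0 hQ0 d0 φ1' (exCoef_nonneg hK₁0 (by linarith) (by linarith) hη he y)
      (hPn σ y) a0
  have hC'0 : 0 ≤ C' := by rw [hC']; positivity
  have hfull : |fullOp S.a S.k Z σ y| ≤ |fullOp S.a S.k Z σ y| + |k'| * |step01 (-(2 / T)) 5 σ * (α y * P σ y)| :=
    le_add_of_nonneg_right (mul_nonneg (abs_nonneg _) (abs_nonneg _))
  have hop' : fullOp S.a S.k Z σ y = _ := hop
  rw [← hop'] at key
  have hx := (mul_le_mul_of_nonneg_left hfull d0).trans key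
  exact step_final hx hz hU (by rw [hC']) hC'0 hc₀0 hC0 h.ε_nonneg (by linarith) hMaj0

/-- The test is smooth and nonnegative. -/
lemma stepTest_props (h : ExSetting S Sw N D δ R K M η ε Rs δs C₀ τ θ T) :
    ContDiff ℝ ∞ (Function.uncurry (stepTest S K M N D δ η τ θ T)) ∧
      ∀ σ y, 0 ≤ stepTest S K M N D δ η τ θ T σ y := by
  have hκ : 0 < S.κ := one_div_pos.2 (by linarith [S.data.a_pos])
  obtain ⟨hτ, -, -, -, he, -⟩ := h.basic
  obtain ⟨hPs, hPn, -, -⟩ := boxPot_props hκ (zero_lt_one.trans_le h.win.D_ge) hτ θ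
  have := h.K_nonneg
  have := h.M_nonneg
  have := h.N_ge
  exact ⟨((contDiff_step01 _ _).comp contDiff_fst).mul
      (((contDiff_exCoef he).comp contDiff_snd).mul hPs),
    fun σ y => mul_nonneg (Real.smoothTransition.nonneg _)
      (mul_nonneg (exCoef_nonneg (by positivity) (by positivity) (by positivity) h.η_nonneg he y)
        (hPn σ y))⟩

/-- The excess against the operator on the test, integrated. -/
lemma step_integral (h : ExSetting S Sw N D δ R K M η ε Rs δs C₀ τ θ T) {Cc Cm : ℝ}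
    (hCc : 0 ≤ Cc)
    (hi1 : IntegrableOn (exMajor S.κ D τ θ) (Icc 0 (2 * (2 * T)) ×ˢ univ))
    (hi2 : IntegrableOn (exSing S.κ D τ θ) (Icc 0 (2 * (2 * T)) ×ˢ univ))
    (hb1 : ∫ p in Icc 0 (2 * (2 * T)) ×ˢ univ, exMajor S.κ D τ θ p ≤ Cm * D)
    (hb2 : ∫ p in Icc 0 (2 * (2 * T)) ×ˢ univ, exSing S.κ D τ θ p ≤
      Cm * D * Real.sqrt τ / τ ^ 2)
    (hpt : ∀ p : ℝ × ℝ,
      exr S p.1 p.2 * (|fullOp S.a S.k (stepTest S K M N D δ η τ θ T) p.1 p.2| +
          C₀ * stepTest S K M N D δ η τ θ T p.1 p.2) ≤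
        (Icc (3 * τ / 4) (5 * T / 2) ×ˢ Icc (7 * edge T / 8) (4 * δ)).indicator
          (fun p => Cc * (1 + C₀) * ε * (1 + K + M) *
            (Real.sqrt τ * (Real.sqrt τ ^ 7 + η) * exMajor S.κ D τ θ p +
              (τ ^ 6 + τ ^ 2 * (Real.sqrt τ ^ 7 + η)) * exSing S.κ D τ θ p)) p)
    (hint : Integrable fun p : ℝ × ℝ =>
      exr S p.1 p.2 * (|fullOp S.a S.k (stepTest S K M N D δ η τ θ T) p.1 p.2| +
          C₀ * stepTest S K M N D δ η τ θ T p.1 p.2)) :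
    ∫ p : ℝ × ℝ, exr S p.1 p.2 * (|fullOp S.a S.k (stepTest S K M N D δ η τ θ T) p.1 p.2| +
        C₀ * stepTest S K M N D δ η τ θ T p.1 p.2) ≤
      3 * Cc * Cm * D * (1 + C₀) * ε * (1 + K + M) * (τ ^ 4 + η * Real.sqrt τ) := by
  obtain ⟨hτ, hT10, -, hT, -, -, -, -, -, hτ1⟩ := h.basic
  have hD := h.win.D_ge
  set s := Real.sqrt τ with hs'
  have hs : 0 < s := Real.sqrt_pos.2 hτ
  have hη := h.η_nonneg
  have hE : 0 ≤ τ ^ 6 + τ ^ 2 * (s ^ 7 + η) := by positivity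
  have hsQ : 0 ≤ s * (s ^ 7 + η) := by positivity
  set c := Cc * (1 + C₀) * ε * (1 + K + M) with hc
  have hc0 : 0 ≤ c := mul_nonneg (mul_nonneg (mul_nonneg hCc (by linarith [h.C₀_nonneg]))
    h.ε_nonneg) (by linarith [h.K_nonneg, h.M_nonneg])
  set B := Icc (3 * τ / 4) (5 * T / 2) ×ˢ Icc (7 * edge T / 8) (4 * δ)
  set A := Icc (0 : ℝ) (2 * (2 * T)) ×ˢ (univ : Set ℝ)
  set g := fun p : ℝ × ℝ => c * (s * (s ^ 7 + η) * exMajor S.κ D τ θ p +
      (τ ^ 6 + τ ^ 2 * (s ^ 7 + η)) * exSing S.κ D τ θ p) with hg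
  have hBA : B ⊆ A := prod_mono (Icc_subset_Icc (by linarith) (by linarith)) (subset_univ _)
  have hg0 : ∀ p, 0 ≤ g p := fun p => by
    refine mul_nonneg hc0 (add_nonneg (mul_nonneg hsQ ?_) (mul_nonneg hE ?_))
    · have := box_nonneg (zero_le_one.trans hD) hτ.le θ p.1 p.2
      unfold exMajor wt
      positivity
    · unfold exSing
      split_ifs <;> positivity
  have hgA : IntegrableOn g A := ((hi1.const_mul _).add (hi2.const_mul _)).const_mul _
  have hBm : MeasurableSet B := measurableSet_Icc.prod measurableSet_Icc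
  have hcore : τ ^ 4 + η * s = s * (s ^ 7 + η) := by
    rw [show s * (s ^ 7 + η) = (s ^ 2) ^ 4 + η * s by ring, Real.sq_sqrt hτ.le]
  rw [hcore]
  calc ∫ p : ℝ × ℝ, _ ≤ ∫ p, B.indicator g p :=
        integral_mono hint ((integrable_indicator_iff hBm).2 (hgA.mono_set hBA)) hpt
    _ = ∫ p in B, g p := integral_indicator hBm
    _ ≤ ∫ p in A, g p :=
        setIntegral_mono_set hgA (Eventually.of_forall hg0) hBA.eventuallyLE
    _ = c * (s * (s ^ 7 + η) * (∫ p in A, exMajor S.κ D τ θ p) +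
        (τ ^ 6 + τ ^ 2 * (s ^ 7 + η)) * ∫ p in A, exSing S.κ D τ θ p) := by
        rw [hg, integral_const_mul, integral_add (hi1.const_mul _) (hi2.const_mul _),
          integral_const_mul, integral_const_mul]
    _ ≤ c * (s * (s ^ 7 + η) * (Cm * D) +
        (τ ^ 6 + τ ^ 2 * (s ^ 7 + η)) * (Cm * D * s / τ ^ 2)) := by gcongr
    _ = c * (Cm * D) * s * (2 * (s ^ 7 + η) + τ ^ 4) := by field_simp; ring
    _ ≤ c * (Cm * D) * s * (3 * (s ^ 7 + η)) := by
        have hCm : 0 ≤ Cm * D := le_trans (integral_nonneg fun p => by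
          have := box_nonneg (zero_le_one.trans hD) hτ.le θ p.1 p.2
          unfold exMajor wt
          positivity) hb1
        refine mul_le_mul_of_nonneg_left ?_ (by positivity)
        have h8 : τ ^ 4 = s * s ^ 7 := by
          rw [← Real.sq_sqrt hτ.le, ← hs']; ring
        have : s * s ^ 7 ≤ s ^ 7 :=
          mul_le_of_le_one_left (by positivity) (Real.sqrt_le_one.2 hτ1)
        linarith
    _ = _ := by rw [hc]; ring

/-- A point of the window in the upper half against the test. -/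
lemma shell_point {c : ℝ} (hc : 0 < c) (hκ : 0 < S.κ)
    (h : ExSetting S Sw N D δ R K M η ε Rs δs C₀ τ θ T)
    (hlow : ∀ σ y : ℝ, 0 < σ → Rs * σ ≤ 1 → σ ^ 2 ≤ y → y ≤ δs →
      c * y * (σ⁻¹ * tailG S.a S.k σ⁻¹) ≤ S.φu (pt σ⁻¹ y))
    {ν : ℝ} {f : Space → ℝ} (hf : Profile S ν f) {x : Space}
    (hx : x ∈ shell δ τ T ∩ {x | edge T * ‖x‖ ≤ height x}) (hXW : S.W x ≤ S.X x) :
    (S.X x - S.W x) * symWt S f D τ θ x ≤ 1 / (2 * c) *
      (spaceTest S (stepTest S K M N D δ η τ θ T) x * (2 * (S.X x - S.W x) * S.φu x) +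
        spaceTest S (stepTest S K M N D δ η τ (-θ) T) x * (2 * (S.X x - S.W x) * S.φu x)) := by
  obtain ⟨hτ, hT10, hTN, hT, he, -, -, -, -, hτ1⟩ := h.basic
  obtain ⟨⟨h1, h2, -, h4⟩, h5⟩ := hx
  have hr : 0 < ‖x‖ := inv_pos.1 (lt_of_lt_of_le (by positivity) h1)
  set r := ‖x‖ with hrd
  set y := height x / r with hy
  set σ := r⁻¹ with hσd
  have hσ : 0 < σ := inv_pos.2 hr
  have hye : edge T ≤ y := (le_div_iff₀ hr).2 h5
  have hyδ : y ≤ δ := (div_le_iff₀ hr).2 h4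
  have hy0 : 0 < y := he.trans_le hye
  have hRσ : R * σ ≤ 1 := by nlinarith [h.TR, h.R_pos]
  have hσy : σ ^ 2 ≤ y := le_trans (by rw [edge]; nlinarith) hye
  have hK := h.K_nonneg
  have hM := h.M_nonneg
  have hN := h.N_ge
  have hη := h.η_nonneg
  set α := exCoef (K * (2 * N) ^ 4) (2 * M) (2 * N) τ η (edge T) δ with hα
  have hαw : α y = wgt (K * (2 * N) ^ 4) (2 * M) (2 * N) τ η y :=
    exCoef_one he h.δ_pos hye (by linarith [h.δ_pos])
  -- the bound of the induction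
  have hbd : bd K M η σ y ≤ y * α y := by
    have hs : Real.sqrt σ ≤ 2 * N * Real.sqrt τ := by
      refine Real.sqrt_le_iff.2 ⟨by positivity, ?_⟩
      rw [mul_pow, Real.sq_sqrt hτ.le]
      nlinarith
    rw [hαw, bd, lin, wgt, abs_of_pos hy0, mul_add y, ← mul_div_assoc, mul_div_cancel_left₀ _ hy0.ne']
    refine add_le_add ?_ ?_
    · rw [mul_assoc, ← mul_pow]
      exact mul_le_mul_of_nonneg_left (pow_le_pow_left₀ hσ.le (by linarith) 4) hK
    · rw [show y * (2 * M * ((2 * N * Real.sqrt τ + y) ^ 7 + η)) =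
        M * (2 * y * ((2 * N * Real.sqrt τ + y) ^ 7 + η)) by ring]
      refine mul_le_mul_of_nonneg_left (mul_le_mul (by linarith) (by gcongr) (by positivity)
        (by positivity)) hM
  have hα0 : 0 ≤ α y := exCoef_nonneg (by positivity) (by positivity) (by positivity) hη he y
  have hd1 := h.level.tred_le hf hσ hRσ (θ := y)
    (by rw [abs_of_pos hy0]; exact hyδ) (by linarith [h.δ_le, h.δ_pos])
  have hG : 0 < S.G x := tailG_pos _ _ hr
  have hfx : c * |f x| ≤ α y * S.φu x := by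
    have hφ := hlow σ y hσ ((mul_le_mul_of_nonneg_right h.Rs_le hσ.le).trans hRσ) hσy
      (by linarith [h.δs_ge, h.δ_pos])
    obtain ⟨φ, hφx⟩ := exists_rot_pt x
    have e : S.φu x = S.φu (pt r y) := by
      conv_lhs => rw [← hφx]
      rw [S.rot_u]
    rw [hσd, inv_inv, ← e] at hφ
    rw [eq_mul_tred (S := S) hf.axial hr, abs_mul, abs_of_pos (mul_pos hr hG)]
    calc c * (r * S.G x * |tred S f σ y|) ≤ c * (r * S.G x * (y * α y)) := by
          gcongr; exact hd1.trans hbd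
      _ = α y * (c * y * (r * S.G x)) := by ring
      _ ≤ α y * S.φu x := mul_le_mul_of_nonneg_left hφ hα0
  have hP : ∀ θ' : ℝ, 0 ≤ boxPot S.κ D τ θ' σ y := fun θ' =>
    (boxPot_props hκ (zero_lt_one.trans_le h.win.D_ge) hτ θ').2.1 σ y
  have hw : ∀ θ' : ℝ, spaceTest S (stepTest S K M N D δ η τ θ' T) x =
      α y * boxPot S.κ D τ θ' σ y / (r ^ 3 * S.G x) := fun θ' => by
    have hstep : step01 (-(2 / T)) 5 σ = 1 := by
      refine step01_one ?_
      have : 2 / T * σ ≤ 4 := by rw [div_mul_eq_mul_div, div_le_iff₀ hT]; linarith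
      linarith
    have hpw : polWeight S.a S.k r = 1 / (r ^ 3 * S.G x) := by
      rw [eq_div_iff (by positivity)]
      calc polWeight S.a S.k r * (r ^ 3 * S.G x) =
            r ^ 2 * polWeight S.a S.k r * (r * tailG S.a S.k r) := by rw [Setup.G, ← hrd]; ring
        _ = 1 := by
            rw [sq_mul_polWeight _ _ hr, inv_mul_cancel₀ (mul_pos hr (tailG_pos _ _ hr)).ne']
    show step01 (-(2 / T)) 5 σ * (α y * boxPot S.κ D τ θ' σ y) * polWeight S.a S.k r = _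
    rw [hstep, hpw]
    ring
  rw [symWt, ← hrd, ← hσd, ← hy, boxPot_neg, hw θ, hw (-θ)]
  have h3 : 0 < r ^ 3 * S.G x := by positivity
  have hd : 0 ≤ S.X x - S.W x := sub_nonneg.2 hXW
  refine le_of_mul_le_mul_left ?_ hc
  calc c * ((S.X x - S.W x) *
        ((boxPot S.κ D τ θ σ y + boxPot S.κ D τ (-θ) σ y) * |f x| / (r ^ 3 * S.G x))) =
      (S.X x - S.W x) * ((boxPot S.κ D τ θ σ y + boxPot S.κ D τ (-θ) σ y) / (r ^ 3 * S.G x)) *
        (c * |f x|) := by ring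
    _ ≤ (S.X x - S.W x) * ((boxPot S.κ D τ θ σ y + boxPot S.κ D τ (-θ) σ y) / (r ^ 3 * S.G x)) *
        (α y * S.φu x) := mul_le_mul_of_nonneg_left hfx
          (mul_nonneg hd (div_nonneg (add_nonneg (hP _) (hP _)) h3.le))
    _ = _ := by field_simp

/-- The integrand of the budget is nonnegative. -/
lemma test_nonneg (hκ : 0 < S.κ) (h : ExSetting S Sw N D δ R K M η ε Rs δs C₀ τ θ T)
    (hR₁ : S.R₁ < R) :
    ∀ᵐ x : Space, 0 ≤ spaceTest S (stepTest S K M N D δ η τ θ T) x *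
      (2 * (S.X x - S.W x) * S.φu x) := by
  filter_upwards [S.W_le_X] with x hXW
  by_cases hne : stepTest S K M N D δ η τ θ T ‖x‖⁻¹ (height x / ‖x‖) = 0
  · rw [spaceTest, lift, hne, zero_mul, zero_mul]
  obtain ⟨⟨h1, h2⟩, h3, h4⟩ := stepTest_supp hκ h hne
  obtain ⟨hτ, -, -, hT, he, -⟩ := h.basic
  have hσ : 0 < ‖x‖⁻¹ := by linarith
  have hr : 0 < ‖x‖ := inv_pos.1 hσ
  have hRσ : R * ‖x‖⁻¹ ≤ 1 := by nlinarith [h.TR, h.R_pos]
  have hy : 0 < height x / ‖x‖ := by linarith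
  have hσy : ‖x‖⁻¹ ^ 2 ≤ height x / ‖x‖ := le_trans (by rw [edge]; nlinarith) h3
  have hfar : x ∈ far S.R₁ := by
    rw [← div_eq_mul_inv, div_le_one hr] at hRσ
    exact lt_of_lt_of_le hR₁ hRσ
  have hz : 0 ≤ height x := by
    have := mul_nonneg hy.le hr.le
    rwa [div_mul_cancel₀ _ hr.ne'] at this
  refine mul_nonneg (mul_nonneg ((stepTest_props h).2 _ _) ?_)
    (mul_nonneg (mul_nonneg two_pos.le (sub_nonneg.2 (hXW hfar))) (S.nonneg_u x hz))
  unfold polWeight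
  positivity

end Step

/-- The excess above the edge. -/
theorem excess_of (hEM : ExMajorStmt) (hsmall : SmallOneStmt) (hground : GroundStmt) :
    ExcessStmt := by
  intro S Sw K N q hSw hK hN hq D hD
  have hκ : 0 < S.κ := one_div_pos.2 (by linarith [S.data.a_pos])
  obtain ⟨C₀, R₂, hC₀, -, hbud⟩ := budget_test S
  obtain ⟨Cc, hCc, hpt⟩ := exists_step_bound S K N hK hN
  obtain ⟨Cm, hCm, hmaj⟩ := hEM S.κ Sw (2 * N) hκ hSw (by linarith)
  obtain ⟨c, hc, hexr⟩ := exists_exr_bounds hsmall hground S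
  set Λ := 6 * Real.pi / c * Cc * Cm * D * (1 + C₀) with hΛ
  have hΛ0 : 0 ≤ Λ := by positivity
  set ε := q / (Λ + 1) with hε
  have hε0 : 0 < ε := by positivity
  have hεq : Λ * ε ≤ q := by
    rw [hε, mul_div_assoc', div_le_iff₀ (by positivity)]
    linarith
  obtain ⟨δs, Rs, hδs, -, hRs, hbd⟩ := hexr ε hε0
  refine ⟨min (δs / 4) (1 / 16), lt_min (by linarith) (by norm_num), fun δ hδ hδle =>
    ⟨max (max Rs R₂) (max (max C₀ 2) (max (8 * N ^ 2) (1 / δ ^ 2))), ?_⟩⟩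
  intro R M η hp hL ν f hf τ θ T hw hTR
  obtain ⟨⟨hRsR, hR₂R⟩, ⟨hC₀R, hR2⟩, hNR, hδR⟩ := And.intro
    (max_le_iff.1 (le_of_max_le_left hp.R_ge)) (And.intro
      (max_le_iff.1 (le_of_max_le_left (le_of_max_le_right hp.R_ge)))
      (max_le_iff.1 (le_of_max_le_right (le_of_max_le_right hp.R_ge))))
  have hT : 0 < T := by linarith [hw.T_ge, hw.τ_pos]
  have hT8 : 8 * T ≤ 1 := by nlinarith
  have hwn : ∀ {θ' : ℝ}, |θ'| = |θ| → Window Sw N D τ θ' T := fun e =>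
    ⟨hw.τ_pos, e ▸ hw.θ_le, hw.T_ge, hw.T_le, hw.D_ge, hw.box_le, hw.small⟩
  have hset : ∀ {θ' : ℝ}, |θ'| = |θ| → ExSetting S Sw N D δ R K M η ε Rs δs C₀ τ θ' T := fun e =>
    { win := hwn e
      win2 := ⟨hw.τ_pos, e ▸ hw.θ_le, by linarith [hw.T_ge], by linarith [hw.T_le], hw.D_ge,
        hw.box_le, by linarith⟩
      N_ge := hN, K_nonneg := hK, M_nonneg := hp.M_nonneg, η_nonneg := hp.η_nonneg
      ε_nonneg := hε0.le, C₀_nonneg := hC₀, C₀_le := hC₀R, δ_pos := hδ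
      δ_le := by linarith [hδle.trans (min_le_right _ _)]
      δs_ge := by linarith [hδle.trans (min_le_left _ _)]
      R_pos := by linarith, Rs_le := hRsR, δR := hδR, HR := hNR, TR := hTR, level := hL
      exr_bd := fun σ y a b d g => ⟨(hbd σ y a b d g).1, (hbd σ y a b d g).2.1,
        (hbd σ y a b d g).2.2.2⟩ }
  have hlow := fun σ y a b d g => (hbd σ y a b d g).2.2.1
  have hR₁ : S.R₁ < R := hRs.trans_le hRsR
  obtain ⟨hτ, -, -, -, he, -⟩ := (hset rfl).basic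
  set core := τ ^ 4 + η * Real.sqrt τ
  have one : ∀ {θ' : ℝ}, |θ'| = |θ| →
      Integrable (fun x => spaceTest S (stepTest S K M N D δ η τ θ' T) x *
        (2 * (S.X x - S.W x) * S.φu x)) ∧
      ∫ x, spaceTest S (stepTest S K M N D δ η τ θ' T) x * (2 * (S.X x - S.W x) * S.φu x) ≤
        2 * Real.pi * (3 * Cc * Cm * D * (1 + C₀) * ε * (1 + K + M) * core) := fun {θ'} e => by
    have h := hset e
    obtain ⟨hsm, hnn⟩ := stepTest_props h
    have hσR : R₂ * (5 * T / 2) ≤ 1 :=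
      (mul_le_mul_of_nonneg_right hR₂R (by positivity)).trans (by nlinarith)
    obtain ⟨i1, i2, hle⟩ := hbud _ (3 * τ / 4) (5 * T / 2) (7 * edge T / 8) (4 * δ) hsm hnn
      (fun σ y hne => stepTest_supp hκ h hne) (by positivity) (by linarith [hw.T_ge]) hσR
      (by positivity) (by linarith [h.δ_le])
    obtain ⟨m1, m2, b1, b2⟩ := hmaj D τ θ' (2 * T) h.win2
    exact ⟨i1, hle.trans (mul_le_mul_of_nonneg_left
      (step_integral h hCc m1 m2 b1 b2 (hpt Sw D δ R M η ε Rs δs C₀ τ θ' T h) i2)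
      (by positivity))⟩
  obtain ⟨ip, hp'⟩ := one (θ' := θ) rfl
  obtain ⟨im, hm'⟩ := one (θ' := -θ) (abs_neg θ)
  set A := shell δ τ T ∩ {x | edge T * ‖x‖ ≤ height x} with hA
  have hh : Measurable height := by unfold height; fun_prop
  have hAm : MeasurableSet A := (measurableSet_shell δ τ T).inter
    (measurableSet_le (measurable_const.mul measurable_norm) hh)
  have hsub : A ⊆ belt S.R₁ := fun x hx => shell_subset_belt hτ hT hTR hR₁.le
    (by linarith [one_le_R₁ S]) (by linarith [hδle.trans (min_le_right _ _)]) hx.1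
  set G := fun x => 1 / (2 * c) *
      (spaceTest S (stepTest S K M N D δ η τ θ T) x * (2 * (S.X x - S.W x) * S.φu x) +
        spaceTest S (stepTest S K M N D δ η τ (-θ) T) x * (2 * (S.X x - S.W x) * S.φu x)) with hG
  have hGi : Integrable G := (ip.add im).const_mul _
  have hG0 : ∀ᵐ x, 0 ≤ G x := by
    filter_upwards [test_nonneg hκ (hset rfl) hR₁,
      test_nonneg hκ (hset (abs_neg θ)) hR₁] with x a b
    exact mul_nonneg (by positivity) (add_nonneg a b)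
  have hFG : ∀ᵐ x ∂(volume.restrict A), 0 ≤ (S.X x - S.W x) * symWt S f D τ θ x ∧
      (S.X x - S.W x) * symWt S f D τ θ x ≤ G x := by
    refine (ae_restrict_iff' hAm).2 (S.W_le_X.mono fun x hx hxA => ?_)
    have hXW := hx (hsub hxA).1
    refine ⟨mul_nonneg (sub_nonneg.2 hXW) ?_, shell_point hc hκ (hset rfl) hlow hf hxA hXW⟩
    obtain ⟨-, hP, -, -⟩ := boxPot_props hκ (zero_lt_one.trans_le hD) hτ θ
    exact div_nonneg (mul_nonneg (add_nonneg (hP _ _) (hP _ _)) (abs_nonneg _))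
      (mul_nonneg (pow_nonneg (norm_nonneg _) 3)
        (tailG_pos _ _ (by linarith [(hsub hxA).1, one_le_R₁ S])).le)
  have hi : IntegrableOn (fun x => (S.X x - S.W x) * symWt S f D τ θ x) A := by
    refine Integrable.mono' hGi.integrableOn
      (((aestronglyMeasurable_defect S).restrict.sub
        (measurable_defectW S).aestronglyMeasurable).mul
          (meas_symWt hf (by linarith) hτ hAm hsub)) ?_
    filter_upwards [hFG] with x hx
    rw [Real.norm_eq_abs, abs_of_nonneg hx.1]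
    exact hx.2
  refine ⟨hi, ?_⟩
  calc ∫ x in A, (S.X x - S.W x) * symWt S f D τ θ x ≤ ∫ x in A, G x :=
        integral_mono_ae hi hGi.integrableOn (hFG.mono fun x hx => hx.2)
    _ ≤ ∫ x, G x := setIntegral_le_integral hGi hG0
    _ ≤ 1 / (2 * c) * (2 * Real.pi * (3 * Cc * Cm * D * (1 + C₀) * ε * (1 + K + M) * core) +
        2 * Real.pi * (3 * Cc * Cm * D * (1 + C₀) * ε * (1 + K + M) * core)) := by
        rw [hG, integral_const_mul, integral_add ip im]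
        gcongr
    _ = Λ * ε * ((1 + K + M) * core) := by rw [hΛ]; ring
    _ ≤ q * ((1 + K + M) * core) := by
        have := hp.M_nonneg
        have := hp.η_nonneg
        refine mul_le_mul_of_nonneg_right hεq (mul_nonneg (by linarith) ?_)
        positivity
    _ = _ := by ring

end Vale.Agent.P363.Ext.Growth
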