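import Vale.Agent.P363.Ext.Growth.JumpSpec

/-!
P363, Kohn-Sham side, `ExcessStmt`: real estimates for the coefficient of the test. The excess is
at most `ε y`, and at most `ε L (τ⁴ + y Q₀)` for `y ≤ √τ`, with `Q₀ = √τ ^ 7 + η`.
-/

noncomputable section

namespace Vale.Agent.P363.Ext.Growth

open Filter Set
open scoped BigOperators Topology ContDiff

/-- The coefficient of the test before the cut-offs. -/
def wgt (K M c τ η y : ℝ) : ℝ := K * τ ^ 4 / y + M * ((c * Real.sqrt τ + y) ^ 7 + η)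

/-- Its first derivative. -/
def wgt₁ (K M c τ y : ℝ) : ℝ := -(K * τ ^ 4 / y ^ 2) + M * (7 * (c * Real.sqrt τ + y) ^ 6)

/-- Its second derivative. -/
def wgt₂ (K M c τ y : ℝ) : ℝ := 2 * K * τ ^ 4 / y ^ 3 + M * (42 * (c * Real.sqrt τ + y) ^ 5)

/-- A smooth step along an affine function. -/
def step01 (p q y : ℝ) : ℝ := Real.smoothTransition (p * y + q)

lemma hasDerivAt_wgt (K M c τ η : ℝ) {y : ℝ} (hy : y ≠ 0) :
    HasDerivAt (wgt K M c τ η) (wgt₁ K M c τ y) y ∧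
      HasDerivAt (wgt₁ K M c τ) (wgt₂ K M c τ y) y := by
  have h := ((hasDerivAt_id y).const_add (c * Real.sqrt τ))
  constructor
  · refine (((hasDerivAt_inv hy).const_mul (K * τ ^ 4)).add
      (((h.pow 7).add_const η).const_mul M)).congr_deriv ?_
    simp [wgt₁]
    ring
  · refine ((((hasDerivAt_pow 2 y).inv (pow_ne_zero 2 hy)).const_mul (K * τ ^ 4)).neg.add
      (((h.pow 6).const_mul 7).const_mul M)).congr_deriv ?_
    simp [wgt₂]
    field_simp
    ring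

/-- Bounds of the steps. -/
lemma exists_step : ∃ C : ℝ, 0 ≤ C ∧ ∀ p q y : ℝ,
    0 ≤ step01 p q y ∧ step01 p q y ≤ 1 ∧
    |deriv (step01 p q) y| ≤ C * |p| ∧ |deriv (deriv (step01 p q)) y| ≤ C * p ^ 2 ∧
    (deriv (step01 p q) y ≠ 0 ∨ deriv (deriv (step01 p q)) y ≠ 0 → p * y + q ∈ Icc (0 : ℝ) 1) := by
  set f : ℝ → ℝ := deriv Real.smoothTransition with hf
  have hs : ContDiff ℝ ∞ f := (contDiff_infty_iff_deriv.1 Real.smoothTransition.contDiff).2
  have h0 : ∀ t, t ∉ Icc (0 : ℝ) 1 → f t = 0 ∧ deriv f t = 0 := by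
    have key : ∀ t, t ∉ Icc (0 : ℝ) 1 → f t = 0 := by
      intro t ht
      rw [mem_Icc, not_and_or, not_le, not_le] at ht
      rcases ht with ht | ht
      · have : Real.smoothTransition =ᶠ[𝓝 t] fun _ => 0 := by
          filter_upwards [Iio_mem_nhds ht] with u hu
          exact Real.smoothTransition.zero_of_nonpos (le_of_lt hu)
        rw [hf, this.deriv_eq]; simp
      · have : Real.smoothTransition =ᶠ[𝓝 t] fun _ => 1 := by
          filter_upwards [Ioi_mem_nhds ht] with u hu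
          exact Real.smoothTransition.one_of_one_le (le_of_lt hu)
        rw [hf, this.deriv_eq]; simp
    refine fun t ht => ⟨key t ht, ?_⟩
    have : f =ᶠ[𝓝 t] fun _ => 0 := by
      filter_upwards [isClosed_Icc.isOpen_compl.mem_nhds ht] with u hu using key u hu
    rw [this.deriv_eq]; simp
  have hd : Continuous (deriv f) := (contDiff_infty_iff_deriv.1 hs).2.continuous
  obtain ⟨C₁, hC₁⟩ := isCompact_Icc.exists_bound_of_continuousOn (s := Icc (0 : ℝ) 1)
    hs.continuous.continuousOn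
  obtain ⟨C₂, hC₂⟩ := isCompact_Icc.exists_bound_of_continuousOn (s := Icc (0 : ℝ) 1)
    hd.continuousOn
  refine ⟨max (max C₁ C₂) 0, le_max_right _ _, fun p q y => ?_⟩
  have e1 : deriv (step01 p q) = fun t => f (p * t + q) * p := funext fun t =>
    ((((Real.smoothTransition.contDiff (n := 1)).differentiable one_ne_zero _).hasDerivAt).comp t
      (((hasDerivAt_id t).const_mul p).add_const q) |>.congr_deriv (by simp [hf])).deriv
  have e2 : deriv (deriv (step01 p q)) y = deriv f (p * y + q) * p * p := by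
    rw [e1]
    exact ((((hs.differentiable (by norm_num)) _).hasDerivAt.comp y
      (((hasDerivAt_id y).const_mul p).add_const q)).mul_const p
        |>.congr_deriv (by simp)).deriv
  refine ⟨Real.smoothTransition.nonneg _, Real.smoothTransition.le_one _, ?_, ?_, fun h => ?_⟩
  · rw [e1, abs_mul]
    refine mul_le_mul_of_nonneg_right ?_ (abs_nonneg _)
    by_cases ht : p * y + q ∈ Icc (0 : ℝ) 1
    · exact (hC₁ _ ht).trans ((le_max_left _ _).trans (le_max_left _ _))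
    · rw [(h0 _ ht).1, abs_zero]; exact le_max_right _ _
  · rw [e2, mul_assoc, abs_mul, ← sq, abs_of_nonneg (sq_nonneg p)]
    refine mul_le_mul_of_nonneg_right ?_ (sq_nonneg _)
    by_cases ht : p * y + q ∈ Icc (0 : ℝ) 1
    · exact (hC₂ _ ht).trans ((le_max_right _ _).trans (le_max_left _ _))
    · rw [(h0 _ ht).2, abs_zero]; exact le_max_right _ _
  · by_contra ht
    rw [e1] at h
    rcases h with h | h
    · exact h (by simp [(h0 _ ht).1])
    · rw [show deriv (fun t => f (p * t + q) * p) y = _ from e1 ▸ e2] at h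
      exact h (by simp [(h0 _ ht).2])

section Real

variable {s y e d ε L Q K M c η H P τ : ℝ}

/-- `τ⁴ / y ≤ 1`, `τ⁴ / y² ≤ 1`. -/
lemma quot_le_one (hτ : 0 < τ) (hτ1 : τ ≤ 1) (hy : τ ^ 2 ≤ y) :
    τ ^ 4 / y ≤ 1 ∧ τ ^ 4 / y ^ 2 ≤ 1 ∧ τ ^ 8 / y ≤ τ ^ 6 ∧ τ ^ 4 ≤ τ ^ 2 := by
  have hy0 : 0 < y := lt_of_lt_of_le (by positivity) hy
  have h2 : τ ^ 4 ≤ τ ^ 2 := pow_le_pow_of_le_one hτ.le hτ1 (by norm_num)
  refine ⟨(div_le_one hy0).2 (h2.trans hy), (div_le_one (by positivity)).2 ?_, ?_, h2⟩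
  · rw [show τ ^ 4 = (τ ^ 2) ^ 2 by ring]
    exact pow_le_pow_left₀ (by positivity) hy 2
  · rw [div_le_iff₀ hy0, show τ ^ 8 = τ ^ 6 * τ ^ 2 by ring]
    exact mul_le_mul_of_nonneg_left hy (by positivity)

variable (hs : 0 < s) (hs1 : s ≤ 1) (hτs : τ = s ^ 2) (hη : 0 ≤ η) (hQ : Q = s ^ 7 + η)
include hs hs1 hτs hη hQ

lemma quart_le : τ ^ 4 ≤ s * Q ∧ τ ^ 4 ≤ Q ∧ τ ^ 4 / s ≤ Q ∧ τ ^ 4 / s ^ 2 ≤ Q / s := by
  subst hτs hQ
  have h7 : s ^ 7 ≤ s ^ 7 + η := le_add_of_nonneg_right hη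
  have e8 : (s ^ 2) ^ 4 = s * s ^ 7 := by ring
  refine ⟨e8 ▸ mul_le_mul_of_nonneg_left h7 hs.le,
    e8 ▸ (mul_le_of_le_one_left (by positivity) hs1).trans h7, ?_, ?_⟩
  · rw [e8, mul_div_assoc, mul_div_cancel₀ _ hs.ne']; exact h7
  · rw [show (s ^ 2) ^ 4 / s ^ 2 = s ^ 7 / s by field_simp]
    exact div_le_div_of_nonneg_right h7 hs.le

/-- The singular part of the first derivative against the excess. -/
lemma sing_one (hy : τ ^ 2 ≤ y) (hε : 0 ≤ ε) (hL : 1 ≤ L) (hd1 : d ≤ ε * y)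
    (hd2 : y ≤ s → d ≤ ε * L * (τ ^ 4 + y * Q)) :
    d * (τ ^ 4 / y ^ 2) ≤ 2 * (ε * L) * Q := by
  obtain ⟨-, hq1, hq2, -⟩ := quart_le hs hs1 hτs hη hQ
  have hτ : 0 < τ := hτs ▸ pow_pos hs 2
  have hτ1 : τ ≤ 1 := hτs ▸ pow_le_one₀ hs.le hs1
  obtain ⟨a, b, -, -⟩ := quot_le_one hτ hτ1 hy
  have hy0 : 0 < y := lt_of_lt_of_le (by positivity) hy
  have hQ0 : 0 ≤ Q := le_trans (by positivity) hq1
  have hU : 0 ≤ ε * L := mul_nonneg hε (by linarith)
  rcases le_total y s with h | h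
  · refine (mul_le_mul_of_nonneg_right (hd2 h) (by positivity)).trans ?_
    have e1 : (τ ^ 4 + y * Q) * (τ ^ 4 / y ^ 2) ≤ 2 * Q := by
      rw [show (τ ^ 4 + y * Q) * (τ ^ 4 / y ^ 2) = τ ^ 4 * (τ ^ 4 / y ^ 2) + Q * (τ ^ 4 / y) by
        field_simp, two_mul]
      exact add_le_add ((mul_le_of_le_one_right (by positivity) b).trans hq1)
        (mul_le_of_le_one_right hQ0 a)
    calc ε * L * (τ ^ 4 + y * Q) * (τ ^ 4 / y ^ 2)
        = ε * L * ((τ ^ 4 + y * Q) * (τ ^ 4 / y ^ 2)) := by ring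
      _ ≤ ε * L * (2 * Q) := mul_le_mul_of_nonneg_left e1 hU
      _ = _ := by ring
  · calc d * (τ ^ 4 / y ^ 2) ≤ ε * y * (τ ^ 4 / y ^ 2) :=
          mul_le_mul_of_nonneg_right hd1 (by positivity)
      _ = ε * (τ ^ 4 / y) := by field_simp
      _ ≤ ε * L * Q := mul_le_mul (le_mul_of_one_le_right hε hL)
          ((div_le_div_of_nonneg_left (by positivity) hs h).trans hq2) (by positivity) hU
      _ ≤ _ := by linarith [mul_nonneg hU hQ0]

/-- The singular part of the second derivative against the excess. -/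
lemma sing_two (hy : τ ^ 2 ≤ y) (hε : 0 ≤ ε) (hL : 1 ≤ L) (hd1 : d ≤ ε * y)
    (hd2 : y ≤ s → d ≤ ε * L * (τ ^ 4 + y * Q)) :
    d * (τ ^ 4 / y ^ 3) ≤ ε * L * (Q / s + (τ ^ 6 + τ ^ 2 * Q) / y ^ 2) := by
  obtain ⟨-, hq1, -, hq3⟩ := quart_le hs hs1 hτs hη hQ
  have hτ : 0 < τ := hτs ▸ pow_pos hs 2
  have hτ1 : τ ≤ 1 := hτs ▸ pow_le_one₀ hs.le hs1
  obtain ⟨-, -, c8, c4⟩ := quot_le_one hτ hτ1 hy
  have hy0 : 0 < y := lt_of_lt_of_le (by positivity) hy
  have hQ0 : 0 ≤ Q := le_trans (by positivity) hq1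
  have hU : 0 ≤ ε * L := mul_nonneg hε (by linarith)
  rcases le_total y s with h | h
  · refine (mul_le_mul_of_nonneg_right (hd2 h) (by positivity)).trans ?_
    rw [mul_assoc (ε * L), show (τ ^ 4 + y * Q) * (τ ^ 4 / y ^ 3) =
      (τ ^ 8 / y + τ ^ 4 * Q) / y ^ 2 by field_simp]
    refine mul_le_mul_of_nonneg_left (le_trans ?_ (le_add_of_nonneg_left (by positivity))) hU
    exact div_le_div_of_nonneg_right (add_le_add c8 (mul_le_mul_of_nonneg_right c4 hQ0))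
      (sq_nonneg y)
  · calc d * (τ ^ 4 / y ^ 3) ≤ ε * y * (τ ^ 4 / y ^ 3) :=
          mul_le_mul_of_nonneg_right hd1 (by positivity)
      _ = ε * (τ ^ 4 / y ^ 2) := by field_simp
      _ ≤ ε * L * (Q / s) := mul_le_mul (le_mul_of_one_le_right hε hL)
          ((div_le_div_of_nonneg_left (by positivity) (by positivity)
            (pow_le_pow_left₀ hs.le h 2)).trans hq3) (by positivity) hU
      _ ≤ _ := mul_le_mul_of_nonneg_left (le_add_of_nonneg_right (by positivity)) hU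

/-- The singular part of the weight at the step. -/
lemma sing_band (hy : τ ^ 2 ≤ y) (he : τ ^ 2 ≤ e) (hye : y ≤ e) (hε : 0 ≤ ε) (hL : 1 ≤ L)
    (hd : d ≤ ε * L * (τ ^ 4 + y * Q)) :
    d * (τ ^ 4 / y) / e ≤ 2 * (ε * L) * Q ∧
      d * (τ ^ 4 / y) / e ^ 2 ≤ ε * L * ((τ ^ 6 + τ ^ 2 * Q) / y ^ 2) := by
  obtain ⟨-, hq1, -, -⟩ := quart_le hs hs1 hτs hη hQ
  have hτ : 0 < τ := hτs ▸ pow_pos hs 2
  have hτ1 : τ ≤ 1 := hτs ▸ pow_le_one₀ hs.le hs1
  obtain ⟨-, -, c8, c4⟩ := quot_le_one hτ hτ1 hy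
  obtain ⟨a, -, -, -⟩ := quot_le_one hτ hτ1 he
  have hy0 : 0 < y := lt_of_lt_of_le (by positivity) hy
  have he0 : 0 < e := hy0.trans_le hye
  have hQ0 : 0 ≤ Q := le_trans (by positivity) hq1
  have hU : 0 ≤ ε * L := mul_nonneg hε (by linarith)
  have key : ∀ m : ℕ, d * (τ ^ 4 / y) / e ^ m ≤
      ε * L * ((τ ^ 8 / y + τ ^ 4 * Q) / e ^ m) := fun m => by
    refine (div_le_div_of_nonneg_right (mul_le_mul_of_nonneg_right hd (by positivity))
      (by positivity)).trans_eq ?_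
    field_simp
  constructor
  · have h1 := key 1
    rw [pow_one] at h1
    refine h1.trans ?_
    rw [mul_comm 2 (ε * L), mul_assoc (ε * L) 2 Q]
    refine mul_le_mul_of_nonneg_left ?_ hU
    have b : τ ^ 4 / (y * e) ≤ 1 := by
      rw [div_le_one (by positivity), show τ ^ 4 = τ ^ 2 * τ ^ 2 by ring]
      exact mul_le_mul hy he (by positivity) hy0.le
    rw [show (τ ^ 8 / y + τ ^ 4 * Q) / e = τ ^ 4 * (τ ^ 4 / (y * e)) + Q * (τ ^ 4 / e) by
      field_simp, two_mul]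
    exact add_le_add ((mul_le_of_le_one_right (by positivity) b).trans hq1)
      (mul_le_of_le_one_right hQ0 a)
  · refine (key 2).trans (mul_le_mul_of_nonneg_left ?_ hU)
    exact div_le_div₀ (by positivity) (add_le_add c8 (mul_le_mul_of_nonneg_right c4 hQ0))
      (by positivity) (pow_le_pow_left₀ hy0.le hye 2)

omit hs1 hτs in
/-- The polynomial parts. -/
lemma poly_parts (hy : 0 ≤ y) (hc : 1 ≤ c) :
    (c * s + y) ^ 7 + η ≤ c ^ 7 * (Q * (1 + y / s) ^ 7) ∧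
    y * ((c * s + y) ^ 7 + η) ≤ c ^ 7 * (s * Q * (1 + y / s) ^ 8) ∧
    y * (c * s + y) ^ 6 ≤ c ^ 7 * (Q * (1 + y / s) ^ 8) ∧
    y * (c * s + y) ^ 5 ≤ c ^ 7 * (Q / s * (1 + y / s) ^ 8) := by
  subst hQ
  set o := 1 + y / s with ho
  have ho1 : 1 ≤ o := le_add_of_nonneg_right (by positivity)
  have hso : s * o = s + y := by rw [ho]; field_simp
  have hcy : c * s + y ≤ c * (s * o) := by rw [hso, mul_add]; linarith [le_mul_of_one_le_left hy hc]
  have hyo : y ≤ s * o := by rw [hso]; linarith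
  have h0 : 0 ≤ c * s + y := by positivity
  have hc7 : ∀ j ≤ 7, c ^ j ≤ c ^ 7 := fun j hj => pow_le_pow_right₀ hc hj
  have hj : ∀ j ≤ 7, (c * s + y) ^ j * s ^ (7 - j) ≤ c ^ 7 * (s ^ 7 * o ^ 7) := fun j hj => by
    calc (c * s + y) ^ j * s ^ (7 - j) ≤ (c * (s * o)) ^ j * s ^ (7 - j) :=
          mul_le_mul_of_nonneg_right (pow_le_pow_left₀ h0 hcy j) (by positivity)
      _ = c ^ j * (s ^ (j + (7 - j)) * o ^ j) := by rw [pow_add]; ring
      _ ≤ c ^ 7 * (s ^ 7 * o ^ 7) := by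
          rw [show j + (7 - j) = 7 by omega]
          exact mul_le_mul (hc7 j hj) (mul_le_mul_of_nonneg_left (pow_le_pow_right₀ ho1 hj)
            (by positivity)) (by positivity) (by positivity)
  have hη' : η ≤ c ^ 7 * (η * o ^ 7) := by
    calc η ≤ η * o ^ 7 := le_mul_of_one_le_right hη (one_le_pow₀ ho1)
      _ ≤ _ := le_mul_of_one_le_left (by positivity) (one_le_pow₀ hc)
  have p7 : (c * s + y) ^ 7 + η ≤ c ^ 7 * ((s ^ 7 + η) * o ^ 7) := by
    have := hj 7 le_rfl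
    simp only [Nat.sub_self, pow_zero, mul_one] at this
    rw [add_mul, mul_add]
    exact add_le_add this hη'
  have h7 : c ^ 7 * (s ^ 7 * o ^ 7) ≤ c ^ 7 * ((s ^ 7 + η) * o ^ 7) := by
    gcongr; exact le_add_of_nonneg_right hη
  refine ⟨p7, ?_, ?_, ?_⟩
  · calc y * ((c * s + y) ^ 7 + η) ≤ s * o * (c ^ 7 * ((s ^ 7 + η) * o ^ 7)) :=
          mul_le_mul hyo p7 (by positivity) (by positivity)
      _ = _ := by ring
  · calc y * (c * s + y) ^ 6 ≤ s * o * (c * s + y) ^ 6 :=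
          mul_le_mul_of_nonneg_right hyo (by positivity)
      _ = (c * s + y) ^ 6 * s ^ (7 - 6) * o := by norm_num; ring
      _ ≤ c ^ 7 * ((s ^ 7 + η) * o ^ 7) * o :=
          mul_le_mul_of_nonneg_right ((hj 6 (by norm_num)).trans h7) (by positivity)
      _ = _ := by ring
  · rw [div_mul_eq_mul_div, mul_div_assoc', le_div_iff₀ hs]
    calc y * (c * s + y) ^ 5 * s ≤ s * o * (c * s + y) ^ 5 * s := by
          gcongr
      _ = (c * s + y) ^ 5 * s ^ (7 - 5) * o := by norm_num; ring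
      _ ≤ c ^ 7 * ((s ^ 7 + η) * o ^ 7) * o :=
          mul_le_mul_of_nonneg_right ((hj 5 (by norm_num)).trans h7) (by positivity)
      _ = _ := by ring

end Real

/-- The constant of the coefficient bounds. -/
def wgtC (K c H : ℝ) : ℝ := 2 * K + 42 * (2 ^ 8 * (c ^ 7 * H))

/-- The excess against the weight and its derivatives. -/
theorem wgt_bulk {K c H τ η M ε L y d e : ℝ} (hK : 0 ≤ K) (hc : 1 ≤ c) (hH : 1 ≤ H)
    (hτ : 0 < τ) (hτ1 : τ ≤ 1) (hη : 0 ≤ η) (hM : 0 ≤ M) (hε : 0 ≤ ε) (hML : M ≤ L) (hL : 1 ≤ L)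
    (hy : τ ^ 2 ≤ y) (he : τ ^ 2 ≤ e) (hd : 0 ≤ d) (hd1 : d ≤ ε * y)
    (hd2 : y ≤ Real.sqrt τ → d ≤ ε * L * (τ ^ 4 + y * (Real.sqrt τ ^ 7 + η))) :
        d * |wgt K M c τ η y| ≤
          wgtC K c H * ε * L * (Real.sqrt τ * (Real.sqrt τ ^ 7 + η) * (1 + y / Real.sqrt τ) ^ 8) ∧
        d * |wgt₁ K M c τ y| ≤ wgtC K c H * ε * L * ((Real.sqrt τ ^ 7 + η) * (1 + y / Real.sqrt τ) ^ 8) ∧
        d * |wgt₂ K M c τ y| ≤ wgtC K c H * ε * L * ((Real.sqrt τ ^ 7 + η) / Real.sqrt τ *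
          (1 + y / Real.sqrt τ) ^ 8 + (τ ^ 6 + τ ^ 2 * (Real.sqrt τ ^ 7 + η)) / y ^ 2) := by
  set s := Real.sqrt τ with hs'
  have hs : 0 < s := Real.sqrt_pos.2 hτ
  have hs1 : s ≤ 1 := Real.sqrt_le_one.2 hτ1
  have hτs : τ = s ^ 2 := (Real.sq_sqrt hτ.le).symm
  set Q := s ^ 7 + η with hQ
  have hy0 : 0 < y := lt_of_lt_of_le (by positivity) hy
  have he0 : 0 < e := lt_of_lt_of_le (by positivity) he
  obtain ⟨hq4, -, -, -⟩ := quart_le hs hs1 hτs hη hQ
  obtain ⟨q7, r7, r6, r5⟩ := poly_parts hs hη hQ hy0.le hc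
  have k1 := sing_one hs hs1 hτs hη hQ hy hε hL hd1 hd2
  have k2 := sing_two hs hs1 hτs hη hQ hy hε hL hd1 hd2
  set o := (1 + y / s) ^ 8 with ho
  have ho1 : 1 ≤ o := one_le_pow₀ (le_add_of_nonneg_right (by positivity))
  set E := (τ ^ 6 + τ ^ 2 * Q) / y ^ 2 with hE
  set U := ε * L with hU'
  have hU : 0 ≤ U := mul_nonneg hε (by linarith)
  have hQ0 : 0 ≤ Q := by positivity
  have hE0 : 0 ≤ E := by positivity
  set P := c ^ 7 with hP'
  set B := wgtC K c H with hB0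
  have hB : B = 2 * K + 42 * (2 ^ 8 * (P * H)) := rfl
  have hPH : P ≤ P * H := le_mul_of_one_le_right (pow_nonneg (by linarith) 7) hH
  have hPH0 : 0 ≤ P * H := mul_nonneg (pow_nonneg (by linarith) 7) (by linarith)
  have up : ∀ {a b : ℝ} {X : ℝ}, a ≤ 2 → b ≤ 42 * (2 ^ 8 * (P * H)) → 0 ≤ X →
      (a * K + b) * U * X ≤ B * ε * L * X := fun {a b X} ha hb hX => by
    rw [mul_assoc B ε L, ← hU', hB]
    exact mul_le_mul_of_nonneg_right (mul_le_mul_of_nonneg_right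
      (add_le_add (mul_le_mul_of_nonneg_right ha hK) hb) hU) hX
  -- `d M` is at most `U y`
  have m1 : ∀ {X : ℝ}, 0 ≤ X → d * (M * X) ≤ U * (y * X) := fun {X} hX => by
    calc d * (M * X) ≤ ε * y * (M * X) := mul_le_mul_of_nonneg_right hd1 (by positivity)
      _ = ε * M * (y * X) := by ring
      _ ≤ U * (y * X) := mul_le_mul_of_nonneg_right (mul_le_mul_of_nonneg_left hML hε)
          (by positivity)
  have hw : d * |wgt K M c τ η y| = K * (d * (τ ^ 4 / y)) + d * (M * ((c * s + y) ^ 7 + η)) := by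
    rw [wgt, abs_of_nonneg (by positivity)]; ring
  have hw1 : d * |wgt₁ K M c τ y| ≤
      K * (d * (τ ^ 4 / y ^ 2)) + d * (M * (7 * (c * s + y) ^ 6)) := by
    refine (mul_le_mul_of_nonneg_left (abs_add_le _ _) hd).trans_eq ?_
    rw [abs_neg, abs_of_nonneg (by positivity), abs_of_nonneg (by positivity)]; ring
  have hw2 : d * |wgt₂ K M c τ y| =
      2 * K * (d * (τ ^ 4 / y ^ 3)) + d * (M * (42 * (c * s + y) ^ 5)) := by
    rw [wgt₂, abs_of_nonneg (by positivity)]; ring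
  refine ⟨?_, ?_, ?_⟩
  · rw [hw]
    refine (add_le_add (mul_le_mul_of_nonneg_left (a := K) (?_ : _ ≤ U * (s * Q * o)) hK)
      ((m1 (by positivity)).trans (mul_le_mul_of_nonneg_left r7 hU))).trans
      (le_trans (le_of_eq ?_) (up (a := 1) (b := P) (by norm_num) (by linarith) (by positivity)))
    · calc d * (τ ^ 4 / y) ≤ ε * y * (τ ^ 4 / y) := mul_le_mul_of_nonneg_right hd1 (by positivity)
        _ = ε * τ ^ 4 := by field_simp
        _ ≤ U * (s * Q * o) := mul_le_mul (le_mul_of_one_le_right hε hL)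
            (hq4.trans (le_mul_of_one_le_right (by positivity) ho1)) (by positivity) hU
    · ring
  · refine hw1.trans ((add_le_add (mul_le_mul_of_nonneg_left (k1.trans
      (mul_le_mul_of_nonneg_left (le_mul_of_one_le_right hQ0 ho1) (by positivity))) hK)
      ((m1 (by positivity)).trans (mul_le_mul_of_nonneg_left (b := y * (7 * (c * s + y) ^ 6))
        (c := 7 * (P * (Q * o))) ?_ hU))).trans
      (le_trans (le_of_eq ?_) (up (a := 2) (b := 7 * P) le_rfl (by linarith) (by positivity))))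
    · rw [mul_left_comm]; exact mul_le_mul_of_nonneg_left r6 (by norm_num)
    · ring
  · rw [hw2]
    refine (add_le_add (mul_le_mul_of_nonneg_left (k2.trans (mul_le_mul_of_nonneg_left
      (add_le_add (le_mul_of_one_le_right (by positivity) ho1) le_rfl) hU)) (by positivity))
      ((m1 (by positivity)).trans (mul_le_mul_of_nonneg_left (b := y * (42 * (c * s + y) ^ 5))
        (c := 42 * P * (Q / s * o + E)) ?_ hU))).trans
      (le_trans (le_of_eq ?_) (up (a := 2) (b := 42 * P) le_rfl (by linarith) (by positivity)))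
    · rw [mul_left_comm]
      refine (mul_le_mul_of_nonneg_left r5 (by norm_num)).trans ?_
      rw [← mul_assoc]
      exact mul_le_mul_of_nonneg_left (le_add_of_nonneg_right hE0) (by positivity)
    · ring

/-- The derivative of the weight at the step. -/
theorem wgt_band_deriv {K c H τ η M ε L y d e : ℝ} (hK : 0 ≤ K) (hc : 1 ≤ c) (hH : 1 ≤ H)
    (hτ : 0 < τ) (hτ1 : τ ≤ 1) (hη : 0 ≤ η) (hM : 0 ≤ M) (hε : 0 ≤ ε) (hML : M ≤ L) (hL : 1 ≤ L)
    (hy : τ ^ 2 ≤ y) (he : τ ^ 2 ≤ e) (hd : 0 ≤ d) (hd1 : d ≤ ε * y)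
    (hd2 : y ≤ Real.sqrt τ → d ≤ ε * L * (τ ^ 4 + y * (Real.sqrt τ ^ 7 + η)))
    (hes : e ≤ Real.sqrt τ) (hye : y ≤ e) :
      d * |wgt₁ K M c τ y| / e ≤ wgtC K c H * ε * L * ((Real.sqrt τ ^ 7 + η) / Real.sqrt τ *
            (1 + y / Real.sqrt τ) ^ 8 + (τ ^ 6 + τ ^ 2 * (Real.sqrt τ ^ 7 + η)) / y ^ 2) := by
  set s := Real.sqrt τ with hs'
  have hs : 0 < s := Real.sqrt_pos.2 hτ
  have hs1 : s ≤ 1 := Real.sqrt_le_one.2 hτ1
  have hτs : τ = s ^ 2 := (Real.sq_sqrt hτ.le).symm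
  set Q := s ^ 7 + η with hQ
  have hy0 : 0 < y := lt_of_lt_of_le (by positivity) hy
  have he0 : 0 < e := lt_of_lt_of_le (by positivity) he
  obtain ⟨hq4, -, -, -⟩ := quart_le hs hs1 hτs hη hQ
  obtain ⟨q7, r7, r6, r5⟩ := poly_parts hs hη hQ hy0.le hc
  have k1 := sing_one hs hs1 hτs hη hQ hy hε hL hd1 hd2
  have k2 := sing_two hs hs1 hτs hη hQ hy hε hL hd1 hd2
  set o := (1 + y / s) ^ 8 with ho
  have ho1 : 1 ≤ o := one_le_pow₀ (le_add_of_nonneg_right (by positivity))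
  set E := (τ ^ 6 + τ ^ 2 * Q) / y ^ 2 with hE
  set U := ε * L with hU'
  have hU : 0 ≤ U := mul_nonneg hε (by linarith)
  have hQ0 : 0 ≤ Q := by positivity
  have hE0 : 0 ≤ E := by positivity
  set P := c ^ 7 with hP'
  set B := wgtC K c H with hB0
  have hB : B = 2 * K + 42 * (2 ^ 8 * (P * H)) := rfl
  have hPH : P ≤ P * H := le_mul_of_one_le_right (pow_nonneg (by linarith) 7) hH
  have hPH0 : 0 ≤ P * H := mul_nonneg (pow_nonneg (by linarith) 7) (by linarith)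
  have up : ∀ {a b : ℝ} {X : ℝ}, a ≤ 2 → b ≤ 42 * (2 ^ 8 * (P * H)) → 0 ≤ X →
      (a * K + b) * U * X ≤ B * ε * L * X := fun {a b X} ha hb hX => by
    rw [mul_assoc B ε L, ← hU', hB]
    exact mul_le_mul_of_nonneg_right (mul_le_mul_of_nonneg_right
      (add_le_add (mul_le_mul_of_nonneg_right ha hK) hb) hU) hX
  -- `d M` is at most `U y`
  have m1 : ∀ {X : ℝ}, 0 ≤ X → d * (M * X) ≤ U * (y * X) := fun {X} hX => by
    calc d * (M * X) ≤ ε * y * (M * X) := mul_le_mul_of_nonneg_right hd1 (by positivity)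
      _ = ε * M * (y * X) := by ring
      _ ≤ U * (y * X) := mul_le_mul_of_nonneg_right (mul_le_mul_of_nonneg_left hML hε)
          (by positivity)
  have hw : d * |wgt K M c τ η y| = K * (d * (τ ^ 4 / y)) + d * (M * ((c * s + y) ^ 7 + η)) := by
    rw [wgt, abs_of_nonneg (by positivity)]; ring
  have hw1 : d * |wgt₁ K M c τ y| ≤
      K * (d * (τ ^ 4 / y ^ 2)) + d * (M * (7 * (c * s + y) ^ 6)) := by
    refine (mul_le_mul_of_nonneg_left (abs_add_le _ _) hd).trans_eq ?_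
    rw [abs_neg, abs_of_nonneg (by positivity), abs_of_nonneg (by positivity)]; ring
  have hw2 : d * |wgt₂ K M c τ y| =
      2 * K * (d * (τ ^ 4 / y ^ 3)) + d * (M * (42 * (c * s + y) ^ 5)) := by
    rw [wgt₂, abs_of_nonneg (by positivity)]; ring
  have hys : y ≤ s := hye.trans hes
  have q7' : (c * s + y) ^ 7 + η ≤ 2 ^ 8 * P * Q := by
    refine q7.trans ?_
    have : (1 + y / s) ^ 7 ≤ 2 ^ 8 :=
      (pow_le_pow_left₀ (by positivity) (show 1 + y / s ≤ 2 by linarith [(div_le_one hs).2 hys])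
        7).trans (by norm_num)
    calc P * (Q * (1 + y / s) ^ 7) ≤ P * (Q * 2 ^ 8) := by gcongr
      _ = _ := by ring
  refine (div_le_div_of_nonneg_right hw1 he0.le).trans ?_
  rw [add_div, mul_div_assoc K]
  refine (add_le_add (mul_le_mul_of_nonneg_left (a := K) (?_ : _ ≤ U * (Q / s * o + E)) hK)
    (?_ : _ ≤ U * (7 * P * (Q / s * o + E)))).trans
    (le_trans (le_of_eq ?_) (up (a := 1) (b := 7 * P) (by norm_num) (by linarith) (by positivity)))
  · refine le_trans ?_ (k2.trans (mul_le_mul_of_nonneg_left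
      (add_le_add (le_mul_of_one_le_right (by positivity) ho1) le_rfl) hU))
    rw [mul_div_assoc, div_div]
    refine mul_le_mul_of_nonneg_left
      (div_le_div_of_nonneg_left (by positivity) (by positivity) ?_) hd
    rw [pow_succ]
    exact mul_le_mul_of_nonneg_left hye (sq_nonneg y)
  · rw [div_le_iff₀ he0]
    refine (m1 (by positivity)).trans ?_
    rw [mul_assoc U]
    refine mul_le_mul_of_nonneg_left ?_ hU
    -- `y ≤ e`, and the sixth power is `Q / s`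
    have h6 : (c * s + y) ^ 6 ≤ P * (Q / s * o) := by
      rw [div_mul_eq_mul_div, mul_div_assoc', le_div_iff₀ hs]
      have hc2 : (c * s + y) ^ 6 * s ≤ (c * s + y) ^ 7 := by
        rw [pow_succ _ 6]
        refine mul_le_mul_of_nonneg_left ?_ (by positivity)
        linarith [le_mul_of_one_le_left hs.le hc]
      refine hc2.trans ((le_add_of_nonneg_right hη).trans (q7.trans ?_))
      exact mul_le_mul_of_nonneg_left (mul_le_mul_of_nonneg_left (pow_le_pow_right₀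
        (le_add_of_nonneg_right (div_nonneg hy0.le hs.le)) (by norm_num)) hQ0) (by positivity)
    calc y * (7 * (c * s + y) ^ 6) ≤ e * (7 * (P * (Q / s * o + E))) := by
          gcongr
          exact h6.trans (mul_le_mul_of_nonneg_left (le_add_of_nonneg_right hE0) (by positivity))
      _ = _ := by ring
  · ring

/-- The excess against the weight at the step. -/
theorem wgt_band {K c H τ η M ε L y d e : ℝ} (hK : 0 ≤ K) (hc : 1 ≤ c) (hH : 1 ≤ H)
    (hτ : 0 < τ) (hτ1 : τ ≤ 1) (hη : 0 ≤ η) (hM : 0 ≤ M) (hε : 0 ≤ ε) (hML : M ≤ L) (hL : 1 ≤ L)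
    (hy : τ ^ 2 ≤ y) (he : τ ^ 2 ≤ e) (hd : 0 ≤ d) (hd1 : d ≤ ε * y)
    (hd2 : y ≤ Real.sqrt τ → d ≤ ε * L * (τ ^ 4 + y * (Real.sqrt τ ^ 7 + η)))
    (heH : e ≤ H * τ ^ 2) (hes : e ≤ Real.sqrt τ) (hye : y ≤ e) :
      d * |wgt K M c τ η y| / e ≤
            wgtC K c H * ε * L * ((Real.sqrt τ ^ 7 + η) * (1 + y / Real.sqrt τ) ^ 8) ∧
          d * |wgt K M c τ η y| / e ^ 2 ≤
            wgtC K c H * ε * L * ((τ ^ 6 + τ ^ 2 * (Real.sqrt τ ^ 7 + η)) / y ^ 2) ∧
          d * |wgt₁ K M c τ y| / e ≤ wgtC K c H * ε * L * ((Real.sqrt τ ^ 7 + η) / Real.sqrt τ *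
            (1 + y / Real.sqrt τ) ^ 8 + (τ ^ 6 + τ ^ 2 * (Real.sqrt τ ^ 7 + η)) / y ^ 2) := by
  set s := Real.sqrt τ with hs'
  have hs : 0 < s := Real.sqrt_pos.2 hτ
  have hs1 : s ≤ 1 := Real.sqrt_le_one.2 hτ1
  have hτs : τ = s ^ 2 := (Real.sq_sqrt hτ.le).symm
  set Q := s ^ 7 + η with hQ
  have hy0 : 0 < y := lt_of_lt_of_le (by positivity) hy
  have he0 : 0 < e := lt_of_lt_of_le (by positivity) he
  obtain ⟨hq4, -, -, -⟩ := quart_le hs hs1 hτs hη hQ
  obtain ⟨q7, r7, r6, r5⟩ := poly_parts hs hη hQ hy0.le hc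
  have k1 := sing_one hs hs1 hτs hη hQ hy hε hL hd1 hd2
  have k2 := sing_two hs hs1 hτs hη hQ hy hε hL hd1 hd2
  set o := (1 + y / s) ^ 8 with ho
  have ho1 : 1 ≤ o := one_le_pow₀ (le_add_of_nonneg_right (by positivity))
  set E := (τ ^ 6 + τ ^ 2 * Q) / y ^ 2 with hE
  set U := ε * L with hU'
  have hU : 0 ≤ U := mul_nonneg hε (by linarith)
  have hQ0 : 0 ≤ Q := by positivity
  have hE0 : 0 ≤ E := by positivity
  set P := c ^ 7 with hP'
  set B := wgtC K c H with hB0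
  have hB : B = 2 * K + 42 * (2 ^ 8 * (P * H)) := rfl
  have hPH : P ≤ P * H := le_mul_of_one_le_right (pow_nonneg (by linarith) 7) hH
  have hPH0 : 0 ≤ P * H := mul_nonneg (pow_nonneg (by linarith) 7) (by linarith)
  have up : ∀ {a b : ℝ} {X : ℝ}, a ≤ 2 → b ≤ 42 * (2 ^ 8 * (P * H)) → 0 ≤ X →
      (a * K + b) * U * X ≤ B * ε * L * X := fun {a b X} ha hb hX => by
    rw [mul_assoc B ε L, ← hU', hB]
    exact mul_le_mul_of_nonneg_right (mul_le_mul_of_nonneg_right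
      (add_le_add (mul_le_mul_of_nonneg_right ha hK) hb) hU) hX
  -- `d M` is at most `U y`
  have m1 : ∀ {X : ℝ}, 0 ≤ X → d * (M * X) ≤ U * (y * X) := fun {X} hX => by
    calc d * (M * X) ≤ ε * y * (M * X) := mul_le_mul_of_nonneg_right hd1 (by positivity)
      _ = ε * M * (y * X) := by ring
      _ ≤ U * (y * X) := mul_le_mul_of_nonneg_right (mul_le_mul_of_nonneg_left hML hε)
          (by positivity)
  have hw : d * |wgt K M c τ η y| = K * (d * (τ ^ 4 / y)) + d * (M * ((c * s + y) ^ 7 + η)) := by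
    rw [wgt, abs_of_nonneg (by positivity)]; ring
  have hw1 : d * |wgt₁ K M c τ y| ≤
      K * (d * (τ ^ 4 / y ^ 2)) + d * (M * (7 * (c * s + y) ^ 6)) := by
    refine (mul_le_mul_of_nonneg_left (abs_add_le _ _) hd).trans_eq ?_
    rw [abs_neg, abs_of_nonneg (by positivity), abs_of_nonneg (by positivity)]; ring
  have hw2 : d * |wgt₂ K M c τ y| =
      2 * K * (d * (τ ^ 4 / y ^ 3)) + d * (M * (42 * (c * s + y) ^ 5)) := by
    rw [wgt₂, abs_of_nonneg (by positivity)]; ring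
  have hys : y ≤ s := hye.trans hes
  obtain ⟨g1, g2⟩ := sing_band hs hs1 hτs hη hQ hy he hye hε hL (hd2 hys)
  have q7' : (c * s + y) ^ 7 + η ≤ 2 ^ 8 * P * Q := by
    refine q7.trans ?_
    have : (1 + y / s) ^ 7 ≤ 2 ^ 8 :=
      (pow_le_pow_left₀ (by positivity) (show 1 + y / s ≤ 2 by linarith [(div_le_one hs).2 hys])
        7).trans (by norm_num)
    calc P * (Q * (1 + y / s) ^ 7) ≤ P * (Q * 2 ^ 8) := by gcongr
      _ = _ := by ring
  have hR1 : d * (M * ((c * s + y) ^ 7 + η)) / e ≤ U * (2 ^ 8 * P * Q) := by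
    rw [div_le_iff₀ he0]
    refine (m1 (by positivity)).trans ?_
    rw [mul_assoc U, mul_comm _ e]
    exact mul_le_mul_of_nonneg_left (mul_le_mul hye q7' (by positivity) he0.le) hU
  have hR2 : d * (M * ((c * s + y) ^ 7 + η)) / e ^ 2 ≤ U * (2 ^ 8 * (P * H) * E) := by
    rw [div_le_iff₀ (by positivity), mul_assoc U]
    refine (m1 (by positivity)).trans (mul_le_mul_of_nonneg_left ?_ hU)
    rw [hE, mul_div_assoc', div_mul_eq_mul_div, le_div_iff₀ (by positivity)]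
    calc y * ((c * s + y) ^ 7 + η) * y ^ 2 = ((c * s + y) ^ 7 + η) * (y * y ^ 2) := by ring
      _ ≤ 2 ^ 8 * P * Q * ((H * τ ^ 2) * e ^ 2) := by gcongr; exact hye.trans heH
      _ = 2 ^ 8 * (P * H) * (τ ^ 2 * Q) * e ^ 2 := by ring
      _ ≤ _ := by gcongr; exact le_add_of_nonneg_left (by positivity)
  refine ⟨?_, ?_, wgt_band_deriv hK hc hH hτ hτ1 hη hM hε hML hL hy he hd hd1 hd2 hes hye⟩
  · rw [hw, add_div, mul_div_assoc K]
    refine (add_le_add (mul_le_mul_of_nonneg_left g1 hK) hR1).trans ?_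
    refine le_trans ?_ (up (a := 2) (b := 2 ^ 8 * P) le_rfl (by linarith) (by positivity))
    calc K * (2 * U * Q) + U * (2 ^ 8 * P * Q) = (2 * K + 2 ^ 8 * P) * U * Q := by ring
      _ ≤ _ := mul_le_mul_of_nonneg_left (le_mul_of_one_le_right hQ0 ho1) (by positivity)
  · rw [hw, add_div, mul_div_assoc K]
    refine (add_le_add (mul_le_mul_of_nonneg_left g2 hK) hR2).trans ?_
    refine le_trans (le_of_eq ?_) (up (a := 1) (b := 2 ^ 8 * (P * H)) (by norm_num)
      (by linarith) hE0)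
    ring

lemma wgtC_nonneg {K c H : ℝ} (hK : 0 ≤ K) (hc : 1 ≤ c) (hH : 1 ≤ H) : 0 ≤ wgtC K c H := by
  unfold wgtC; positivity

end Vale.Agent.P363.Ext.Growth
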