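import Vale.Agent.P363.Ext.Growth.JumpPotBound
import Vale.Agent.P363.Ext.Asymp.Data

/-!
P363, `JumpEstStmt`: the cut-offs, the size of profiles in the window of a jump, and integrability
of the weighted potential.
-/

noncomputable section

namespace Vale.Agent.P363.Ext.Growth

open MeasureTheory Filter Set
open scoped BigOperators Topology

theorem downT_one {T σ : ℝ} (hT : 0 < T) (h : σ ≤ T) : downT T σ = 1 := by
  refine Real.smoothTransition.one_of_one_le ?_
  have := (div_le_one hT).2 h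
  linarith

theorem downT_zero {T σ : ℝ} (hT : 0 < T) (h : 2 * T ≤ σ) : downT T σ = 0 := by
  refine Real.smoothTransition.zero_of_nonpos ?_
  have := (le_div_iff₀ hT).2 h
  linarith

theorem contDiff_timeCut (τ T : ℝ) {n : ℕ∞} : ContDiff ℝ n (timeCut τ T) :=
  (contDiff_const.sub (Asymp.contDiff_downT _)).mul (Asymp.contDiff_downT _)

theorem abs_timeCut_le (τ T σ : ℝ) : |timeCut τ T σ| ≤ 1 := by
  have h : ∀ t s : ℝ, 0 ≤ downT t s ∧ downT t s ≤ 1 := fun t s =>
    ⟨Real.smoothTransition.nonneg _, Real.smoothTransition.le_one _⟩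
  obtain ⟨a, b⟩ := h (τ / 4) σ
  obtain ⟨c, d⟩ := h T σ
  rw [timeCut, abs_of_nonneg (mul_nonneg (by linarith) c)]
  exact mul_le_one₀ (by linarith) c d

theorem timeCut_zero {τ T σ : ℝ} (hτ : 0 < τ) (hT : 0 < T) (h : σ ∉ Icc (τ / 4) (2 * T)) :
    timeCut τ T σ = 0 := by
  rw [timeCut]
  rcases not_and_or.1 h with h' | h'
  · rw [downT_one (by linarith) (not_le.1 h').le, sub_self, zero_mul]
  · rw [downT_zero hT (not_le.1 h').le, mul_zero]

theorem timeCut_one {τ T σ : ℝ} (hτ : 0 < τ) (hT : 0 < T) (h₁ : τ / 2 ≤ σ) (h₂ : σ ≤ T) :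
    timeCut τ T σ = 1 := by
  rw [timeCut, downT_zero (by linarith) (by linarith), downT_one hT h₂]
  norm_num

theorem deriv_timeCut {τ T : ℝ} (hτ : 0 < τ) (hT : 10 * τ ≤ T) :
    deriv (timeCut τ T) = fun σ => deriv (downT T) σ - deriv (downT (τ / 4)) σ := by
  funext σ
  have hd : ∀ t, HasDerivAt (downT t) (deriv (downT t) σ) σ := fun t =>
    (((Asymp.contDiff_downT (n := 1) t).differentiable one_ne_zero) σ).hasDerivAt
  refine HasDerivAt.deriv ((((hd (τ / 4)).const_sub 1).mul (hd T)).congr_deriv ?_)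
  rcases le_or_gt σ (τ / 2) with h | h
  · have h0 : deriv (downT T) σ = 0 := Asymp.deriv_downT_zero (by linarith)
      fun hm => by linarith [hm.1]
    rw [h0, downT_one (T := T) (by linarith) (by linarith)]
    ring
  · have h0 : deriv (downT (τ / 4)) σ = 0 := Asymp.deriv_downT_zero (by linarith)
      fun hm => by linarith [hm.2]
    rw [h0, downT_zero (T := τ / 4) (by linarith) (by linarith)]
    ring

theorem tsupport_timeCut {τ T : ℝ} (hτ : 0 < τ) (hT : 0 < T) :
    tsupport (timeCut τ T) ⊆ Icc (τ / 4) (2 * T) :=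
  closure_minimal (fun _ hσ => by_contra fun h => hσ (timeCut_zero hτ hT h)) isClosed_Icc

theorem tsupport_cutθ {δ : ℝ} (hδ : 0 < δ) : tsupport (cutθ δ) ⊆ Icc (-δ) δ := by
  refine closure_minimal (fun y hy => by_contra fun h => hy (Asymp.cutθ_zero hδ ?_)) isClosed_Icc
  by_contra hn
  exact h (abs_le.1 (not_le.1 hn).le)

/-- The size of profiles in the window of a jump. -/
theorem exists_tred_le {N : ℝ} (hN : 10 ≤ N) : ∃ C : ℝ, 0 ≤ C ∧
    ∀ (S : Setup) (δ R K M η ν : ℝ) (f : Space → ℝ), Level S δ R K M η → Profile S ν f →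
      0 ≤ K → 0 ≤ M → 0 ≤ η → δ ≤ 1 → ∀ τ T σ y : ℝ, 0 < τ → T ≤ N * τ → 4 * T ≤ 1 →
        4 * T * R ≤ 1 → 0 < R → τ / 4 ≤ σ → σ ≤ 2 * T → |y| ≤ δ →
          |tred S f σ y| ≤
            C * (K + M) * (τ ^ 4 + η * Real.sqrt τ) * (1 + |y| / Real.sqrt τ) ^ 8 := by
  set c := Real.sqrt (2 * N) with hcd
  have hc1 : 1 ≤ c := Real.one_le_sqrt.2 (by linarith)
  refine ⟨c ^ 8, by positivity, fun S δ R K M η ν f hL hf hK hM hη hδ τ T σ y hτ hTN hT hTR hR
    hσ1 hσ2 hy => ?_⟩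
  have hσ : 0 < σ := by linarith
  have hRσ : R * σ ≤ 1 := by linarith [mul_le_mul_of_nonneg_left hσ2 hR.le]
  refine ((hL.tred_le hf hσ hRσ hy hδ).trans
    (bd_le_scale hK hM hη hσ.le (by linarith) y)).trans ?_
  set s := Real.sqrt τ
  have hs : 0 < s := Real.sqrt_pos.2 hτ
  set x := 1 + |y| / s with hxd
  have hx1 : 1 ≤ x := by rw [hxd]; linarith [show 0 ≤ |y| / s by positivity]
  have h1 : Real.sqrt σ + |y| ≤ c * (s * x) := by
    have e : s * x = s + |y| := by rw [hxd]; field_simp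
    rw [e, mul_add]
    refine add_le_add ?_ (le_mul_of_one_le_left (abs_nonneg y) hc1)
    rw [hcd, ← Real.sqrt_mul (by linarith)]
    exact Real.sqrt_le_sqrt (by linarith)
  have h8 : s ^ 8 = τ ^ 4 := by rw [show 8 = 2 * 4 from rfl, pow_mul, Real.sq_sqrt hτ.le]
  have hc8 : c ≤ c ^ 8 := le_self_pow₀ hc1 (by norm_num)
  have hx8 : x ≤ x ^ 8 := le_self_pow₀ hx1 (by norm_num)
  have key : scale η σ y ≤ c ^ 8 * ((τ ^ 4 + η * s) * x ^ 8) := by
    rw [scale, add_mul, mul_add (c ^ 8)]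
    refine add_le_add ((pow_le_pow_left₀ (by positivity) h1 8).trans_eq (by
      rw [mul_pow, mul_pow, h8])) ?_
    refine (mul_le_mul_of_nonneg_left (h1.trans (mul_le_mul hc8
      (mul_le_mul_of_nonneg_left hx8 hs.le) (by positivity) (by positivity))) hη).trans_eq ?_
    ring
  refine (mul_le_mul_of_nonneg_left key (by linarith)).trans_eq ?_
  ring

/-- Weighted potentials of compact sources are integrable up to any time. -/
theorem wt_pot_integrable {κ : ℝ} (hκ : 0 < κ) {g : ℝ → ℝ → ℝ}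
    (hc : Continuous (Function.uncurry g)) (hk : HasCompactSupport (Function.uncurry g))
    (τ T : ℝ) :
    IntegrableOn (fun p : ℝ × ℝ => wt τ p.2 * |Heat.pot κ g p.1 p.2|) (Iic T ×ˢ univ) := by
  obtain ⟨m, hm⟩ := (IsCompact.image hk.isCompact continuous_fst).bddBelow
  have hs : ∀ σ y, g σ y ≠ 0 → min m T ≤ σ := fun σ y h =>
    (min_le_left m T).trans (hm ⟨(σ, y), subset_tsupport _ h, rfl⟩)
  have hL : 0 ≤ T - min m T := sub_nonneg.2 (min_le_right m T)
  have i0 := moment_integrable hκ hc hk hs hL (add_sub_cancel _ _) 0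
  have i8 := moment_integrable hκ hc hk hs hL (add_sub_cancel _ _) 18
  have hG : AEStronglyMeasurable (fun p : ℝ × ℝ => |Heat.pot κ g p.1 p.2|)
      (volume.restrict (Iic T ×ˢ univ)) := by simpa using i0.aestronglyMeasurable
  refine ((Integrable.add i0 (i8.div_const (Real.sqrt τ ^ 18))).const_mul (2 ^ 17 : ℝ)).mono'
    ((Continuous.aestronglyMeasurable (by unfold wt; fun_prop)).mul hG)
    (Eventually.of_forall fun p => ?_)
  rw [Real.norm_eq_abs, abs_of_nonneg (mul_nonneg (wt_nonneg _ _) (abs_nonneg _))]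
  refine (mul_le_mul_of_nonneg_right (wt_le_split τ p.2) (abs_nonneg _)).trans (le_of_eq ?_)
  simp only [Pi.add_apply]
  ring

/-- The integrability that goes with `PotBoundStmt`. -/
theorem boxPot_integrable {κ D τ : ℝ} (hκ : 0 < κ) (hD : 0 < D) (hτ : 0 < τ) (θ T : ℝ) :
    let I := fun G : ℝ → ℝ → ℝ =>
      IntegrableOn (fun p : ℝ × ℝ => wt τ p.2 * |G p.1 p.2|) (Iic T ×ˢ univ)
    I (boxPot κ D τ θ) ∧ I (Heat.dY (boxPot κ D τ θ)) ∧ I (Heat.dT (boxPot κ D τ θ)) ∧
      I (Heat.dY (Heat.dY (boxPot κ D τ θ))) ∧ I (Heat.dT (Heat.dT (boxPot κ D τ θ))) := by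
  intro I
  have hsrc := source_box hD hτ θ
  obtain ⟨hTs, hYs⟩ := Heat.CSrc.deriv' hsrc.smooth hsrc.compact
  obtain ⟨-, -, -, pT, pY, pTT, pYY, -, -⟩ := Heat.potProps κ hκ _ _ _ hsrc
  refine ⟨wt_pot_integrable hκ hsrc.smooth.continuous hsrc.compact τ T, ?_, ?_, ?_, ?_⟩ <;>
    simp only [I, boxPot, pT, pY, pTT, pYY]
  · exact wt_pot_integrable hκ hYs.smooth.continuous hYs.compact τ T
  · exact wt_pot_integrable hκ hTs.smooth.continuous hTs.compact τ T
  · exact wt_pot_integrable hκ (Heat.continuous_dY hYs.smooth) (Heat.compact_dY hYs) τ T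
  · exact wt_pot_integrable hκ (Heat.continuous_dT hTs.smooth) (Heat.compact_dT hTs) τ T

end Vale.Agent.P363.Ext.Growth
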