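import Vale.Agent.P363.Ext.Growth.ExcessSpec
import Vale.Agent.P363.Ext.Growth.JumpWin

/-!
P363, Kohn-Sham side, `ExcessStmt`: the integrals of the two majorants.
-/

noncomputable section

namespace Vale.Agent.P363.Ext.Growth

open MeasureTheory Filter Set
open scoped BigOperators Topology

/-- The weight on the support of the box. -/
lemma wt_box_le {Sw D τ θ σ y : ℝ} (hD : 0 < D) (hτ : 0 < τ) (hτ1 : τ ≤ 1)
    (hθ : |θ| ≤ Sw * Real.sqrt τ) :
    wt τ y * box D τ θ σ y ≤ (|Sw| + 2) ^ 18 * box D τ θ σ y := by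
  rcases eq_or_ne (box D τ θ σ y) 0 with h | h
  · rw [h, mul_zero, mul_zero]
  refine mul_le_mul_of_nonneg_right ?_ (box_nonneg hD.le hτ.le θ σ y)
  obtain ⟨-, hy⟩ := box_supp hD hτ h
  have hs : 0 < Real.sqrt τ := Real.sqrt_pos.2 hτ
  have hτs : τ ≤ Real.sqrt τ :=
    Real.le_sqrt_of_sq_le (by rw [sq]; exact mul_le_of_le_one_left hτ.le hτ1)
  refine pow_le_pow_left₀ (by positivity) ?_ 18
  have h1 : |y| ≤ |θ| + |y - θ| := by simpa using abs_add_le θ (y - θ)
  have h2 : |y| / Real.sqrt τ ≤ |Sw| + 1 := by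
    rw [div_le_iff₀ hs, add_mul, one_mul]
    linarith [mul_le_mul_of_nonneg_right (le_abs_self Sw) hs.le]
  linarith

/-- The box has mass at most a constant. -/
lemma exists_box_mass : ∃ C : ℝ, 0 ≤ C ∧ ∀ D τ θ : ℝ, 0 < D → 0 < τ →
    Integrable (fun p : ℝ × ℝ => box D τ θ p.1 p.2) ∧
      ∫ p : ℝ × ℝ, box D τ θ p.1 p.2 ≤ C := by
  obtain ⟨C, hC, h⟩ := exists_box_moments
  refine ⟨C, hC, fun D τ θ hD hτ => ?_⟩
  have hs := source_box hD hτ θ
  refine ⟨hs.smooth.continuous.integrable_of_hasCompactSupport hs.compact, ?_⟩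
  have := (h D τ θ 0 0 (|θ| + τ) hD hτ (by simp)).1
  simpa [Heat.moment, abs_of_nonneg (box_nonneg hD.le hτ.le θ _ _)] using this

/-- The time integral of the sup bound. -/
lemma integral_time_le {τ N T : ℝ} (hτ : 0 < τ) (hN : 1 ≤ N) (h1 : τ ≤ 2 * T) (h2 : T ≤ N * τ) :
    ∫ σ in Icc 0 (2 * T), (τ + Real.sqrt |σ - τ|)⁻¹ ≤ 4 * Real.sqrt (2 * N) * Real.sqrt τ := by
  set f : ℝ → ℝ := fun σ => (τ + Real.sqrt |σ - τ|)⁻¹ with hf
  have hc : Continuous f := Continuous.inv₀ (by fun_prop)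
    fun σ => (add_pos_of_pos_of_nonneg hτ (Real.sqrt_nonneg _)).ne'
  set g : ℝ → ℝ := fun t => (τ + Real.sqrt t)⁻¹ with hg
  have hgc : Continuous g := Continuous.inv₀ (by fun_prop)
    fun σ => (add_pos_of_pos_of_nonneg hτ (Real.sqrt_nonneg _)).ne'
  have half : ∀ b, 0 ≤ b → b ≤ 2 * N * τ →
      ∫ t in (0 : ℝ)..b, g t ≤ 2 * Real.sqrt (2 * N) * Real.sqrt τ := by
    intro b hb hbN
    refine le_trans (intervalIntegral.integral_mono_on_of_le_Ioo hb (hgc.intervalIntegrable _ _)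
      (Heat.intervalIntegrable_sqrt_inv le_rfl b) fun t ht => ?_) ?_
    · rw [pow_one, one_div]
      exact inv_anti₀ (Real.sqrt_pos.2 ht.1) (le_add_of_nonneg_left hτ.le)
    refine (Heat.integral_sqrt_inv_le le_rfl hb).trans ?_
    rw [show (2 : ℕ) - 1 = 1 from rfl, pow_one, mul_assoc,
      ← Real.sqrt_mul (by linarith : (0 : ℝ) ≤ 2 * N)]
    exact mul_le_mul_of_nonneg_left (Real.sqrt_le_sqrt hbN) zero_le_two
  have e1 : ∫ σ in (0 : ℝ)..τ, f σ = ∫ t in (0 : ℝ)..τ, g t := by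
    rw [← show ∫ σ in (0 : ℝ)..τ, g (τ - σ) = ∫ t in (0 : ℝ)..τ, g t by
      rw [intervalIntegral.integral_comp_sub_left g τ, sub_self, sub_zero]]
    refine intervalIntegral.integral_congr fun σ hσ => ?_
    rw [uIcc_of_le hτ.le] at hσ
    simp only [hf, hg, abs_of_nonpos (sub_nonpos.2 hσ.2), neg_sub]
  have e2 : ∫ σ in τ..(2 * T), f σ = ∫ t in (0 : ℝ)..(2 * T - τ), g t := by
    rw [← show ∫ σ in τ..(2 * T), g (σ - τ) = ∫ t in (0 : ℝ)..(2 * T - τ), g t by
      rw [intervalIntegral.integral_comp_sub_right g τ, sub_self]]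
    refine intervalIntegral.integral_congr fun σ hσ => ?_
    rw [uIcc_of_le h1] at hσ
    simp only [hf, hg, abs_of_nonneg (sub_nonneg.2 hσ.1)]
  rw [integral_Icc_eq_integral_Ioc, ← intervalIntegral.integral_of_le (by linarith),
    ← intervalIntegral.integral_add_adjacent_intervals (hc.intervalIntegrable 0 τ)
      (hc.intervalIntegrable τ _), e1, e2]
  linarith [half τ hτ.le (le_mul_of_one_le_left hτ.le (by linarith)),
    half (2 * T - τ) (by linarith) (by linarith)]

/-- `1 / y²` above `c`. -/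
lemma integral_inv_sq {c : ℝ} (hc : 0 < c) :
    Integrable ((Ici c).indicator fun y : ℝ => (y ^ 2)⁻¹) ∧
      ∫ y, (Ici c).indicator (fun y : ℝ => (y ^ 2)⁻¹) y = c⁻¹ := by
  have e : EqOn (fun y : ℝ => y ^ (-2 : ℝ)) (fun y : ℝ => (y ^ 2)⁻¹) (Ioi c) := fun y hy => by
    have hy0 : 0 < y := hc.trans hy
    simp only [Real.rpow_neg hy0.le]
    norm_cast
  have hi : IntegrableOn (fun y : ℝ => (y ^ 2)⁻¹) (Ici c) := by
    rw [integrableOn_Ici_iff_integrableOn_Ioi]
    exact (integrableOn_Ioi_rpow_of_lt (by norm_num) hc).congr_fun e measurableSet_Ioi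
  refine ⟨hi.integrable_indicator measurableSet_Ici, ?_⟩
  rw [integral_indicator measurableSet_Ici, integral_Ici_eq_integral_Ioi,
    ← setIntegral_congr_fun measurableSet_Ioi e, integral_Ioi_rpow_of_lt (by norm_num) hc]
  rw [show (-2 : ℝ) + 1 = -1 by norm_num, Real.rpow_neg_one, neg_div_neg_eq, div_one]

/-- The integrals of the majorants. -/
theorem exMajor_int (hP : PotBoundStmt) : ExMajorStmt := by
  intro κ Sw N hκ hSw hN
  obtain ⟨C, hC, hb⟩ := hP κ Sw N hκ hSw hN
  obtain ⟨Cb, hCb, hbox⟩ := exists_box_mass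
  refine ⟨7 * C + (|Sw| + 2) ^ 18 * Cb + C * (4 * Real.sqrt (2 * N)), by positivity,
    fun D τ θ T hW => ?_⟩
  obtain ⟨hpt, iP, iY, iT, iYY, iTT⟩ := hb D τ θ T hW
  obtain ⟨hτ, hθ, hT1, hT2, hD, hbD, hsmall⟩ := hW
  have hD0 : 0 < D := by linarith
  have hτ1 : τ ≤ 1 := by linarith
  obtain ⟨jP, jY, jT, jYY, jTT⟩ := boxPot_integrable hκ hD0 hτ θ (2 * T)
  obtain ⟨jB, iB⟩ := hbox D τ θ hD0 hτ
  set P := boxPot κ D τ θ with hPdef
  set Ω := Iic (2 * T) ×ˢ (univ : Set ℝ) with hΩ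
  have hsub : Icc 0 (2 * T) ×ˢ (univ : Set ℝ) ⊆ Ω := prod_mono_left fun σ hσ => hσ.2
  set F : ℝ × ℝ → ℝ := fun p => wt τ p.2 * |P p.1 p.2| / τ +
    wt τ p.2 * |Heat.dY P p.1 p.2| / Real.sqrt τ +
    τ ^ 2 * (wt τ p.2 * |Heat.dT (Heat.dT P) p.1 p.2|) +
    τ * (wt τ p.2 * |Heat.dT P p.1 p.2|) + τ * (wt τ p.2 * |Heat.dY (Heat.dY P) p.1 p.2|) +
    (|Sw| + 2) ^ 18 * box D τ θ p.1 p.2 with hF
  have k1 := jP.div_const τ
  have k2 := jY.div_const (Real.sqrt τ)
  have k3 := jTT.const_mul (τ ^ 2)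
  have k4 := jT.const_mul τ
  have k5 := jYY.const_mul τ
  have k6 := (jB.integrableOn (s := Ω)).const_mul ((|Sw| + 2) ^ 18)
  have k12 := k1.fun_add k2
  have k123 := k12.fun_add k3
  have k1234 := k123.fun_add k4
  have k12345 := k1234.fun_add k5
  have hFi : IntegrableOn F Ω := k12345.fun_add k6
  have hb0 : ∀ p : ℝ × ℝ, 0 ≤ box D τ θ p.1 p.2 := fun p => box_nonneg hD0.le hτ.le θ _ _
  have hF0 : ∀ p, 0 ≤ F p := fun p => by
    have := hb0 p
    have := wt_nonneg τ p.2
    positivity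
  have hle : ∀ p, exMajor κ D τ θ p ≤ F p := fun p => by
    have := wt_box_le (σ := p.1) (y := p.2) hD0 hτ hτ1 hθ
    simp only [exMajor, hF, ← hPdef]
    refine le_trans (le_of_eq ?_) (add_le_add le_rfl this)
    ring
  have h0 : ∀ p, 0 ≤ exMajor κ D τ θ p := fun p => by
    have := hb0 p
    exact mul_nonneg (wt_nonneg _ _) (by positivity)
  have hmeas : AEStronglyMeasurable (exMajor κ D τ θ) (volume.restrict Ω) := by
    refine ((((k12345.aestronglyMeasurable).add
      ((Continuous.aestronglyMeasurable (f := fun p : ℝ × ℝ => wt τ p.2) (by unfold wt; fun_prop)).mul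
        (jB.aestronglyMeasurable.restrict (s := Ω)))))).congr (Eventually.of_forall fun p => ?_)
    simp only [exMajor, ← hPdef, Pi.add_apply, Pi.mul_apply]
    ring
  have hEi : IntegrableOn (exMajor κ D τ θ) Ω := hFi.mono' hmeas
    (Eventually.of_forall fun p => by rw [Real.norm_eq_abs, abs_of_nonneg (h0 p)]; exact hle p)
  have hmI : AEStronglyMeasurable (fun p : ℝ × ℝ => |P p.1 p.2|)
      (volume.restrict (Icc 0 (2 * T) ×ˢ univ)) := by
    refine (((Continuous.aestronglyMeasurable (f := fun p : ℝ × ℝ => (wt τ p.2)⁻¹) ?_).mul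
      (jP.mono_set hsub).aestronglyMeasurable)).congr (Eventually.of_forall fun p => ?_)
    · exact Continuous.inv₀ (by unfold wt; fun_prop) fun p => by unfold wt; positivity
    · have : wt τ p.2 ≠ 0 := by unfold wt; positivity
      simp only [Pi.mul_apply]
      field_simp
  refine ⟨hEi.mono_set hsub, ?_⟩
  set g : ℝ → ℝ := (Ici (τ ^ 2)).indicator fun y => (y ^ 2)⁻¹ with hg
  set h : ℝ → ℝ := fun σ => C * D * (τ + Real.sqrt |σ - τ|)⁻¹ with hh
  obtain ⟨hgi, hgv⟩ := integral_inv_sq (c := τ ^ 2) (by positivity)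
  have hhc : Continuous h := continuous_const.mul (Continuous.inv₀ (by fun_prop)
    fun σ => (add_pos_of_pos_of_nonneg hτ (Real.sqrt_nonneg _)).ne')
  have emeas : (volume : Measure (ℝ × ℝ)).restrict (Icc 0 (2 * T) ×ˢ univ) =
      ((volume : Measure ℝ).restrict (Icc 0 (2 * T))).prod volume := by
    rw [Measure.volume_eq_prod, ← Measure.prod_restrict, Measure.restrict_univ]
  have hGi : IntegrableOn (fun p : ℝ × ℝ => h p.1 * g p.2) (Icc 0 (2 * T) ×ˢ univ) := by
    rw [IntegrableOn, emeas]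
    exact (hhc.continuousOn.integrableOn_Icc).mul_prod hgi
  have s0 : ∀ p : ℝ × ℝ, 0 ≤ exSing κ D τ θ p := fun p => by
    unfold exSing; split_ifs <;> positivity
  have hsle : ∀ p ∈ Icc 0 (2 * T) ×ˢ (univ : Set ℝ), exSing κ D τ θ p ≤ h p.1 * g p.2 := by
    rintro ⟨σ, y⟩ ⟨hσ, -⟩
    simp only [exSing, hg, hh, ← hPdef]
    by_cases hy : τ ^ 2 ≤ y
    · rw [if_pos hy, Set.indicator_of_mem (show y ∈ Ici (τ ^ 2) from hy), ← div_eq_mul_inv]
      refine div_le_div_of_nonneg_right (le_trans ?_ ((hpt σ y).2 hσ.2).1) (sq_nonneg y)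
      rw [abs_of_nonneg (hpt σ y).1]
      exact le_mul_of_one_le_left (hpt σ y).1
        (one_le_pow₀ (le_add_of_nonneg_right (by positivity)))
    · rw [if_neg hy, Set.indicator_of_notMem (show y ∉ Ici (τ ^ 2) from hy), mul_zero]
  have hms : MeasurableSet (Icc 0 (2 * T) ×ˢ (univ : Set ℝ)) :=
    measurableSet_Icc.prod MeasurableSet.univ
  have hSi : IntegrableOn (exSing κ D τ θ) (Icc 0 (2 * T) ×ˢ univ) := by
    refine hGi.mono' ?_ (ae_restrict_of_forall_mem hms fun p hp => by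
      rw [Real.norm_eq_abs, abs_of_nonneg (s0 p)]; exact hsle p hp)
    refine (((hmI.aemeasurable.div (by fun_prop : Measurable fun p : ℝ × ℝ => p.2 ^ 2).aemeasurable
      ).indicator (s := {p : ℝ × ℝ | τ ^ 2 ≤ p.2})
        (measurableSet_le measurable_const measurable_snd)).aestronglyMeasurable).congr
      (Eventually.of_forall fun p => ?_)
    simp [exSing, Set.indicator_apply, ← hPdef]
  refine ⟨hSi, ?_, ?_⟩
  · refine ((setIntegral_mono_set hEi (Eventually.of_forall h0)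
      hsub.eventuallyLE).trans ?_)
    refine (integral_mono hEi hFi hle).trans ?_
    simp only [hF]
    rw [integral_add k12345 k6, integral_add k1234 k5, integral_add k123 k4, integral_add k12 k3,
      integral_add k1 k2, integral_div, integral_div, integral_const_mul, integral_const_mul,
      integral_const_mul, integral_const_mul]
    have hlog : τ * |Real.log τ| ≤ D := by
      have := Real.abs_log_mul_self_lt τ hτ hτ1
      rw [abs_mul, abs_of_pos hτ] at this
      linarith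
    have hC2 : ∀ X, X ≤ C * (D + |Real.log τ|) → τ * X ≤ C * (2 * D) := fun X hX => by
      refine (mul_le_mul_of_nonneg_left hX hτ.le).trans ?_
      rw [show τ * (C * (D + |Real.log τ|)) = C * (τ * D + τ * |Real.log τ|) by ring]
      refine mul_le_mul_of_nonneg_left ?_ hC
      linarith [mul_le_of_le_one_left hD0.le hτ1]
    have a1 := (div_le_iff₀ hτ).2 iP
    have a2 := (div_le_iff₀ (Real.sqrt_pos.2 hτ)).2 iY
    have a3 : τ ^ 2 * ∫ p in Ω, wt τ p.2 * |Heat.dT (Heat.dT P) p.1 p.2| ≤ C * D := by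
      refine (mul_le_mul_of_nonneg_left iTT (sq_nonneg τ)).trans ?_
      rw [show τ ^ 2 * (C / (D * τ ^ 2)) = C / D by field_simp]
      exact (div_le_self hC hD).trans (le_mul_of_one_le_right hC hD)
    have a4 := hC2 _ iT
    have a5 := hC2 _ iYY
    have a6 : (|Sw| + 2) ^ 18 * ∫ p in Ω, box D τ θ p.1 p.2 ≤ (|Sw| + 2) ^ 18 * Cb * D := by
      refine le_trans ?_ (le_mul_of_one_le_right (by positivity) hD)
      exact mul_le_mul_of_nonneg_left
        ((setIntegral_le_integral jB (Eventually.of_forall hb0)).trans iB) (by positivity)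
    have : 0 ≤ C * (4 * Real.sqrt (2 * N)) * D := by positivity
    have := le_mul_of_one_le_right hC hD
    linarith
  · refine (setIntegral_mono_on hSi hGi hms hsle).trans ?_
    rw [emeas, integral_prod_mul h g, hgv, hh, integral_const_mul, div_eq_mul_inv]
    refine mul_le_mul_of_nonneg_right ?_ (by positivity)
    refine (mul_le_mul_of_nonneg_left (integral_time_le hτ (by linarith) (by linarith) hT2)
      (by positivity)).trans ?_
    rw [show C * D * (4 * Real.sqrt (2 * N) * Real.sqrt τ) =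
      C * (4 * Real.sqrt (2 * N)) * (D * Real.sqrt τ) by ring, mul_assoc (_ + _) D]
    refine mul_le_mul_of_nonneg_right (le_add_of_nonneg_left ?_) (by positivity)
    positivity

end Vale.Agent.P363.Ext.Growth
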