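import Vale.Agent.P363.Ext.Growth.JumpSpec
import Vale.Agent.P363.Ext.Growth.Basic
import Vale.Agent.P363.Ext.Budget
import Vale.Agent.P363.Ext.Polar
import Vale.Agent.P363.Ext.Heat.Jump

/-!
P363, Kohn-Sham side, `GrowthStmt`: the budget identity tested with functions of `(1 / r, z / r)`
supported in the upper half: the excess `X - W` is paid by the heat operator on the test.
-/

noncomputable section

namespace Vale.Agent.P363.Ext.Growth

open MeasureTheory Filter Set
open scoped BigOperators Topology ContDiff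

/-- The reduced excess in the time `1 / r`. -/
def exr (S : Setup) (σ y : ℝ) : ℝ := tred S (excess S) σ y

/-- The heat operator with its curvature part. -/
def fullOp (a k : ℝ) (Z : ℝ → ℝ → ℝ) (σ y : ℝ) : ℝ :=
  Heat.dY (Heat.dY Z) σ y - 2 * a * Heat.dT Z σ y + Heat.timeOp a k Z σ y

lemma excess_rot (S : Setup) (φ : ℝ) (x : Space) : excess S (rot φ x) = excess S x := by
  rw [excess, excess, S.data.axial.1, S.rot_u]

lemma continuous_excess (S : Setup) : Continuous (excess S) :=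
  S.data.continuous.sqrt.sub S.cont_u

/-- The test on space of a test in `(1 / r, z / r)`. -/
def spaceTest (S : Setup) (Z : ℝ → ℝ → ℝ) (x : Space) : ℝ :=
  lift S.a S.k (fun r y => Z r⁻¹ y) ‖x‖ (height x / ‖x‖)

/-- The excess is paid by the operator on the test. -/
theorem budget_test (S : Setup) : ∃ C R₂ : ℝ, 0 ≤ C ∧ S.R₁ < R₂ ∧
    ∀ (Z : ℝ → ℝ → ℝ) (σ₀ σ₁ y₀ y₁ : ℝ), ContDiff ℝ ∞ (Function.uncurry Z) →
      (∀ σ y, 0 ≤ Z σ y) → (∀ σ y, Z σ y ≠ 0 → σ ∈ Icc σ₀ σ₁ ∧ y ∈ Icc y₀ y₁) →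
      0 < σ₀ → σ₀ ≤ σ₁ → R₂ * σ₁ ≤ 1 → 0 < y₀ → y₁ ≤ 1 / 4 →
      Integrable (fun x => spaceTest S Z x * (2 * (S.X x - S.W x) * S.φu x)) ∧
      Integrable (fun p : ℝ × ℝ => exr S p.1 p.2 *
        (|fullOp S.a S.k Z p.1 p.2| + C * Z p.1 p.2)) ∧
      ∫ x, spaceTest S Z x * (2 * (S.X x - S.W x) * S.φu x) ≤
        2 * Real.pi * ∫ p : ℝ × ℝ, exr S p.1 p.2 *
          (|fullOp S.a S.k Z p.1 p.2| + C * Z p.1 p.2) := by
  have hR1 := one_le_R₁ S
  refine ⟨|(S.k / S.a - 1) * (S.k / S.a)| + 2 * |S.C|, S.R₁ + 1, by positivity, by linarith,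
    fun Z σ₀ σ₁ y₀ y₁ hZ hZ0 hsupp hσ₀ hσle hσ₁ hy₀ hy₁ => ?_⟩
  set C' := |(S.k / S.a - 1) * (S.k / S.a)| + 2 * |S.C| with hC'
  set ζ₂ : ℝ → ℝ → ℝ := fun r y => Z r⁻¹ y with hζ₂
  -- the support in `(r, y)`
  set B : Set (ℝ × ℝ) := Icc σ₁⁻¹ σ₀⁻¹ ×ˢ Icc y₀ y₁ with hB
  have hBc : IsCompact B := isCompact_Icc.prod isCompact_Icc
  have hzero : ∀ p ∉ B, Function.uncurry ζ₂ p = 0 := by
    intro p hp
    by_contra hne
    obtain ⟨hσ, hy⟩ := hsupp _ _ hne
    refine hp ⟨?_, hy⟩
    have hpos : 0 < p.1⁻¹ := hσ₀.trans_le hσ.1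
    constructor
    · rw [← inv_inv p.1]; exact inv_anti₀ hpos hσ.2
    · rw [← inv_inv p.1]; exact inv_anti₀ hσ₀ hσ.1
  have hts : tsupport (Function.uncurry ζ₂) ⊆ B :=
    closure_minimal (fun p hp => by_contra fun h => hp (hzero p h)) hBc.isClosed
  have hσ10 : 0 < σ₁ := hσ₀.trans_le hσle
  have hBs : B ⊆ {p | S.R₁ < p.1 ∧ 2 * |p.2| < 1} := by
    rintro p ⟨⟨h1, h2⟩, h3, h4⟩
    refine ⟨?_, by rw [abs_of_pos (hy₀.trans_le h3)]; linarith⟩
    have : S.R₁ + 1 ≤ σ₁⁻¹ := by rwa [inv_eq_one_div, le_div_iff₀ hσ10]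
    linarith
  have hbelt : B ⊆ sector S.R₁ := hBs
  have hBpos : ∀ p ∈ B, 0 < p.1 := fun p hp => lt_trans (by linarith) (hBs hp).1
  -- smoothness of the test in `r` and of its lift
  have smooth : ∀ g : ℝ × ℝ → ℝ, (∀ p, 0 < p.1 → ContDiffAt ℝ ∞ g p) → (∀ p ∉ B, g p = 0) →
      ContDiff ℝ ∞ g := fun g hg h0 => by
    refine contDiff_iff_contDiffAt.2 fun p => ?_
    by_cases hp : p ∈ B
    · exact hg p (hBpos p hp)
    · exact (contDiffAt_const (c := (0 : ℝ))).congr_of_eventuallyEq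
        (eventually_of_mem (hBc.isClosed.isOpen_compl.mem_nhds hp) fun q hq => h0 q hq)
  have hζd : ∀ p : ℝ × ℝ, 0 < p.1 → ContDiffAt ℝ ∞ (Function.uncurry ζ₂) p := fun p hp =>
    hZ.contDiffAt.comp p ((contDiffAt_fst.inv hp.ne').prodMk contDiffAt_snd)
  have hζsm := smooth _ hζd hzero
  have hFsm : ContDiff ℝ ∞ (Function.uncurry (lift S.a S.k ζ₂)) :=
    smooth _ (fun p hp => (hζd p hp).mul
      ((contDiffAt_polWeight S.a S.k hp).comp p contDiffAt_fst))
      fun p hp => by
        show ζ₂ p.1 p.2 * _ = 0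
        rw [show ζ₂ p.1 p.2 = 0 from hzero p hp, zero_mul]
  have hζ2 : ContDiff ℝ 2 (Function.uncurry ζ₂) := hζsm.of_le (by norm_cast)
  have hF2 : ContDiff ℝ 2 (Function.uncurry (lift S.a S.k ζ₂)) := hFsm.of_le (by norm_cast)
  have hlift0 : ∀ p ∉ B, Function.uncurry (lift S.a S.k ζ₂) p = 0 := fun p hp => by
    show ζ₂ p.1 p.2 * _ = 0
    rw [show ζ₂ p.1 p.2 = 0 from hzero p hp, zero_mul]
  have hFts : tsupport (Function.uncurry (lift S.a S.k ζ₂)) ⊆ B :=
    closure_minimal (fun p hp => by_contra fun h => hp (hlift0 p h)) hBc.isClosed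
  have hFc : HasCompactSupport (Function.uncurry (lift S.a S.k ζ₂)) :=
    HasCompactSupport.intro hBc hlift0
  obtain ⟨-, hsc, hsb⟩ := polar_test (R := S.R₁) (by linarith) hF2 hFc (hFts.trans hBs)
  set ζ := spaceTest S Z with hζ
  have hζdef : ζ = fun x : Space => lift S.a S.k ζ₂ ‖x‖ (height x / ‖x‖) := rfl
  have hne : ∀ x ∈ tsupport ζ, x ≠ 0 := fun x hx h0 => by
    have := (hsb hx).1
    rw [h0, norm_zero] at this
    linarith
  have hmap : ∀ x ∈ tsupport ζ, polMap x ∈ B := by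
    intro x hx
    by_contra hn
    have hc : ContinuousAt polMap x :=
      continuous_norm.continuousAt.prodMk ((contHeight.continuousAt).div
        continuous_norm.continuousAt (norm_ne_zero_iff.2 (hne x hx)))
    have hev : ζ =ᶠ[𝓝 x] fun _ => 0 :=
      (hc.eventually_mem (hBc.isClosed.isOpen_compl.mem_nhds hn)).mono fun y hy =>
        hlift0 (polMap y) hy
    exact (notMem_tsupport_iff_eventuallyEq.2 hev) hx
  have hbump : IsBump {x | x ∈ far S.R₁ ∧ 0 < height x} ζ := by
    refine ⟨contDiff_iff_contDiffAt.2 fun x => ?_, hsc, fun x hx => ?_⟩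
    · by_cases hx : x ∈ tsupport ζ
      · exact hFsm.contDiffAt.comp x ((contDiffAt_norm ℝ (hne x hx)).prodMk
          (((EuclideanSpace.proj (2 : Fin 3) : Space →L[ℝ] ℝ).contDiff.contDiffAt).div
            (contDiffAt_norm ℝ (hne x hx)) (norm_ne_zero_iff.2 (hne x hx))))
      · exact contDiffAt_const.congr_of_eventuallyEq (notMem_tsupport_iff_eventuallyEq.1 hx)
    · have h2 : y₀ ≤ height x / ‖x‖ := (hmap x hx).2.1
      refine ⟨(hsb hx).1, ?_⟩
      have hr : 0 < ‖x‖ := norm_pos_iff.2 (hne x hx)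
      exact (div_pos_iff_of_pos_right hr).1 (hy₀.trans_le h2)
  obtain ⟨hint, heq⟩ := budget S ζ hbump
  -- the majorant on the meridian
  set H : ℝ × ℝ → ℝ := fun p => |fullOp S.a S.k Z p.1 p.2| + C' * Z p.1 p.2 with hH
  have hHc : Continuous H := by
    have h1 : ((1 : WithTop ℕ∞) + 1 ≤ 2) := le_of_eq (by norm_num)
    have hZ2 : ContDiffOn ℝ 2 (Function.uncurry Z) univ := (hZ.of_le (by norm_cast)).contDiffOn
    have a : Continuous (Function.uncurry (Heat.dY (Heat.dY Z))) := continuousOn_univ.1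
      (Heat.contDiffOn_dY (m := 0) (le_of_eq (zero_add 1)) isOpen_univ
        (Heat.contDiffOn_dY h1 isOpen_univ hZ2)).continuousOn
    have b : Continuous (Function.uncurry (Heat.dT Z)) :=
      continuousOn_univ.1 (Heat.contDiffOn_dT h1 isOpen_univ hZ2).continuousOn
    have c : Continuous (Function.uncurry (Heat.timeOp S.a S.k Z)) :=
      continuousOn_univ.1 (Heat.contDiffOn_timeOp S.a S.k isOpen_univ hZ2)
    have d : Continuous (Function.uncurry Z) := hZ.continuous
    exact ((a.sub (continuous_const.mul b)).add c).abs.add (continuous_const.mul d)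
  have hH0 : ∀ p : ℝ × ℝ, p ∉ Icc σ₀ σ₁ ×ˢ Icc y₀ y₁ → H p = 0 := by
    intro p hp
    have hev : ∀ᶠ q in 𝓝 p, Z q.1 q.2 = 0 :=
      eventually_of_mem ((isClosed_Icc.prod isClosed_Icc).isOpen_compl.mem_nhds hp) fun q hq => by
        by_contra h; exact hq (hsupp _ _ h)
    have hT : ∀ᶠ q in 𝓝 p, Heat.dT Z q.1 q.2 = 0 :=
      hev.eventually_nhds.mono fun q hq => HasDerivAt.deriv
        ((hasDerivAt_const q.1 (0 : ℝ)).congr_of_eventuallyEq
          ((continuous_id.prodMk continuous_const).continuousAt.eventually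
            (show ∀ᶠ w in 𝓝 (id q.1, q.2), Z w.1 w.2 = 0 from hq)))
    have hY : ∀ᶠ q in 𝓝 p, Heat.dY Z q.1 q.2 = 0 :=
      hev.eventually_nhds.mono fun q hq => HasDerivAt.deriv
        ((hasDerivAt_const q.2 (0 : ℝ)).congr_of_eventuallyEq
          ((continuous_const.prodMk continuous_id).continuousAt.eventually
            (show ∀ᶠ w in 𝓝 (q.1, id q.2), Z w.1 w.2 = 0 from hq)))
    have hTT : Heat.dT (Heat.dT Z) p.1 p.2 = 0 := HasDerivAt.deriv
      ((hasDerivAt_const p.1 (0 : ℝ)).congr_of_eventuallyEq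
        ((continuous_id.prodMk continuous_const).continuousAt.eventually
          (show ∀ᶠ w in 𝓝 (id p.1, p.2), Heat.dT Z w.1 w.2 = 0 from hT)))
    have hYY : Heat.dY (Heat.dY Z) p.1 p.2 = 0 := HasDerivAt.deriv
      ((hasDerivAt_const p.2 (0 : ℝ)).congr_of_eventuallyEq
        ((continuous_const.prodMk continuous_id).continuousAt.eventually
          (show ∀ᶠ w in 𝓝 (p.1, id p.2), Heat.dY Z w.1 w.2 = 0 from hY)))
    simp [hH, fullOp, Heat.timeOp, hev.self_of_nhds, hT.self_of_nhds, hY.self_of_nhds, hTT, hYY]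
  set E : ℝ × ℝ → ℝ := fun p => red S.a S.k (excess S) p.1 p.2 * H (p.1⁻¹, p.2) / p.1 ^ 4 with hE
  have hcexc : ContinuousOn (excess S) (belt S.R₁) := (continuous_excess S).continuousOn
  have hE0 : ∀ p ∉ B, E p = 0 := fun p hp => by
    have : H (p.1⁻¹, p.2) = 0 := hH0 _ fun h => hp (by
      obtain ⟨⟨h1, h2⟩, h3⟩ := h
      refine ⟨⟨?_, ?_⟩, h3⟩
      · rw [← inv_inv p.1]; exact inv_anti₀ (hσ₀.trans_le h1) h2
      · rw [← inv_inv p.1]; exact inv_anti₀ hσ₀ h1)
    simp [hE, this]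
  have hEc : Continuous E := continuous_of_supp (isOpen_sector S.R₁) hBc.isClosed hbelt
    (((continuousOn_red (by linarith) hcexc).mul (hHc.comp_continuousOn
      ((continuousOn_fst.inv₀ fun p hp => (lt_trans (by linarith) hp.1).ne').prodMk
        continuousOn_snd))).div (continuousOn_fst.pow 4)
      fun p hp => pow_ne_zero 4 (lt_trans (by linarith) hp.1).ne') hE0
  have hEi : Integrable fun x => E (polMap x) :=
    (integral_polMap hEc.measurable).1.2
      (integrable_of_supp hBc ((continuous_fst.pow 2).mul hEc)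
        fun p hp => by simp [hE0 p hp]).integrableOn
  have hV : IsOpen (Ioo 0 S.R₁⁻¹ ×ˢ Ioo (-(1 / 2 : ℝ)) (1 / 2)) := isOpen_Ioo.prod isOpen_Ioo
  have hbox : Icc σ₀ σ₁ ×ˢ Icc y₀ y₁ ⊆ Ioo 0 S.R₁⁻¹ ×ˢ Ioo (-(1 / 2 : ℝ)) (1 / 2) := by
    rintro p ⟨⟨h1, h2⟩, h3, h4⟩
    refine ⟨⟨hσ₀.trans_le h1, ?_⟩, by linarith, by linarith⟩
    rw [inv_eq_one_div, lt_div_iff₀ (by linarith)]
    have := mul_le_mul_of_nonneg_left h2 (show 0 ≤ S.R₁ + 1 by linarith)
    nlinarith [hσ₀.trans_le h1]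
  refine ⟨hint, Heat.integrable_of_zero_off hV (isCompact_Icc.prod isCompact_Icc) hbox
    ((Heat.continuousOn_red hR1 hcexc).mul hHc.continuousOn)
    (fun p hp => mul_eq_zero_of_right _ (hH0 p hp)), ?_⟩
  -- the pointwise comparison
  have hle : ∀ᵐ x : Space, (Real.sqrt (S.n x) - S.φu x) *
      (lap ζ x - 2 * (S.X x + farPot S.a S.k ‖x‖) * ζ x) ≤ E (polMap x) := by
    filter_upwards [S.data.defect_lower] with x hX
    by_cases hx : x ∈ tsupport ζ
    swap
    · have hev := notMem_tsupport_iff_eventuallyEq.1 hx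
      have hz : ζ x = 0 := hev.self_of_nhds
      have hl : lap ζ x = 0 := image_eq_zero_of_notMem_tsupport
        fun h => hx (tsupport_lap ζ h)
      rw [hz, hl, mul_zero, sub_zero, mul_zero]
      by_cases hB' : polMap x ∈ B
      · have hp := hBs hB'
        refine div_nonneg (mul_nonneg ?_ ?_) (by positivity)
        · exact div_nonneg (excess_nonneg S _)
            (mul_nonneg (hBpos _ hB').le (tailG_pos _ _ (hBpos _ hB')).le)
        · exact add_nonneg (abs_nonneg _) (mul_nonneg (by positivity) (hZ0 _ _))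
      · exact (hE0 _ hB').ge
    have hx0 := hne x hx
    have hr : 0 < ‖x‖ := norm_pos_iff.2 hx0
    have hmR : S.R₁ < ‖x‖ := (hsb hx).1
    set r := ‖x‖ with hr'
    set y := height x / r with hy'
    have hs : Real.sqrt (S.n x) - S.φu x =
        red S.a S.k (excess S) r y * (r * tailG S.a S.k r) := by
      have h := comp_polMap (excess_rot S) x
      simp only [polMap, ← hr', ← hy'] at h
      rw [red, h, div_mul_cancel₀]
      · rfl
      · exact mul_ne_zero hr.ne' (tailG_pos _ _ hr).ne'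
    have hlap : lap ζ x = polWeight S.a S.k r *
        (fullOp S.a S.k Z r⁻¹ y / r ^ 2 + polLam S.a S.k r * Z r⁻¹ y) := by
      rw [hζdef, lap_polar hF2 hx0, ← hr', ← hy', lap_lift S.data.a_pos.ne' hζ2 hr,
        Heat.polarInv S.a S.k Z (hZ.of_le (by norm_cast)) r y hr]
      rfl
    have hζx : ζ x = Z r⁻¹ y * polWeight S.a S.k r := rfl
    set D := red S.a S.k (excess S) r y
    set F := fullOp S.a S.k Z r⁻¹ y
    set z := Z r⁻¹ y
    have hz : 0 ≤ z := hZ0 _ _
    have hD : 0 ≤ D := div_nonneg (excess_nonneg S _) (mul_pos hr (tailG_pos _ _ hr)).le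
    have hXl := hX (le_trans S.R₀_le hmR.le)
    have hkey : F + ((S.k / S.a - 1) * (S.k / S.a) - 2 * S.X x * r ^ 2) * z ≤ |F| + C' * z := by
      refine add_le_add (le_abs_self F) (mul_le_mul_of_nonneg_right ?_ hz)
      have h1 : -(|S.C|) ≤ S.X x * r ^ 2 := by
        have h2 : -(|S.C| / r ^ 2) ≤ S.X x :=
          (neg_le_neg (div_le_div_of_nonneg_right (le_abs_self S.C) (sq_nonneg r))).trans hXl
        rw [← neg_div, div_le_iff₀ (by positivity)] at h2
        exact h2
      rw [hC']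
      linarith [le_abs_self ((S.k / S.a - 1) * (S.k / S.a))]
    calc (Real.sqrt (S.n x) - S.φu x) * (lap ζ x - 2 * (S.X x + farPot S.a S.k r) * ζ x)
        = D * (r ^ 2 * polWeight S.a S.k r * (r * tailG S.a S.k r)) *
          ((F + ((S.k / S.a - 1) * (S.k / S.a) - 2 * S.X x * r ^ 2) * z) / r ^ 4) := by
          rw [hs, hlap, hζx, polLam, shift]
          field_simp
          ring
      _ ≤ D * (r ^ 2 * polWeight S.a S.k r * (r * tailG S.a S.k r)) *
          ((|F| + C' * z) / r ^ 4) := by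
          have := tailG_pos S.a S.k hr
          have : 0 ≤ polWeight S.a S.k r := by unfold polWeight; positivity
          exact mul_le_mul_of_nonneg_left (div_le_div_of_nonneg_right hkey (by positivity))
            (by positivity)
      _ = E (polMap x) := by
          rw [sq_mul_polWeight _ _ hr, inv_mul_cancel₀
            (mul_pos hr (tailG_pos _ _ hr)).ne', mul_one]
          simp only [hE, hH, polMap, ← hr', ← hy']
          ring
  rw [heq]
  have hRHS : Integrable fun x => (Real.sqrt (S.n x) - S.φu x) *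
      (lap ζ x - 2 * (S.X x + farPot S.a S.k ‖x‖) * ζ x) := by
    have hs := sqrtStmt S
    have i1 : Integrable fun x => (Real.sqrt (S.n x) - S.φu x) * lap ζ x :=
      ((S.data.continuous.sqrt.sub S.cont_u).mul hbump.lap_continuous).integrable_of_hasCompactSupport
        (hasCompactSupport_lap hbump.compact).mul_left
    have hb : IsBump (far S.R₁) ζ := hbump.mono fun x hx => hx.1
    have hq : Continuous fun x => (1 - S.φu x / Real.sqrt (S.n x)) * ζ x :=
      ((continuous_const.sub (S.cont_u.div S.data.continuous.sqrt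
        fun x => (S.sqrt_pos x).ne')).mul hb.continuous)
    have i2 := integrable_mul_of_tsupport hs.2.1 hq hb.compact.mul_left
      (tsupport_mul_subset_right.trans hb.supp)
    refine (i1.sub i2).congr (Eventually.of_forall fun x => ?_)
    have := (S.sqrt_pos x).ne'
    simp only [Pi.sub_apply]
    field_simp
  refine (integral_mono_ae hRHS hEi hle).trans (le_of_eq ?_)
  rw [(integral_polMap hEc.measurable).2,
    setIntegral_eq_integral_of_forall_compl_eq_zero fun p hp => by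
      rw [hE0 p fun h => hp (sector_subset_strip (by linarith) (hbelt h)), mul_zero],
    Heat.integral_inv_fst _ fun p hp => by
      rw [hE0 p fun h => absurd (hBpos p h) (not_lt.2 hp), mul_zero]]
  congr 1
  refine integral_congr_ae (Eventually.of_forall fun p => ?_)
  rcases eq_or_ne p.1 0 with h0 | h0
  · have h1 : H p = 0 := hH0 p fun h => by
      have := hσ₀.trans_le h.1.1
      linarith
    simp only [show |fullOp S.a S.k Z p.1 p.2| + C' * Z p.1 p.2 = 0 from h1, mul_zero]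
    simp [hE, h0]
  · simp only [hE, exr, tred, hH, inv_inv]
    field_simp

end Vale.Agent.P363.Ext.Growth
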