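import Vale.Agent.P363.Ext.Growth.ExcessCoef
import Vale.Agent.P363.Ext.Growth.ExcessTest

/-!
P363, Kohn-Sham side, `ExcessStmt`: the test `φ (σ) a (y) P (σ, y)` and the excess against its
operator.
-/

noncomputable section

namespace Vale.Agent.P363.Ext.Growth

open MeasureTheory Filter Set
open scoped BigOperators Topology ContDiff

/-- The coefficient: the weight cut between `7 e / 8` and `4 δ`. -/
def exCoef (K M c τ η e δ y : ℝ) : ℝ :=
  step01 (8 / e) (-7) y * step01 (-(1 / (2 * δ))) 2 y * wgt K M c τ η y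

/-- The test. -/
def exTest (a : ℝ → ℝ) (T : ℝ) (P : ℝ → ℝ → ℝ) (σ y : ℝ) : ℝ :=
  step01 (-(2 / T)) 5 σ * (a y * P σ y)

lemma contDiff_step01 (p q : ℝ) : ContDiff ℝ ∞ (step01 p q) :=
  Real.smoothTransition.contDiff.comp ((contDiff_const.mul contDiff_id).add contDiff_const)

lemma step01_zero {p q y : ℝ} (h : p * y + q ≤ 0) : step01 p q y = 0 :=
  Real.smoothTransition.zero_of_nonpos h

lemma step01_one {p q y : ℝ} (h : 1 ≤ p * y + q) : step01 p q y = 1 :=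
  Real.smoothTransition.one_of_one_le h

variable {K M c τ η e δ y : ℝ}

lemma exCoef_zero_left (he : 0 < e) (hy : 8 * y ≤ 7 * e) : exCoef K M c τ η e δ y = 0 := by
  rw [exCoef, step01_zero (p := 8 / e) (q := -7), zero_mul, zero_mul]
  rw [div_mul_eq_mul_div, ← sub_eq_add_neg, sub_nonpos, div_le_iff₀ he]
  linarith

lemma exCoef_zero_right (hδ : 0 < δ) (hy : 4 * δ ≤ y) : exCoef K M c τ η e δ y = 0 := by
  rw [exCoef, step01_zero (p := -(1 / (2 * δ))) (q := 2), mul_zero, zero_mul]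
  rw [neg_mul, ← sub_eq_neg_add, sub_nonpos, one_div_mul_eq_div, le_div_iff₀ (by positivity)]
  linarith

lemma exCoef_one (he : 0 < e) (hδ : 0 < δ) (h1 : e ≤ y) (h2 : y ≤ 2 * δ) :
    exCoef K M c τ η e δ y = wgt K M c τ η y := by
  rw [exCoef, step01_one, step01_one, one_mul, one_mul]
  · rw [neg_mul, ← sub_eq_neg_add, le_sub_comm, one_div_mul_eq_div, div_le_iff₀ (by positivity)]
    linarith
  · rw [div_mul_eq_mul_div, ← sub_eq_add_neg, le_sub_iff_add_le, le_div_iff₀ he]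
    linarith

lemma exCoef_nonneg (hK : 0 ≤ K) (hM : 0 ≤ M) (hc : 0 ≤ c) (hη : 0 ≤ η) (he : 0 < e) (y : ℝ) :
    0 ≤ exCoef K M c τ η e δ y := by
  by_cases hy : 8 * y ≤ 7 * e
  · rw [exCoef_zero_left he hy]
  · have hy0 : 0 < y := by linarith [not_le.1 hy]
    refine mul_nonneg (mul_nonneg (Real.smoothTransition.nonneg _)
      (Real.smoothTransition.nonneg _)) ?_
    unfold wgt
    positivity

lemma contDiff_exCoef (he : 0 < e) : ContDiff ℝ ∞ (exCoef K M c τ η e δ) := by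
  refine contDiff_iff_contDiffAt.2 fun y => ?_
  by_cases hy : 8 * y < 7 * e
  · refine (contDiffAt_const (c := (0 : ℝ))).congr_of_eventuallyEq ?_
    filter_upwards [(isOpen_lt (continuous_const.mul continuous_id) continuous_const).mem_nhds hy]
      with t ht using exCoef_zero_left he (le_of_lt ht)
  · have hy0 : y ≠ 0 := fun h => hy (by rw [h]; linarith)
    refine ((contDiff_step01 _ _).contDiffAt.mul (contDiff_step01 _ _).contDiffAt).mul ?_
    unfold wgt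
    exact (contDiffAt_const.div contDiffAt_id hy0).add
      (contDiffAt_const.mul (((contDiffAt_const.add contDiffAt_id).pow 7).add contDiffAt_const))

lemma abs_unit_mul_le {d r v B : ℝ} (hd : 0 ≤ d) (hr : |r| ≤ 1) (hv : d * |v| ≤ B) :
    d * |r * v| ≤ B := by
  rw [abs_mul]
  exact le_trans (mul_le_mul_of_nonneg_left (mul_le_of_le_one_left (abs_nonneg _) hr) hd) hv

lemma first_terms {d X Z x z w w₁ a b c : ℝ} (hd : 0 ≤ d) (hX : |X| ≤ 1) (hZ : |Z| ≤ 1)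
    (h1 : d * |x * w| ≤ a) (h2 : d * |z * w| ≤ b) (h3 : d * |w₁| ≤ c) :
    d * |x * Z * w + X * z * w + X * Z * w₁| ≤ a + b + c := by
  refine (mul_le_mul_of_nonneg_left ((abs_add_le _ _).trans (add_le_add (abs_add_le _ _) le_rfl))
    hd).trans ?_
  rw [mul_add, mul_add, show x * Z * w = Z * (x * w) by ring,
    show X * z * w = X * (z * w) by ring, mul_assoc X Z w₁]
  exact add_le_add (add_le_add (abs_unit_mul_le hd hZ h1) (abs_unit_mul_le hd hX h2))
    (abs_unit_mul_le hd hX (abs_unit_mul_le hd hZ h3))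

lemma second_terms {d X Z x z x₂ z₂ w w₁ w₂ a b c a' b' c' : ℝ} (hd : 0 ≤ d) (hX : |X| ≤ 1)
    (hZ : |Z| ≤ 1) (h1 : d * |x₂ * w| ≤ a) (h2 : d * |z₂ * w| ≤ b) (h3 : d * |w₂| ≤ c)
    (h4 : d * |x * (z * w)| ≤ a') (h5 : d * |x * w₁| ≤ b') (h6 : d * |z * w₁| ≤ c') :
    d * |x₂ * Z * w + X * z₂ * w + X * Z * w₂ + 2 * (x * z * w) + 2 * (x * Z * w₁) +
      2 * (X * z * w₁)| ≤ a + b + c + 2 * a' + 2 * b' + 2 * c' := by
  have e2 : ∀ v : ℝ, |2 * v| = 2 * |v| := fun v => by rw [abs_mul, abs_two]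
  have k1 := abs_unit_mul_le hd hZ h1
  have k2 := abs_unit_mul_le hd hX h2
  have k3 := abs_unit_mul_le hd hX (abs_unit_mul_le hd hZ h3)
  have k5 := abs_unit_mul_le hd hZ h5
  have k6 := abs_unit_mul_le hd hX h6
  rw [show x₂ * Z * w = Z * (x₂ * w) by ring, show X * z₂ * w = X * (z₂ * w) by ring,
    mul_assoc X Z w₂, mul_assoc x z w, show x * Z * w₁ = Z * (x * w₁) by ring, mul_assoc X z w₁]
  refine (mul_le_mul_of_nonneg_left ((abs_add_le _ _).trans (add_le_add ((abs_add_le _ _).trans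
      (add_le_add ((abs_add_le _ _).trans (add_le_add ((abs_add_le _ _).trans (add_le_add
        (abs_add_le _ _) le_rfl)) le_rfl)) le_rfl)) le_rfl)) hd).trans ?_
  simp only [e2]
  linarith

/-- The derivatives of the coefficient. -/
lemma deriv_exCoef (K M c τ η e δ : ℝ) {y : ℝ} (hy : y ≠ 0) :
    deriv (exCoef K M c τ η e δ) y =
        deriv (step01 (8 / e) (-7)) y * step01 (-(1 / (2 * δ))) 2 y * wgt K M c τ η y +
          step01 (8 / e) (-7) y * deriv (step01 (-(1 / (2 * δ))) 2) y * wgt K M c τ η y +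
          step01 (8 / e) (-7) y * step01 (-(1 / (2 * δ))) 2 y * wgt₁ K M c τ y ∧
      deriv (deriv (exCoef K M c τ η e δ)) y =
        deriv (deriv (step01 (8 / e) (-7))) y * step01 (-(1 / (2 * δ))) 2 y * wgt K M c τ η y +
          step01 (8 / e) (-7) y * deriv (deriv (step01 (-(1 / (2 * δ))) 2)) y * wgt K M c τ η y +
          step01 (8 / e) (-7) y * step01 (-(1 / (2 * δ))) 2 y * wgt₂ K M c τ y +
          2 * (deriv (step01 (8 / e) (-7)) y * deriv (step01 (-(1 / (2 * δ))) 2) y * wgt K M c τ η y) +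
          2 * (deriv (step01 (8 / e) (-7)) y * step01 (-(1 / (2 * δ))) 2 y * wgt₁ K M c τ y) +
          2 * (step01 (8 / e) (-7) y * deriv (step01 (-(1 / (2 * δ))) 2) y * wgt₁ K M c τ y) := by
  set p := 8 / e with hp
  set q := -(1 / (2 * δ)) with hq
  set X := step01 p (-7) with hX
  set Z := step01 q 2 with hZ
  set w := wgt K M c τ η y with hw
  set w₁ := wgt₁ K M c τ y with hw1
  set w₂ := wgt₂ K M c τ y with hw2
  set g := exCoef K M c τ η e δ with hg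
  have hd1' : ∀ p' q' t : ℝ, HasDerivAt (step01 p' q') (deriv (step01 p' q') t) t := fun p' q' t =>
    ((contDiff_step01 p' q').differentiable (by norm_num) t).hasDerivAt
  have hd2' : ∀ p' q' t : ℝ,
      HasDerivAt (deriv (step01 p' q')) (deriv (deriv (step01 p' q')) t) t := fun p' q' t =>
    ((contDiff_infty_iff_deriv.1 (contDiff_step01 p' q')).2.differentiable (by norm_num) t).hasDerivAt
  have g1 : ∀ t : ℝ, t ≠ 0 → deriv g t = deriv X t * Z t * wgt K M c τ η t +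
      X t * deriv Z t * wgt K M c τ η t + X t * Z t * wgt₁ K M c τ t := fun t ht =>
    ((((hd1' p (-7) t).mul (hd1' q 2 t)).mul (hasDerivAt_wgt K M c τ η ht).1).congr_deriv
      (by simp only [hX, hZ, Pi.mul_apply]; ring)).deriv
  have g2 : deriv (deriv g) y = deriv (deriv X) y * Z y * w + X y * deriv (deriv Z) y * w +
      X y * Z y * w₂ + 2 * (deriv X y * deriv Z y * w) + 2 * (deriv X y * Z y * w₁) +
        2 * (X y * deriv Z y * w₁) := by
    have h1 := hasDerivAt_wgt K M c τ η hy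
    refine (HasDerivAt.congr_of_eventuallyEq ?_
      (eventually_of_mem (isOpen_ne.mem_nhds hy) g1)).deriv
    exact ((((hd2' p (-7) y).mul (hd1' q 2 y)).mul h1.1).add
      (((hd1' p (-7) y).mul (hd2' q 2 y)).mul h1.1) |>.add
      (((hd1' p (-7) y).mul (hd1' q 2 y)).mul h1.2)).congr_deriv
      (by simp only [hX, hZ, hw, hw1, hw2, Pi.mul_apply]; ring)
  exact ⟨g1 y hy, g2⟩

lemma step_terms {d e s Q o E V Cs y x x₂ z z₂ w w₁ : ℝ} (hd : 0 ≤ d) (he : 0 < e) (hs : 0 < s)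
    (hQ : 0 ≤ Q) (ho : 0 ≤ o) (hE : 0 ≤ E) (hV : 0 ≤ V) (hCs : 0 ≤ Cs)
    (hx : |x| ≤ Cs * (8 / e)) (hx₂ : |x₂| ≤ Cs * (8 / e) ^ 2) (hz : |z| ≤ Cs * (1 / s))
    (hz₂ : |z₂| ≤ Cs * (1 / s ^ 2)) (hsx : x ≠ 0 → y ≤ e) (hsx₂ : x₂ ≠ 0 → y ≤ e)
    (b0 : d * |w| ≤ V * (s * Q * o)) (b1 : d * |w₁| ≤ V * (Q * o))
    (hb : y ≤ e → d * |w| / e ≤ V * (Q * o) ∧ d * |w| / e ^ 2 ≤ V * E ∧
      d * |w₁| / e ≤ V * (Q / s * o + E)) :
    d * |x * w| ≤ 8 * Cs * (V * (Q * o)) ∧ d * |z * w| ≤ Cs * (V * (Q * o)) ∧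
    d * |x₂ * w| ≤ 64 * Cs * (V * (Q / s * o + E)) ∧
    d * |z₂ * w| ≤ Cs * (V * (Q / s * o + E)) ∧
    d * |x * (z * w)| ≤ 8 * Cs * Cs * (V * (Q / s * o + E)) ∧
    d * |x * w₁| ≤ 8 * Cs * (V * (Q / s * o + E)) ∧
    d * |z * w₁| ≤ Cs * (V * (Q / s * o + E)) := by
  have band : ∀ {u v k B : ℝ}, |u| ≤ k → (u ≠ 0 → y ≤ e) → 0 ≤ B →
      (y ≤ e → k * (d * |v|) ≤ B) → d * |u * v| ≤ B := fun {u v k B} hu hsupp hB h => by
    rcases eq_or_ne u 0 with h0 | h0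
    · rw [h0, zero_mul, abs_zero, mul_zero]; exact hB
    · rw [abs_mul, mul_left_comm]
      exact le_trans (mul_le_mul_of_nonneg_right hu (mul_nonneg hd (abs_nonneg _))) (h (hsupp h0))
  have outer : ∀ {u v k B : ℝ}, |u| ≤ k → d * |v| ≤ B → d * |u * v| ≤ k * B := fun {u v k B} hu hv => by
    rw [abs_mul, mul_left_comm]
    exact mul_le_mul hu hv (mul_nonneg hd (abs_nonneg _)) (le_trans (abs_nonneg _) hu)
  have hF : 0 ≤ V * (Q / s * o + E) := by positivity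
  have hFo : V * (Q / s * o) ≤ V * (Q / s * o + E) :=
    mul_le_mul_of_nonneg_left (le_add_of_nonneg_right hE) hV
  refine ⟨band hx hsx (by positivity) fun h => ?_, ?_, band hx₂ hsx₂ (by positivity) fun h => ?_,
    ?_, band hx hsx (by positivity) fun h => ?_, band hx hsx (by positivity) fun h => ?_, ?_⟩
  · rw [show Cs * (8 / e) * (d * |w|) = 8 * Cs * (d * |w| / e) by ring]
    exact mul_le_mul_of_nonneg_left (hb h).1 (by positivity)
  · refine (outer hz b0).trans (le_of_eq ?_); field_simp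
  · rw [show Cs * (8 / e) ^ 2 * (d * |w|) = 64 * Cs * (d * |w| / e ^ 2) by ring]
    refine mul_le_mul_of_nonneg_left ((hb h).2.1.trans ?_) (by positivity)
    exact mul_le_mul_of_nonneg_left (le_add_of_nonneg_left (by positivity)) hV
  · refine (outer hz₂ b0).trans ?_
    rw [show Cs * (1 / s ^ 2) * (V * (s * Q * o)) = Cs * (V * (Q / s * o)) by field_simp]
    exact mul_le_mul_of_nonneg_left hFo hCs
  · rw [abs_mul, show Cs * (8 / e) * (d * (|z| * |w|)) = 8 * Cs * |z| * (d * |w| / e) by ring]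
    refine (mul_le_mul (mul_le_mul_of_nonneg_left hz (by positivity)) (hb h).1 (by positivity)
      (by positivity)).trans ?_
    rw [show 8 * Cs * (Cs * (1 / s)) * (V * (Q * o)) = 8 * Cs * Cs * (V * (Q / s * o)) by ring]
    exact mul_le_mul_of_nonneg_left hFo (by positivity)
  · rw [show Cs * (8 / e) * (d * |w₁|) = 8 * Cs * (d * |w₁| / e) by ring]
    exact mul_le_mul_of_nonneg_left (hb h).2.2 (by positivity)
  · refine (outer hz b1).trans ?_
    rw [show Cs * (1 / s) * (V * (Q * o)) = Cs * (V * (Q / s * o)) by ring]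
    exact mul_le_mul_of_nonneg_left hFo hCs

/-- The excess against the coefficient and its derivatives. -/
theorem exists_coef_bound : ∃ C : ℝ, 0 ≤ C ∧ ∀ K M c H τ η ε L e δ y d : ℝ, 0 ≤ K → 1 ≤ c →
    1 ≤ H → 0 < τ → τ ≤ 1 → 0 ≤ η → 0 ≤ M → 0 ≤ ε → M ≤ L → 1 ≤ L → 8 * τ ^ 2 ≤ 7 * e →
    e ≤ H * τ ^ 2 → e ≤ Real.sqrt τ → Real.sqrt τ ≤ δ → 0 ≤ d →
    (7 * e ≤ 8 * y → d ≤ ε * y ∧
      (y ≤ Real.sqrt τ → d ≤ ε * L * (τ ^ 4 + y * (Real.sqrt τ ^ 7 + η)))) →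
      d * |exCoef K M c τ η e δ y| ≤ C * wgtC K c H * ε * L *
        (Real.sqrt τ * (Real.sqrt τ ^ 7 + η) * (1 + |y| / Real.sqrt τ) ^ 8) ∧
      d * |deriv (exCoef K M c τ η e δ) y| ≤ C * wgtC K c H * ε * L *
        ((Real.sqrt τ ^ 7 + η) * (1 + |y| / Real.sqrt τ) ^ 8) ∧
      d * |deriv (deriv (exCoef K M c τ η e δ)) y| ≤ C * wgtC K c H * ε * L *
        ((Real.sqrt τ ^ 7 + η) / Real.sqrt τ * (1 + |y| / Real.sqrt τ) ^ 8 +
          (if τ ^ 2 ≤ y then (τ ^ 6 + τ ^ 2 * (Real.sqrt τ ^ 7 + η)) / y ^ 2 else 0)) := by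
  obtain ⟨Cs, hCs, hstep⟩ := exists_step
  have k0 : (1 : ℝ) ≤ 200 * (1 + Cs) ^ 2 := by nlinarith
  have k1 : 9 * Cs + 1 ≤ 200 * (1 + Cs) ^ 2 := by nlinarith
  have k2 : 83 * Cs + 1 + 16 * (Cs * Cs) ≤ 200 * (1 + Cs) ^ 2 := by nlinarith
  refine ⟨200 * (1 + Cs) ^ 2, by positivity, fun K M c H τ η ε L e δ y d hK hc hH hτ hτ1 hη hM hε
    hML hL he heH hes hsδ hd hdd => ?_⟩
  set s := Real.sqrt τ with hs'
  have hs : 0 < s := Real.sqrt_pos.2 hτ
  have hδ : 0 < δ := hs.trans_le hsδ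
  have he0 : 0 < e := by nlinarith [pow_pos hτ 2]
  have hW := wgtC_nonneg hK hc hH
  have hA : 0 ≤ wgtC K c H * ε * L := mul_nonneg (mul_nonneg hW hε) (by linarith)
  set Q := s ^ 7 + η with hQ
  set o := (1 + |y| / s) ^ 8 with ho
  have hQ0 : 0 ≤ Q := by positivity
  have ho0 : 0 ≤ o := by positivity
  set Y := if τ ^ 2 ≤ y then (τ ^ 6 + τ ^ 2 * Q) / y ^ 2 else 0 with hY
  have hY0 : 0 ≤ Y := by rw [hY]; split_ifs <;> positivity
  set A := 200 * (1 + Cs) ^ 2 * wgtC K c H * ε * L with hAd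
  have hA0 : 0 ≤ A := by
    rw [hAd, show 200 * (1 + Cs) ^ 2 * wgtC K c H * ε * L =
      200 * (1 + Cs) ^ 2 * (wgtC K c H * ε * L) by ring]
    positivity
  set g := exCoef K M c τ η e δ with hg
  rcases lt_or_ge (8 * y) (7 * e) with hy | hy
  · have h0 : ∀ᶠ t in 𝓝 y, g t = 0 := by
      filter_upwards [(isOpen_lt (continuous_const.mul continuous_id) continuous_const).mem_nhds hy]
        with t ht using exCoef_zero_left he0 (le_of_lt ht)
    have h1 : ∀ᶠ t in 𝓝 y, deriv g t = 0 := h0.eventually_nhds.mono fun t ht => by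
      rw [Filter.EventuallyEq.deriv_eq (f := fun _ => (0 : ℝ)) ht]; simp
    have h2 : deriv (deriv g) y = 0 := by
      rw [Filter.EventuallyEq.deriv_eq (f := fun _ => (0 : ℝ)) h1]; simp
    rw [h0.self_of_nhds, h1.self_of_nhds, h2, abs_zero, mul_zero]
    exact ⟨by positivity, by positivity, by positivity⟩
  obtain ⟨hd1, hd2⟩ := hdd hy
  have hτy : τ ^ 2 ≤ y := by linarith
  have hy0 : 0 < y := lt_of_lt_of_le (pow_pos hτ 2) hτy
  have hτe : τ ^ 2 ≤ e := by nlinarith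
  obtain ⟨b0, b1, b2⟩ := wgt_bulk hK hc hH hτ hτ1 hη hM hε hML hL hτy hτe hd hd1 hd2
  rw [hY, if_pos hτy]
  rw [← hs', ← hQ, show y / s = |y| / s by rw [abs_of_pos hy0], ← ho] at b0 b1 b2
  set E := (τ ^ 6 + τ ^ 2 * Q) / y ^ 2 with hE
  -- the steps
  set p := 8 / e with hp
  set q := -(1 / (2 * δ)) with hq
  obtain ⟨x0a, x0b, x1, x2, xs⟩ := hstep p (-7) y
  obtain ⟨z0a, z0b, z1, z2, -⟩ := hstep q 2 y
  have hpa : |p| = 8 / e := abs_of_pos (by positivity)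
  have hqa : |q| ≤ 1 / s := by
    rw [hq, abs_neg, abs_of_pos (by positivity)]
    exact one_div_le_one_div_of_le hs (by linarith)
  have hqb : q ^ 2 ≤ 1 / τ := by
    rw [← sq_abs, show 1 / τ = (1 / s) ^ 2 by rw [div_pow, one_pow, Real.sq_sqrt hτ.le]]
    exact pow_le_pow_left₀ (abs_nonneg _) hqa 2
  set X := step01 p (-7) with hX
  set Z := step01 q 2 with hZ
  set w := wgt K M c τ η y with hw
  set w₁ := wgt₁ K M c τ y with hw1
  set w₂ := wgt₂ K M c τ y with hw2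
  obtain ⟨g1, g2⟩ := deriv_exCoef K M c τ η e δ hy0.ne'
  have hye : ∀ {u : ℝ}, u = deriv X y ∨ u = deriv (deriv X) y → u ≠ 0 → y ≤ e := fun {u} h hu => by
    have := (xs (by rcases h with rfl | rfl; exacts [Or.inl hu, Or.inr hu])).2
    rw [← sub_eq_add_neg, sub_le_iff_le_add, hp, div_mul_eq_mul_div, div_le_iff₀ he0] at this
    linarith
  set V := wgtC K c H * ε * L with hV
  have hP : ∀ {r v : ℝ} {B : ℝ}, |r| ≤ 1 → d * |v| ≤ V * B → 0 ≤ B → d * |r * v| ≤ V * B :=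
    fun {r v B} hr hv hB => by
      rw [abs_mul]
      calc d * (|r| * |v|) ≤ d * (1 * |v|) := by gcongr
        _ ≤ _ := by rw [one_mul]; exact hv
  have hX1 : |X y| ≤ 1 := abs_le.2 ⟨by linarith, x0b⟩
  have hZ1 : |Z y| ≤ 1 := abs_le.2 ⟨by linarith, z0b⟩
  have hXZ : |X y * Z y| ≤ 1 := by
    rw [abs_mul]; exact mul_le_one₀ hX1 (abs_nonneg _) hZ1
  have hbd := fun h : y ≤ e =>
    wgt_band hK hc hH hτ hτ1 hη hM hε hML hL hτy hτe hd hd1 hd2 heH hes h
  rw [← hs', ← hQ, show y / s = |y| / s by rw [abs_of_pos hy0], ← ho, ← hE, ← hw, ← hw1] at hbd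
  have hz₂ : |deriv (deriv Z) y| ≤ Cs * (1 / s ^ 2) := by
    rw [hs', Real.sq_sqrt hτ.le]
    exact z2.trans (mul_le_mul_of_nonneg_left hqb hCs)
  obtain ⟨t1, t2, s1, s2, s4, s5, s6⟩ := step_terms hd he0 hs hQ0 ho0 (by positivity : 0 ≤ E) hA
    hCs (x1.trans_eq (by rw [hpa])) (x2.trans_eq (by rw [hp]))
    (z1.trans (mul_le_mul_of_nonneg_left hqa hCs)) hz₂ (hye (Or.inl rfl)) (hye (Or.inr rfl))
    b0 b1 hbd
  have hVA : ∀ {k B : ℝ}, k ≤ 200 * (1 + Cs) ^ 2 → 0 ≤ B → k * (V * B) ≤ A * B := fun {k B} hk hB => by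
    rw [← mul_assoc, hAd, hV,
      show 200 * (1 + Cs) ^ 2 * wgtC K c H * ε * L = 200 * (1 + Cs) ^ 2 * (wgtC K c H * ε * L) by ring]
    exact mul_le_mul_of_nonneg_right (mul_le_mul_of_nonneg_right hk hA) hB
  have hC2 : 0 ≤ Cs * Cs := by positivity
  refine ⟨?_, ?_, ?_⟩
  · simp only [hg, exCoef, ← hp, ← hq, ← hX, ← hZ, ← hw]
    refine (hP hXZ b0 (by positivity)).trans ?_
    have := hVA (k := 1) (B := s * Q * o) k0 (by positivity)
    rwa [one_mul] at this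
  · rw [hg, g1]
    refine (first_terms hd hX1 hZ1 t1 t2 b1).trans ?_
    rw [show 8 * Cs * (V * (Q * o)) + Cs * (V * (Q * o)) + V * (Q * o) =
      (9 * Cs + 1) * (V * (Q * o)) by ring]
    exact hVA k1 (by positivity)
  · rw [hg, g2]
    refine (second_terms hd hX1 hZ1 s1 s2 b2 s4 s5 s6).trans ?_
    rw [show 64 * Cs * (V * (Q / s * o + E)) + Cs * (V * (Q / s * o + E)) +
      V * (Q / s * o + E) + 2 * (8 * Cs * Cs * (V * (Q / s * o + E))) +
      2 * (8 * Cs * (V * (Q / s * o + E))) + 2 * (Cs * (V * (Q / s * o + E))) =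
      (83 * Cs + 1 + 16 * (Cs * Cs)) * (V * (Q / s * o + E)) by ring]
    exact hVA k2 (by positivity)

end Vale.Agent.P363.Ext.Growth
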