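import Vale.Agent.P363.Ext.Growth.JumpSpec

/-!
P363, Kohn-Sham side, `ExcessStmt`: the two majorants of the operator on the test.
-/

noncomputable section

namespace Vale.Agent.P363.Ext.Growth

open MeasureTheory Filter Set
open scoped BigOperators Topology

/-- The weighted size of the potential of the box and of its derivatives. -/
def exMajor (κ D τ θ : ℝ) (p : ℝ × ℝ) : ℝ :=
  wt τ p.2 * (|boxPot κ D τ θ p.1 p.2| / τ + |Heat.dY (boxPot κ D τ θ) p.1 p.2| / Real.sqrt τ +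
    τ ^ 2 * |Heat.dT (Heat.dT (boxPot κ D τ θ)) p.1 p.2| +
    τ * |Heat.dT (boxPot κ D τ θ) p.1 p.2| +
    τ * |Heat.dY (Heat.dY (boxPot κ D τ θ)) p.1 p.2| + box D τ θ p.1 p.2)

/-- The potential against `1 / y²` above `τ²`. -/
def exSing (κ D τ θ : ℝ) (p : ℝ × ℝ) : ℝ :=
  if τ ^ 2 ≤ p.2 then |boxPot κ D τ θ p.1 p.2| / p.2 ^ 2 else 0

/-- The integrals of the majorants. -/
def ExMajorStmt : Prop :=
  ∀ κ Sw N : ℝ, 0 < κ → 0 < Sw → 10 ≤ N → ∃ C : ℝ, 0 ≤ C ∧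
    ∀ D τ θ T : ℝ, Window Sw N D τ θ T →
      IntegrableOn (exMajor κ D τ θ) (Icc 0 (2 * T) ×ˢ univ) ∧
      IntegrableOn (exSing κ D τ θ) (Icc 0 (2 * T) ×ˢ univ) ∧
      ∫ p in Icc 0 (2 * T) ×ˢ univ, exMajor κ D τ θ p ≤ C * D ∧
      ∫ p in Icc 0 (2 * T) ×ˢ univ, exSing κ D τ θ p ≤ C * D * Real.sqrt τ / τ ^ 2

end Vale.Agent.P363.Ext.Growth
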