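import Vale.Agent.P363.Ext.Growth.ExcessOp
import Vale.Agent.P363.Ext.Growth.ExcessSpec
import Vale.Agent.P363.Ext.Heat.Calc

/-!
P363, Kohn-Sham side, `ExcessStmt`: the operator on the test `φ (σ) a (y) P (σ, y)`.
-/

noncomputable section

namespace Vale.Agent.P363.Ext.Growth

open MeasureTheory Filter Set
open scoped BigOperators Topology ContDiff

/-- The operator on the test, for a potential solving the heat equation with source `b`. -/
lemma fullOp_exTest {A : ℝ → ℝ} {T : ℝ} {P b : ℝ → ℝ → ℝ} (hA : ContDiff ℝ 2 A)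
    (hP : ContDiff ℝ 2 (Function.uncurry P)) {a : ℝ} (ha : a ≠ 0) (k : ℝ)
    (hheat : ∀ σ y, Heat.dT P σ y = 1 / (2 * a) * Heat.dY (Heat.dY P) σ y + b σ y) (σ y : ℝ) :
    fullOp a k (exTest A T P) σ y =
      step01 (-(2 / T)) 5 σ * (deriv (deriv A) y * P σ y + 2 * (deriv A y * Heat.dY P σ y))
      - 2 * a * (deriv (step01 (-(2 / T)) 5) σ * (A y * P σ y))
      - 2 * a * (step01 (-(2 / T)) 5 σ * (A y * b σ y))
      + σ ^ 2 * (A y * (deriv (deriv (step01 (-(2 / T)) 5)) σ * P σ y +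
          2 * (deriv (step01 (-(2 / T)) 5) σ * Heat.dT P σ y) +
          step01 (-(2 / T)) 5 σ * Heat.dT (Heat.dT P) σ y))
      + (2 + 2 * (k / a)) * σ * (A y * (deriv (step01 (-(2 / T)) 5) σ * P σ y +
          step01 (-(2 / T)) 5 σ * Heat.dT P σ y))
      + 2 * (k / a) * (step01 (-(2 / T)) 5 σ * (A y * P σ y))
      - y ^ 2 * (step01 (-(2 / T)) 5 σ * (deriv (deriv A) y * P σ y +
          2 * (deriv A y * Heat.dY P σ y) + A y * Heat.dY (Heat.dY P) σ y))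
      - 2 * y * (step01 (-(2 / T)) 5 σ * (deriv A y * P σ y + A y * Heat.dY P σ y)) := by
  set φ := step01 (-(2 / T)) 5 with hφ
  have hP' : ContDiffOn ℝ 2 (Function.uncurry P) univ := hP.contDiffOn
  have h1 : ((1 : WithTop ℕ∞) + 1 ≤ 2) := le_of_eq (by norm_num)
  have hφs := contDiff_step01 (-(2 / T)) 5
  have dφ : ∀ t, HasDerivAt φ (deriv φ t) t := fun t =>
    (hφs.differentiable (by norm_num) t).hasDerivAt
  have ddφ : HasDerivAt (deriv φ) (deriv (deriv φ) σ) σ :=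
    ((contDiff_infty_iff_deriv.1 hφs).2.differentiable (by norm_num) σ).hasDerivAt
  have dA : ∀ t, HasDerivAt A (deriv A t) t := fun t =>
    (hA.differentiable two_ne_zero t).hasDerivAt
  have ddA : HasDerivAt (deriv A) (deriv (deriv A) y) y :=
    (((contDiff_succ_iff_deriv (n := 1)).1 hA).2.2.differentiable one_ne_zero y).hasDerivAt
  have eY : ∀ t, Heat.dY (exTest A T P) σ t =
      φ σ * (deriv A t * P σ t + A t * Heat.dY P σ t) := fun t =>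
    (((dA t).mul (Heat.hasDerivAt_dY two_ne_zero isOpen_univ hP' (mem_univ (σ, t)))).const_mul
      (φ σ)).deriv
  have eT : ∀ t, Heat.dT (exTest A T P) t y =
      deriv φ t * (A y * P t y) + φ t * (A y * Heat.dT P t y) := fun t =>
    ((dφ t).mul
      ((Heat.hasDerivAt_dT two_ne_zero isOpen_univ hP' (mem_univ (t, y))).const_mul (A y))).deriv
  have eYY : Heat.dY (Heat.dY (exTest A T P)) σ y = φ σ * (deriv (deriv A) y * P σ y +
      2 * (deriv A y * Heat.dY P σ y) + A y * Heat.dY (Heat.dY P) σ y) := by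
    have h := (((ddA.mul (Heat.hasDerivAt_dY two_ne_zero isOpen_univ hP' (mem_univ (σ, y)))).add
      ((dA y).mul (Heat.hasDerivAt_dY one_ne_zero isOpen_univ
        (Heat.contDiffOn_dY h1 isOpen_univ hP') (mem_univ (σ, y))))).const_mul (φ σ))
    exact ((h.congr_of_eventuallyEq (Eventually.of_forall eY)).congr_deriv
      (by simp only [hφ]; ring)).deriv
  have eTT : Heat.dT (Heat.dT (exTest A T P)) σ y = A y * (deriv (deriv φ) σ * P σ y +
      2 * (deriv φ σ * Heat.dT P σ y) + φ σ * Heat.dT (Heat.dT P) σ y) := by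
    have h := (ddφ.mul
        ((Heat.hasDerivAt_dT two_ne_zero isOpen_univ hP' (mem_univ (σ, y))).const_mul (A y))).add
      ((dφ σ).mul ((Heat.hasDerivAt_dT one_ne_zero isOpen_univ
        (Heat.contDiffOn_dT h1 isOpen_univ hP') (mem_univ (σ, y))).const_mul (A y)))
    exact ((h.congr_of_eventuallyEq (Eventually.of_forall eT)).congr_deriv
      (by simp only [hφ]; ring)).deriv
  simp only [fullOp, Heat.timeOp, eYY, eTT, eY y, eT σ, exTest, ← hφ]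
  rw [hheat σ y]
  field_simp
  ring

/-- The eight terms of the operator. -/
lemma op_sum {d a k' E₁ E₂ E₃ E₄ E₅ E₆ E₇ E₈ Z : ℝ} (hd : 0 ≤ d) (hZ : 0 ≤ Z)
    (h1 : d * |E₁| ≤ 3 * Z) (h2 : d * |E₂| ≤ Z) (h3 : d * |E₃| ≤ Z) (h4 : d * |E₄| ≤ 4 * Z)
    (h5 : d * |E₅| ≤ 2 * Z) (h6 : d * |E₆| ≤ Z) (h7 : d * |E₇| ≤ 4 * Z) (h8 : d * |E₈| ≤ 2 * Z) :
    d * (|E₁ - 2 * a * E₂ - 2 * a * E₃ + E₄ + (2 + 2 * k') * E₅ + 2 * k' * E₆ - E₇ - 2 * E₈| +
      |k'| * |E₆|) ≤ 20 * (1 + |a| + |k'|) * Z := by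
  have e : |E₁ - 2 * a * E₂ - 2 * a * E₃ + E₄ + (2 + 2 * k') * E₅ + 2 * k' * E₆ - E₇ - 2 * E₈| ≤
      |E₁| + 2 * |a| * |E₂| + 2 * |a| * |E₃| + |E₄| + (2 + 2 * |k'|) * |E₅| + 2 * |k'| * |E₆| +
        |E₇| + 2 * |E₈| := by
    refine (abs_sub _ _).trans (add_le_add ((abs_sub _ _).trans (add_le_add ((abs_add_le _ _).trans
      (add_le_add ((abs_add_le _ _).trans (add_le_add ((abs_add_le _ _).trans (add_le_add
        ((abs_sub _ _).trans (add_le_add ((abs_sub _ _).trans (add_le_add le_rfl ?_)) ?_)) le_rfl))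
          ?_)) ?_)) le_rfl)) ?_)
    · rw [abs_mul, abs_mul, abs_two]
    · rw [abs_mul, abs_mul, abs_two]
    · rw [abs_mul]
      exact mul_le_mul_of_nonneg_right ((abs_add_le _ _).trans (by rw [abs_mul, abs_two]))
        (abs_nonneg _)
    · rw [abs_mul, abs_mul, abs_two]
    · rw [abs_mul, abs_two]
  refine (mul_le_mul_of_nonneg_left (add_le_add e le_rfl) hd).trans ?_
  have g2 := mul_le_mul_of_nonneg_left h2 (show 0 ≤ 2 * |a| by positivity)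
  have g3 := mul_le_mul_of_nonneg_left h3 (show 0 ≤ 2 * |a| by positivity)
  have g5 := mul_le_mul_of_nonneg_left h5 (show 0 ≤ 2 + 2 * |k'| by positivity)
  have g6 := mul_le_mul_of_nonneg_left h6 (show 0 ≤ 3 * |k'| by positivity)
  linarith [mul_nonneg (abs_nonneg a) hZ, mul_nonneg (abs_nonneg k') hZ]

/-- The terms of the operator. -/
lemma op_terms {d φ φ₁ φ₂ α α₁ α₂ P P₁ T₁ T₂ Y₂ b σ y s Q W Y U H C : ℝ}
    (hd : 0 ≤ d) (hC : 1 ≤ C) (hU : 0 ≤ U) (hQ : 0 ≤ Q) (hs : 0 < s) (hs1 : s ≤ 1)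
    (hW : 1 ≤ W) (hH : 1 ≤ H) (hσ : |σ| ≤ H * s ^ 2) (hy : |y| ≤ 1)
    (hφ : |φ| ≤ 1) (hφ₁ : |φ₁| ≤ C / s ^ 2) (hφ₂ : |φ₂| ≤ C / s ^ 4)
    (h0 : d * |α| ≤ U * (s * Q * W)) (h0' : d * |α| * y ^ 2 ≤ U * (s * Q * W) * s ^ 2)
    (h1 : d * |α₁| ≤ U * (Q * W)) (h1' : d * |α₁| * |y| ≤ U * (Q * W) * s)
    (h2 : d * |α₂| ≤ U * (Q / s * W + Y)) :
    d * |φ₁ * (α * P)| ≤ (C * H ^ 2) * (U * ((s * Q * W) * (|P| / s ^ 2))) ∧
    d * |σ ^ 2 * (α * (φ₂ * P + 2 * (φ₁ * T₁) + φ * T₂))| ≤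
      (C * H ^ 2) * (U * ((s * Q * W) * (|P| / s ^ 2))) + 2 * (C * H ^ 2) * (U * ((s * Q * W) * (s ^ 2 * |T₁|))) + (C * H ^ 2) * (U * ((s * Q * W) * (s ^ 4 * |T₂|))) ∧
    d * |σ * (α * (φ₁ * P + φ * T₁))| ≤ (C * H ^ 2) * (U * ((s * Q * W) * (|P| / s ^ 2))) + (C * H ^ 2) * (U * ((s * Q * W) * (s ^ 2 * |T₁|))) ∧
    d * |α * P| ≤ (U * ((s * Q * W) * (|P| / s ^ 2))) ∧
    d * |α₂ * P + 2 * (α₁ * P₁)| ≤ U * ((s * Q * W) * (|P| / s ^ 2) + Y * |P|) + 2 * (U * ((s * Q * W) * (|P₁| / s))) ∧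
    d * |y ^ 2 * (α₂ * P + 2 * (α₁ * P₁) + α * Y₂)| ≤
      U * ((s * Q * W) * (|P| / s ^ 2) + Y * |P|) + 2 * (U * ((s * Q * W) * (|P₁| / s))) + U * ((s * Q * W) * (s ^ 2 * |Y₂|)) ∧
    d * |y * (α₁ * P + α * P₁)| ≤ (U * ((s * Q * W) * (|P| / s ^ 2))) + (U * ((s * Q * W) * (|P₁| / s))) ∧
    d * |α * b| ≤ U * ((s * Q * W) * |b|) := by
  have hA : 0 ≤ d * |α| := by positivity
  have hsq : 0 ≤ s * Q * W := by positivity
  have hP : 0 ≤ |P| := abs_nonneg P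
  have hy2 : |y ^ 2| = y ^ 2 := abs_of_nonneg (sq_nonneg y)
  have hyl : y ^ 2 ≤ 1 := by rw [← sq_abs]; exact pow_le_one₀ (abs_nonneg _) hy
  set G := s * Q * W with hG
  -- the atoms
  have u1 : d * |α₂| * |P| ≤ U * (G * (|P| / s ^ 2) + Y * |P|) := by
    refine (mul_le_mul_of_nonneg_right h2 hP).trans_eq ?_
    rw [hG]; field_simp
  have u2 : d * |α₁| * |P₁| ≤ U * (G * (|P₁| / s)) := by
    refine (mul_le_mul_of_nonneg_right h1 (abs_nonneg _)).trans_eq ?_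
    rw [hG]; field_simp
  have u3 : ∀ x : ℝ, 0 ≤ x → d * |α| * x ≤ U * (G * x) := fun x hx =>
    (mul_le_mul_of_nonneg_right h0 hx).trans_eq (by ring)
  have u4 : d * |α₁| * |y| * |P| ≤ U * (G * (|P| / s ^ 2)) := by
    refine (mul_le_mul_of_nonneg_right h1' hP).trans ?_
    calc U * (Q * W) * s * |P| = U * (G * |P|) := by rw [hG]; ring
      _ ≤ _ := by
          gcongr
          exact le_div_self hP (by positivity) (pow_le_one₀ hs.le hs1)
  have u5 : d * |α| * y ^ 2 * |Y₂| ≤ U * (G * (s ^ 2 * |Y₂|)) :=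
    (mul_le_mul_of_nonneg_right h0' (abs_nonneg _)).trans_eq (by ring)
  have u6 : d * |α| * |y| * |P₁| ≤ U * (G * (|P₁| / s)) := by
    refine le_trans ?_ (u3 (|P₁| / s) (by positivity))
    rw [mul_assoc (d * |α|)]
    refine mul_le_mul_of_nonneg_left ?_ hA
    rw [le_div_iff₀ hs, mul_right_comm]
    exact mul_le_of_le_one_left (abs_nonneg _) (mul_le_one₀ hy hs.le hs1)
  have v1 := u3 (|P| / s ^ 2) (by positivity)
  have v2 := u3 |b| (abs_nonneg b)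
  have v3 := u3 (s ^ 4 * |T₂|) (by positivity)
  have v4 := u3 (s ^ 2 * |T₁|) (by positivity)
  have hPs : |P| ≤ |P| / s ^ 2 := le_div_self hP (by positivity) (pow_le_one₀ hs.le hs1)
  have hσ2 : σ ^ 2 ≤ H ^ 2 * s ^ 4 := by
    rw [← sq_abs]
    exact (pow_le_pow_left₀ (abs_nonneg _) hσ 2).trans_eq (by ring)
  have hCH : 1 ≤ C * H ^ 2 := one_le_mul_of_one_le_of_one_le hC (one_le_pow₀ hH)
  have hH2 : H ≤ C * H ^ 2 := (le_self_pow₀ hH two_ne_zero).trans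
    (le_mul_of_one_le_left (by positivity) hC)
  set B := C * H ^ 2 with hB
  have hB0 : 0 ≤ B := by linarith
  -- term by term
  have q2 : d * |φ₁ * (α * P)| ≤ B * (U * (G * (|P| / s ^ 2))) := by
    rw [abs_mul, abs_mul, show d * (|φ₁| * (|α| * |P|)) = |φ₁| * (d * |α| * |P|) by ring]
    calc |φ₁| * (d * |α| * |P|) ≤ C / s ^ 2 * (d * |α| * |P|) := by gcongr
      _ = C * (d * |α| * (|P| / s ^ 2)) := by ring
      _ ≤ _ := mul_le_mul (le_mul_of_one_le_right (by linarith) (one_le_pow₀ hH)) v1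
          (by positivity) hB0
  have q4 : d * |σ ^ 2 * (α * (φ₂ * P + 2 * (φ₁ * T₁) + φ * T₂))| ≤
      B * (U * (G * (|P| / s ^ 2))) + 2 * B * (U * (G * (s ^ 2 * |T₁|))) +
        B * (U * (G * (s ^ 4 * |T₂|))) := by
    rw [abs_mul, abs_mul, abs_of_nonneg (sq_nonneg σ)]
    calc d * (σ ^ 2 * (|α| * |φ₂ * P + 2 * (φ₁ * T₁) + φ * T₂|))
        ≤ d * (H ^ 2 * s ^ 4 * (|α| * (C / s ^ 4 * |P| + 2 * (C / s ^ 2 * |T₁|) + 1 * |T₂|))) := by
          gcongr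
          refine (abs_add_le _ _).trans (add_le_add ((abs_add_le _ _).trans (add_le_add ?_ ?_)) ?_)
          · rw [abs_mul]; gcongr
          · rw [abs_mul, abs_two, abs_mul]; gcongr
          · rw [abs_mul]; gcongr
      _ = B * (d * |α| * |P|) + 2 * B * (d * |α| * (s ^ 2 * |T₁|)) +
            H ^ 2 * (d * |α| * (s ^ 4 * |T₂|)) := by rw [hB]; field_simp
      _ ≤ _ := by
          refine add_le_add (add_le_add (mul_le_mul_of_nonneg_left ((u3 _ hP).trans ?_) hB0)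
            (mul_le_mul_of_nonneg_left v4 (by linarith))) (mul_le_mul
              (le_mul_of_one_le_left (by positivity) hC) v3 (by positivity) hB0)
          gcongr
  have q5 : d * |σ * (α * (φ₁ * P + φ * T₁))| ≤
      B * (U * (G * (|P| / s ^ 2))) + B * (U * (G * (s ^ 2 * |T₁|))) := by
    rw [abs_mul, abs_mul]
    calc d * (|σ| * (|α| * |φ₁ * P + φ * T₁|))
        ≤ d * (H * s ^ 2 * (|α| * (C / s ^ 2 * |P| + 1 * |T₁|))) := by
          gcongr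
          refine (abs_add_le _ _).trans (add_le_add ?_ ?_)
          · rw [abs_mul]; gcongr
          · rw [abs_mul]; gcongr
      _ = H * C * (d * |α| * |P|) + H * (d * |α| * (s ^ 2 * |T₁|)) := by field_simp
      _ ≤ _ := by
          refine add_le_add (mul_le_mul ?_ ((u3 _ hP).trans (by gcongr)) (by positivity) hB0)
            (mul_le_mul hH2 v4 (by positivity) hB0)
          rw [hB, mul_comm H C]
          exact mul_le_mul_of_nonneg_left (le_self_pow₀ hH two_ne_zero) (by linarith)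
  have un : ∀ x : ℝ, d * |φ * x| ≤ d * |x| := fun x => by
    rw [abs_mul]; gcongr; exact mul_le_of_le_one_left (abs_nonneg _) hφ
  have r0 : d * |α * P| ≤ U * (G * (|P| / s ^ 2)) := by
    rw [abs_mul, ← mul_assoc]; exact (u3 _ hP).trans (by gcongr)
  have r1 : d * |α₂ * P + 2 * (α₁ * P₁)| ≤
      U * (G * (|P| / s ^ 2) + Y * |P|) + 2 * (U * (G * (|P₁| / s))) := by
    refine (mul_le_mul_of_nonneg_left (abs_add_le _ _) hd).trans ?_
    rw [abs_mul, abs_mul, abs_two, abs_mul, mul_add, ← mul_assoc, mul_left_comm d 2, ← mul_assoc d]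
    linarith
  have r7 : d * |y ^ 2 * (α₂ * P + 2 * (α₁ * P₁) + α * Y₂)| ≤
      U * (G * (|P| / s ^ 2) + Y * |P|) + 2 * (U * (G * (|P₁| / s))) +
        U * (G * (s ^ 2 * |Y₂|)) := by
    rw [mul_add (y ^ 2)]
    refine (mul_le_mul_of_nonneg_left (abs_add_le _ _) hd).trans ?_
    rw [mul_add d]
    refine add_le_add (le_trans ?_ r1) (le_trans (le_of_eq ?_) u5)
    · rw [abs_mul, hy2]; gcongr; exact mul_le_of_le_one_left (abs_nonneg _) hyl
    · rw [abs_mul, hy2, abs_mul]; ring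
  have r8 : d * |y * (α₁ * P + α * P₁)| ≤ U * (G * (|P| / s ^ 2)) + U * (G * (|P₁| / s)) := by
    rw [mul_add y]
    refine (mul_le_mul_of_nonneg_left (abs_add_le _ _) hd).trans ?_
    rw [mul_add d]
    refine add_le_add (le_trans (le_of_eq ?_) u4) (le_trans (le_of_eq ?_) u6) <;>
      · rw [abs_mul, abs_mul]; ring
  have rb : d * |α * b| ≤ U * (G * |b|) := by rw [abs_mul, ← mul_assoc]; exact v2
  exact ⟨q2, q4, q5, r0, r1, r7, r8, rb⟩

/-- The arithmetic of the operator bound. -/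
lemma op_arith {d φ φ₁ φ₂ α α₁ α₂ P P₁ T₁ T₂ Y₂ b a σ y k' s Q W Y U H C : ℝ}
    (hd : 0 ≤ d) (hC : 1 ≤ C) (hU : 0 ≤ U) (hQ : 0 ≤ Q) (hY : 0 ≤ Y) (hs : 0 < s) (hs1 : s ≤ 1)
    (hW : 1 ≤ W) (hH : 1 ≤ H) (hσ : |σ| ≤ H * s ^ 2) (hy : |y| ≤ 1)
    (hφ : |φ| ≤ 1) (hφ₁ : |φ₁| ≤ C / s ^ 2) (hφ₂ : |φ₂| ≤ C / s ^ 4)
    (h0 : d * |α| ≤ U * (s * Q * W)) (h0' : d * |α| * y ^ 2 ≤ U * (s * Q * W) * s ^ 2)
    (h1 : d * |α₁| ≤ U * (Q * W)) (h1' : d * |α₁| * |y| ≤ U * (Q * W) * s)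
    (h2 : d * |α₂| ≤ U * (Q / s * W + Y)) :
    d * (|φ * (α₂ * P + 2 * (α₁ * P₁)) - 2 * a * (φ₁ * (α * P)) - 2 * a * (φ * (α * b))
      + σ ^ 2 * (α * (φ₂ * P + 2 * (φ₁ * T₁) + φ * T₂))
      + (2 + 2 * k') * σ * (α * (φ₁ * P + φ * T₁))
      + 2 * k' * (φ * (α * P))
      - y ^ 2 * (φ * (α₂ * P + 2 * (α₁ * P₁) + α * Y₂))
      - 2 * y * (φ * (α₁ * P + α * P₁))| + |k'| * |φ * (α * P)|) ≤
      20 * (1 + |a| + |k'|) * C * H ^ 2 * U *
        (s * Q * (W * (|P| / s ^ 2 + |P₁| / s + s ^ 4 * |T₂| + s ^ 2 * |T₁| + s ^ 2 * |Y₂| + |b|)) +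
          Y * |P|) := by
  obtain ⟨q2, q4, q5, r0, r1, r7, r8, rb⟩ := op_terms (b := b) (P := P) (P₁ := P₁) (T₁ := T₁) (T₂ := T₂) (Y₂ := Y₂)
    hd hC hU hQ hs hs1 hW hH hσ hy hφ hφ₁ hφ₂ h0 h0' h1 h1' h2
  have un : ∀ x : ℝ, d * |φ * x| ≤ d * |x| := fun x => by
    rw [abs_mul]; gcongr; exact mul_le_of_le_one_left (abs_nonneg _) hφ
  have hW0 : 0 ≤ W := by linarith
  set B := C * H ^ 2 with hB
  have hCH : 1 ≤ B := one_le_mul_of_one_le_of_one_le hC (one_le_pow₀ hH)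
  set G := s * Q * W with hG
  set Z := U * (s * Q * (W * (|P| / s ^ 2 + |P₁| / s + s ^ 4 * |T₂| + s ^ 2 * |T₁| + s ^ 2 * |Y₂| +
    |b|)) + Y * |P|) with hZ
  have eZ : Z = U * (G * (|P| / s ^ 2)) + U * (G * (|P₁| / s)) + U * (G * (s ^ 4 * |T₂|)) +
      U * (G * (s ^ 2 * |T₁|)) + U * (G * (s ^ 2 * |Y₂|)) + U * (G * |b|) + U * (Y * |P|) := by
    rw [hZ, hG]; ring
  rw [mul_add U] at r1 r7
  have hG0 : 0 ≤ G := by rw [hG]; positivity
  generalize hm : U * (G * (|P| / s ^ 2)) = m at *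
  generalize he : U * (G * (|P₁| / s)) = e₁ at *
  generalize ht : U * (G * (s ^ 4 * |T₂|)) = t₂ at *
  generalize ht' : U * (G * (s ^ 2 * |T₁|)) = t₁ at *
  generalize hy' : U * (G * (s ^ 2 * |Y₂|)) = y₂ at *
  generalize hn : U * (G * |b|) = n at *
  generalize hS : U * (Y * |P|) = S at *
  have m0 : 0 ≤ m := by rw [← hm]; positivity
  have e10 : 0 ≤ e₁ := by rw [← he]; positivity
  have t20 : 0 ≤ t₂ := by rw [← ht]; positivity
  have t10 : 0 ≤ t₁ := by rw [← ht']; positivity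
  have y20 : 0 ≤ y₂ := by rw [← hy']; positivity
  have n0 : 0 ≤ n := by rw [← hn]; positivity
  have S0 : 0 ≤ S := by rw [← hS]; positivity
  have hZ0 : 0 ≤ Z := by linarith
  have hBZ : Z ≤ B * Z := le_mul_of_one_le_left hZ0 hCH
  have hB0 : 0 ≤ B := by linarith
  have z1 := mul_le_mul_of_nonneg_left (show m ≤ Z by linarith) hB0
  have z2 := mul_le_mul_of_nonneg_left (show t₁ ≤ Z by linarith) hB0
  have z3 := mul_le_mul_of_nonneg_left (show t₂ ≤ Z by linarith) hB0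
  have k7 := (un _).trans r7
  have k8 := (un _).trans r8
  rw [show φ * (y ^ 2 * (α₂ * P + 2 * (α₁ * P₁) + α * Y₂)) =
    y ^ 2 * (φ * (α₂ * P + 2 * (α₁ * P₁) + α * Y₂)) by ring] at k7
  rw [show φ * (y * (α₁ * P + α * P₁)) = y * (φ * (α₁ * P + α * P₁)) by ring] at k8
  have h := op_sum (a := a) (k' := k') hd (mul_nonneg hB0 hZ0)
    (h1 := ((un _).trans r1).trans (by linarith)) (h2 := q2.trans z1)
    (h3 := ((un _).trans rb).trans (show n ≤ B * Z by linarith)) (h4 := q4.trans (by linarith))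
    (h5 := q5.trans (by linarith)) (h6 := ((un _).trans r0).trans (by linarith))
    (h7 := k7.trans (by linarith)) (h8 := k8.trans (by linarith))
  rw [mul_assoc (2 + 2 * k') σ, mul_assoc 2 y]
  refine h.trans (le_of_eq ?_)
  rw [hZ, hB]; ring

end Vale.Agent.P363.Ext.Growth
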