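import Vale.Agent.P363.Ext.Growth.JumpWin
import Vale.Agent.P363.Ext.Heat.Jump

/-!
P363, Kohn-Sham side: `CurvStmt`, the terms of the space cut-off and of the curvature in the jump
identity. On the window `τ / 4 ≤ σ ≤ 2 T` every term of `cutErr` and of `timeOp` of the cut-off
potential is one of the five weighted `L¹` quantities of `PotBoundStmt` with a gain of a power of
`τ`, except `σ² P_σσ`, which gains `1 / D`.
-/

noncomputable section

namespace Vale.Agent.P363.Ext.Growth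

open MeasureTheory Filter Set Metric
open scoped BigOperators Topology ContDiff

namespace Curv

lemma step_bounds : ∃ C : ℝ, 0 ≤ C ∧ ∀ u : ℝ,
    |deriv Real.smoothTransition u| ≤ C ∧ |deriv (deriv Real.smoothTransition) u| ≤ C := by
  set g := deriv Real.smoothTransition
  have hg : ContDiff ℝ ∞ g := (contDiff_infty_iff_deriv.1 Real.smoothTransition.contDiff).2
  have hz : ∀ u ∉ Icc (0 : ℝ) 1, g u = 0 := fun u hu => by
    rw [mem_Icc, not_and_or, not_le, not_le] at hu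
    rcases hu with h | h
    · have e : Real.smoothTransition =ᶠ[𝓝 u] fun _ => (0 : ℝ) := by
        filter_upwards [Iio_mem_nhds h] with v hv
        exact Real.smoothTransition.zero_of_nonpos (le_of_lt hv)
      simp only [g, e.deriv_eq, deriv_const]
    · have e : Real.smoothTransition =ᶠ[𝓝 u] fun _ => (1 : ℝ) := by
        filter_upwards [Ioi_mem_nhds h] with v hv
        exact Real.smoothTransition.one_of_one_le (le_of_lt hv)
      simp only [g, e.deriv_eq, deriv_const]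
  have hc : HasCompactSupport g := HasCompactSupport.intro isCompact_Icc hz
  obtain ⟨A, hA⟩ := hc.exists_bound_of_continuous hg.continuous
  obtain ⟨B, hB⟩ := hc.deriv.exists_bound_of_continuous
    (hg.continuous_deriv (by norm_num))
  exact ⟨|A| + |B|, by positivity, fun u => ⟨(hA u).trans (by linarith [le_abs_self A, abs_nonneg B]),
    (hB u).trans (by linarith [le_abs_self B, abs_nonneg A])⟩⟩

lemma hasDerivAt_downT (T u : ℝ) :
    HasDerivAt (downT T) (deriv Real.smoothTransition (2 - u / T) * -(1 / T)) u :=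
  ((Real.smoothTransition.contDiff (n := 1)).differentiable one_ne_zero
    (2 - u / T)).hasDerivAt.comp u (((hasDerivAt_id u).div_const T).const_sub 2)

lemma hasDerivAt_deriv_downT (T u : ℝ) :
    HasDerivAt (deriv (downT T))
      (deriv (deriv Real.smoothTransition) (2 - u / T) * (1 / T) ^ 2) u := by
  have e : deriv (downT T) = fun v => deriv Real.smoothTransition (2 - v / T) * -(1 / T) :=
    funext fun v => (hasDerivAt_downT T v).deriv
  have hg : ContDiff ℝ 1 (deriv Real.smoothTransition) :=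
    (contDiff_infty_iff_deriv.1 Real.smoothTransition.contDiff).2.of_le (by norm_cast)
  rw [e]
  exact (((hg.differentiable one_ne_zero (2 - u / T)).hasDerivAt.comp u
    (((hasDerivAt_id u).div_const T).const_sub 2)).mul_const (-(1 / T))).congr_deriv (by ring)

/-- The time cut-off and its derivatives. -/
lemma timeCut_bounds : ∃ C : ℝ, 0 ≤ C ∧ ∀ τ T : ℝ, 0 < τ → 10 * τ ≤ T → ∀ σ : ℝ,
    |timeCut τ T σ| ≤ 1 ∧ |deriv (timeCut τ T) σ| ≤ C / τ ∧
      |deriv (deriv (timeCut τ T)) σ| ≤ C / τ ^ 2 := by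
  obtain ⟨C, hC, hb⟩ := step_bounds
  refine ⟨17 * C, by positivity, fun τ T hτ hT σ => ?_⟩
  have hT0 : 0 < T := by linarith
  have h1T : 1 / T ≤ 1 / τ := one_div_le_one_div_of_le hτ (by linarith)
  have d1 : ∀ L, 0 < L → |deriv (downT L) σ| ≤ C * (1 / L) := fun L hL => by
    rw [(hasDerivAt_downT L σ).deriv, abs_mul, abs_neg, abs_of_pos (by positivity : 0 < 1 / L)]
    exact mul_le_mul_of_nonneg_right (hb _).1 (by positivity)
  have d2 : ∀ L, 0 < L → |deriv (deriv (downT L)) σ| ≤ C * (1 / L) ^ 2 := fun L hL => by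
    rw [(hasDerivAt_deriv_downT L σ).deriv, abs_mul, abs_of_pos (by positivity : 0 < (1 / L) ^ 2)]
    exact mul_le_mul_of_nonneg_right (hb _).2 (by positivity)
  have e4 : (1 : ℝ) / (τ / 4) = 4 * (1 / τ) := by field_simp
  refine ⟨abs_timeCut_le τ T σ, ?_, ?_⟩
  · rw [deriv_timeCut hτ hT]
    refine ((abs_sub _ _).trans (add_le_add ((d1 T hT0).trans (mul_le_mul_of_nonneg_left h1T hC))
      (d1 (τ / 4) (by positivity)))).trans ?_
    rw [e4, show C * (1 / τ) + C * (4 * (1 / τ)) = 5 * C / τ by ring]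
    gcongr
    linarith
  · rw [deriv_timeCut hτ hT, ((hasDerivAt_deriv_downT T σ).differentiableAt.hasDerivAt.fun_sub
      (hasDerivAt_deriv_downT (τ / 4) σ).differentiableAt.hasDerivAt).deriv]
    refine ((abs_sub _ _).trans (add_le_add ((d2 T hT0).trans
      (mul_le_mul_of_nonneg_left (pow_le_pow_left₀ (by positivity) h1T 2) hC))
      (d2 (τ / 4) (by positivity)))).trans (le_of_eq ?_)
    rw [e4]
    ring

lemma contDiff_cutθ (δ : ℝ) : ContDiff ℝ 2 (cutθ δ) :=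
  Real.smoothTransition.contDiff.comp
    (contDiff_const.mul (contDiff_const.sub ((contDiff_id.div_const δ).pow 2)))

/-- The space cut-off and its derivatives. -/
lemma cutθ_bounds {δ : ℝ} (hδ : 0 < δ) : ∃ C : ℝ, 0 ≤ C ∧ ∀ y : ℝ, |cutθ δ y| ≤ 1 ∧
    |deriv (cutθ δ) y| ≤ C ∧ |deriv (deriv (cutθ δ)) y| ≤ C := by
  have hc : HasCompactSupport (cutθ δ) :=
    isCompact_Icc.of_isClosed_subset (isClosed_tsupport _) (tsupport_cutθ hδ)
  have h1 : ContDiff ℝ 1 (deriv (cutθ δ)) :=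
    ((contDiff_succ_iff_deriv (n := 1)).1 (contDiff_cutθ δ)).2.2
  obtain ⟨A, hA⟩ := hc.deriv.exists_bound_of_continuous h1.continuous
  obtain ⟨B, hB⟩ := hc.deriv.deriv.exists_bound_of_continuous (h1.continuous_deriv le_rfl)
  refine ⟨|A| + |B|, by positivity, fun y => ⟨?_, ?_, ?_⟩⟩
  · rw [cutθ, abs_of_nonneg (Real.smoothTransition.nonneg _)]
    exact Real.smoothTransition.le_one _
  · exact (hA y).trans (by linarith [le_abs_self A, abs_nonneg B])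
  · exact (hB y).trans (by linarith [le_abs_self B, abs_nonneg A])

/-- Powers of `y` are absorbed by the weight. -/
lemma weight_absorb {τ : ℝ} (hτ : 0 < τ) (y : ℝ) :
    (1 + |y| / Real.sqrt τ) ^ 8 ≤ wt τ y ∧
      |y| * (1 + |y| / Real.sqrt τ) ^ 8 ≤ Real.sqrt τ * wt τ y ∧
      y ^ 2 * (1 + |y| / Real.sqrt τ) ^ 8 ≤ τ * wt τ y := by
  have hs : 0 < Real.sqrt τ := Real.sqrt_pos.2 hτ
  set a := 1 + |y| / Real.sqrt τ with ha
  have ha1 : 1 ≤ a := le_add_of_nonneg_right (by positivity)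
  have hy : |y| ≤ Real.sqrt τ * a := by
    rw [ha, mul_add, mul_one, mul_div_cancel₀ _ hs.ne']
    linarith
  have hy2 : y ^ 2 ≤ τ * a ^ 2 := by
    rw [← sq_abs, ← Real.sq_sqrt hτ.le, ← mul_pow]
    exact pow_le_pow_left₀ (abs_nonneg y) hy 2
  rw [wt, ← ha]
  refine ⟨pow_le_pow_right₀ ha1 (by norm_num), ?_, ?_⟩
  · calc |y| * a ^ 8 ≤ Real.sqrt τ * a * a ^ 8 := by gcongr
      _ = Real.sqrt τ * a ^ 9 := by ring
      _ ≤ _ := by gcongr <;> norm_num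
  · calc y ^ 2 * a ^ 8 ≤ τ * a ^ 2 * a ^ 8 := by gcongr
      _ = τ * a ^ 10 := by ring
      _ ≤ _ := by gcongr <;> norm_num

/-- The pointwise bound of all terms. -/
lemma term_bound {a k σ y τ N Ct Cs W8 w φ φ' φ'' χ χ' χ'' P Py Pt Pyy Ptt : ℝ}
    (hτ : 0 < τ) (hτ1 : τ ≤ 1) (hN : 1 ≤ N) (hσ0 : 0 ≤ σ) (hσ : σ ≤ 2 * N * τ) (hy : |y| ≤ 1)
    (hCt : 0 ≤ Ct) (hCs : 0 ≤ Cs) (h8 : 0 ≤ W8) (h8w : W8 ≤ w) (h8y : |y| * W8 ≤ Real.sqrt τ * w)
    (h8yy : y ^ 2 * W8 ≤ τ * w) (hφ : |φ| ≤ 1) (hφ' : |φ'| ≤ Ct / τ) (hφ'' : |φ''| ≤ Ct / τ ^ 2)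
    (hχ : |χ| ≤ 1) (hχ' : |χ'| ≤ Cs) (hχ'' : |χ''| ≤ Cs) :
    W8 * (|φ * (χ'' * P + 2 * χ' * Py)| +
      |φ * χ * (σ ^ 2 * Ptt + (2 + 2 * (k / a)) * σ * Pt + 2 * (k / a) * P - y ^ 2 * Pyy
            - 2 * y * Py)
        + φ' * χ * (2 * σ ^ 2 * Pt + (2 + 2 * (k / a)) * σ * P)
        + φ'' * χ * (σ ^ 2 * P)
        - (y ^ 2 * (φ * (χ'' * P + 2 * χ' * Py)) + 2 * y * (φ * χ' * P))|) ≤
      (4 * Cs + 2 * |k / a| + Ct * |2 + 2 * (k / a)| * (2 * N) + Ct * (4 * N ^ 2)) * (w * |P|) +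
      (4 * Cs + 2) * (w * |Py|) +
      (|2 + 2 * (k / a)| * (2 * N) + Ct * (8 * N ^ 2)) * τ * (w * |Pt|) +
      τ * (w * |Pyy|) + 4 * N ^ 2 * τ ^ 2 * (w * |Ptt|) := by
  have hw : 0 ≤ w := h8.trans h8w
  have hσ2 : σ ^ 2 ≤ 4 * N ^ 2 * τ ^ 2 := (pow_le_pow_left₀ hσ0 hσ 2).trans_eq (by ring)
  have hy2 : y ^ 2 ≤ 1 := by rw [← sq_abs]; exact pow_le_one₀ (abs_nonneg y) hy
  set c1 := |2 + 2 * (k / a)|
  set A := |φ * (χ'' * P + 2 * χ' * Py)| with hA
  have hAle : A ≤ Cs * |P| + 2 * Cs * |Py| := by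
    rw [hA, abs_mul]
    refine (mul_le_of_le_one_left (abs_nonneg _) hφ).trans ((abs_add_le _ _).trans ?_)
    rw [abs_mul, abs_mul, abs_mul, abs_two]
    gcongr
  set B1 := σ ^ 2 * |Ptt| + c1 * σ * |Pt| + 2 * |k / a| * |P| + y ^ 2 * |Pyy| + 2 * |y| * |Py|
  have hB1 : |φ * χ * (σ ^ 2 * Ptt + (2 + 2 * (k / a)) * σ * Pt + 2 * (k / a) * P - y ^ 2 * Pyy
      - 2 * y * Py)| ≤ B1 := by
    rw [abs_mul, abs_mul φ]
    refine (mul_le_of_le_one_left (abs_nonneg _) (mul_le_one₀ hφ (abs_nonneg _) hχ)).trans ?_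
    refine (abs_sub _ _).trans (add_le_add ((abs_sub _ _).trans (add_le_add ((abs_add_le _ _).trans
      (add_le_add ((abs_add_le _ _).trans (le_of_eq ?_)) (le_of_eq ?_))) (le_of_eq ?_))) (le_of_eq ?_))
    · simp only [c1, abs_mul, abs_of_nonneg (sq_nonneg σ), abs_of_nonneg hσ0]
    · simp only [abs_mul, abs_two]
    · simp only [abs_mul, abs_of_nonneg (sq_nonneg y)]
    · simp only [abs_mul, abs_two]
  set B2 := Ct / τ * (2 * (4 * N ^ 2 * τ ^ 2) * |Pt| + c1 * (2 * N * τ) * |P|)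
  have hB2 : |φ' * χ * (2 * σ ^ 2 * Pt + (2 + 2 * (k / a)) * σ * P)| ≤ B2 := by
    rw [abs_mul, abs_mul φ']
    refine mul_le_mul ((mul_le_of_le_one_right (abs_nonneg _) hχ).trans hφ') ?_ (abs_nonneg _)
      (by positivity)
    refine (abs_add_le _ _).trans ?_
    simp only [abs_mul, abs_two, abs_of_nonneg (sq_nonneg σ), abs_of_nonneg hσ0]
    gcongr
  set B3 := Ct / τ ^ 2 * (4 * N ^ 2 * τ ^ 2 * |P|)
  have hB3 : |φ'' * χ * (σ ^ 2 * P)| ≤ B3 := by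
    rw [abs_mul, abs_mul φ'', abs_mul (σ ^ 2), abs_of_nonneg (sq_nonneg σ)]
    exact mul_le_mul ((mul_le_of_le_one_right (abs_nonneg _) hχ).trans hφ'')
      (mul_le_mul_of_nonneg_right hσ2 (abs_nonneg _)) (by positivity) (by positivity)
  have hB4 : |y ^ 2 * (φ * (χ'' * P + 2 * χ' * Py)) + 2 * y * (φ * χ' * P)| ≤
      A + 2 * Cs * |P| := by
    refine (abs_add_le _ _).trans (add_le_add ?_ ?_)
    · rw [abs_mul, abs_of_nonneg (sq_nonneg y)]
      exact mul_le_of_le_one_left (abs_nonneg _) hy2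
    · simp only [abs_mul, abs_two]
      calc 2 * |y| * (|φ| * |χ'| * |P|) ≤ 2 * 1 * (1 * Cs * |P|) := by gcongr
        _ = _ := by ring
  have hall := (abs_sub _ _).trans (add_le_add ((abs_add_le _ _).trans
    (add_le_add ((abs_add_le _ _).trans (add_le_add hB1 hB2)) hB3)) hB4)
  refine (mul_le_mul_of_nonneg_left (add_le_add le_rfl hall) h8).trans ?_
  have t0 : W8 * A ≤ w * (Cs * |P| + 2 * Cs * |Py|) :=
    mul_le_mul h8w hAle (abs_nonneg _) hw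
  have t1 : W8 * B1 ≤ w * (4 * N ^ 2 * τ ^ 2 * |Ptt| + c1 * (2 * N * τ) * |Pt| +
      2 * |k / a| * |P|) + τ * w * |Pyy| + 2 * (w * |Py|) := by
    have u1 : W8 * (σ ^ 2 * |Ptt| + c1 * σ * |Pt| + 2 * |k / a| * |P|) ≤
        w * (4 * N ^ 2 * τ ^ 2 * |Ptt| + c1 * (2 * N * τ) * |Pt| + 2 * |k / a| * |P|) := by
      refine mul_le_mul h8w ?_ (by positivity) hw
      gcongr
    have u2 := mul_le_mul_of_nonneg_right h8yy (abs_nonneg Pyy)
    have u3 : |y| * W8 * |Py| ≤ w * |Py| := by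
      refine mul_le_mul_of_nonneg_right (h8y.trans (mul_le_of_le_one_left hw ?_)) (abs_nonneg _)
      exact Real.sqrt_le_one.2 hτ1
    calc W8 * B1 = W8 * (σ ^ 2 * |Ptt| + c1 * σ * |Pt| + 2 * |k / a| * |P|) +
          y ^ 2 * W8 * |Pyy| + 2 * (|y| * W8 * |Py|) := by simp only [B1]; ring
      _ ≤ _ := by linarith
  have t2 : W8 * (B2 + B3) ≤ w * (B2 + B3) :=
    mul_le_mul_of_nonneg_right h8w (by positivity)
  have t3 : W8 * (2 * Cs * |P|) ≤ w * (2 * Cs * |P|) :=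
    mul_le_mul_of_nonneg_right h8w (by positivity)
  have e2 : w * (B2 + B3) = Ct * (8 * N ^ 2) * τ * (w * |Pt|) +
      Ct * c1 * (2 * N) * (w * |P|) + Ct * (4 * N ^ 2) * (w * |P|) := by
    simp only [B2, B3]
    field_simp
    ring
  rw [e2] at t2
  linarith

/-- Both integrals against the five weighted `L¹` bounds. -/
lemma window_sum {S : Setup} {δ R K M η : ℝ} (hK : 0 ≤ K) (hM : 0 ≤ M)
    (hη : 0 ≤ η) {ν : ℝ} {f : Space → ℝ} (hf : Profile S ν f) {Sw N D τ θ T : ℝ}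
    (hW : Window Sw N D τ θ T) (hN : 10 ≤ N) (hRS : S.R₁ ≤ R) (hTR : 4 * T * R ≤ 1) (hδ : 0 < δ)
    (hδ1 : δ ≤ 1 / 4) {Cu : ℝ} (hCu : 0 ≤ Cu)
    (hu : ∀ σ y, τ / 4 ≤ σ → σ ≤ 2 * T → |y| ≤ δ → |tred S f σ y| ≤
      Cu * (K + M) * (τ ^ 4 + η * Real.sqrt τ) * (1 + |y| / Real.sqrt τ) ^ 8)
    {Ct Cs : ℝ} (hCt : 0 ≤ Ct) (hCs : 0 ≤ Cs)
    (hφ : ∀ σ : ℝ, |timeCut τ T σ| ≤ 1 ∧ |deriv (timeCut τ T) σ| ≤ Ct / τ ∧
      |deriv (deriv (timeCut τ T)) σ| ≤ Ct / τ ^ 2)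
    (hχ : ∀ y : ℝ, |cutθ δ y| ≤ 1 ∧ |deriv (cutθ δ) y| ≤ Cs ∧ |deriv (deriv (cutθ δ)) y| ≤ Cs)
    {C : ℝ}
    (i0 : ∫ p in Iic (2 * T) ×ˢ univ, wt τ p.2 * |boxPot S.κ D τ θ p.1 p.2| ≤ C * τ)
    (i1 : ∫ p in Iic (2 * T) ×ˢ univ, wt τ p.2 * |Heat.dY (boxPot S.κ D τ θ) p.1 p.2| ≤
      C * Real.sqrt τ)
    (i2 : ∫ p in Iic (2 * T) ×ˢ univ, wt τ p.2 * |Heat.dT (boxPot S.κ D τ θ) p.1 p.2| ≤
      C * (D + |Real.log τ|))
    (i3 : ∫ p in Iic (2 * T) ×ˢ univ,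
      wt τ p.2 * |Heat.dY (Heat.dY (boxPot S.κ D τ θ)) p.1 p.2| ≤ C * (D + |Real.log τ|))
    (i4 : ∫ p in Iic (2 * T) ×ˢ univ,
      wt τ p.2 * |Heat.dT (Heat.dT (boxPot S.κ D τ θ)) p.1 p.2| ≤ C / (D * τ ^ 2)) :
    |∫ p : ℝ × ℝ, tred S f p.1 p.2 *
        Heat.cutErr (timeCut τ T) (cutθ δ) (boxPot S.κ D τ θ) p.1 p.2| +
      |∫ p : ℝ × ℝ, tred S f p.1 p.2 *
        Heat.timeOp S.a S.k (Heat.cut (timeCut τ T) (cutθ δ) (boxPot S.κ D τ θ)) p.1 p.2| ≤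
      Cu * (K + M) * (τ ^ 4 + η * Real.sqrt τ) *
        ((4 * Cs + 2 * |S.k / S.a| + Ct * |2 + 2 * (S.k / S.a)| * (2 * N) + Ct * (4 * N ^ 2)) *
            (C * τ) + (4 * Cs + 2) * (C * Real.sqrt τ) +
          (|2 + 2 * (S.k / S.a)| * (2 * N) + Ct * (8 * N ^ 2)) * τ * (C * (D + |Real.log τ|)) +
          τ * (C * (D + |Real.log τ|)) + 4 * N ^ 2 * τ ^ 2 * (C / (D * τ ^ 2))) := by
  have hκ : 0 < S.κ := one_div_pos.2 (by linarith [S.data.a_pos])
  have hW' := hW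
  obtain ⟨hτ, -, hT10, hTN, hD1, -, hT4⟩ := hW
  have hD : 0 < D := by linarith
  have hT : τ ≤ T := by linarith
  have hτ1 : τ ≤ 1 := by linarith
  obtain ⟨j0, j1, j2, j3, j4⟩ := boxPot_integrable hκ hD hτ θ (2 * T)
  have hsrc := source_box hD hτ θ
  set P := boxPot S.κ D τ θ
  have hP : ContDiff ℝ 2 (Function.uncurry P) :=
    Heat.contDiff_pot (n := 2) hκ hsrc.smooth hsrc.compact
  set Φ := timeCut τ T
  set χ := cutθ δ
  set c := |2 + 2 * (S.k / S.a)|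
  set c0 := 4 * Cs + 2 * |S.k / S.a| + Ct * c * (2 * N) + Ct * (4 * N ^ 2)
  set c2 := (c * (2 * N) + Ct * (8 * N ^ 2)) * τ
  set E := Cu * (K + M) * (τ ^ 4 + η * Real.sqrt τ) with hE
  have hE0 : 0 ≤ E := by positivity
  set Ω : Set (ℝ × ℝ) := Iic (2 * T) ×ˢ univ
  have hΩ : MeasurableSet Ω := measurableSet_Iic.prod MeasurableSet.univ
  set H : ℝ × ℝ → ℝ := fun p => c0 * (wt τ p.2 * |P p.1 p.2|) +
    (4 * Cs + 2) * (wt τ p.2 * |Heat.dY P p.1 p.2|) + c2 * (wt τ p.2 * |Heat.dT P p.1 p.2|) +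
    τ * (wt τ p.2 * |Heat.dY (Heat.dY P) p.1 p.2|) +
    4 * N ^ 2 * τ ^ 2 * (wt τ p.2 * |Heat.dT (Heat.dT P) p.1 p.2|) with hH
  have k0 := j0.const_mul c0
  have k1 := j1.const_mul (4 * Cs + 2)
  have k2 := j2.const_mul c2
  have k3 := j3.const_mul τ
  have k4 := j4.const_mul (4 * N ^ 2 * τ ^ 2)
  have hHi : IntegrableOn H Ω := (((k0.add k1).add k2).add k3).add k4
  set Z := tsupport Φ ×ˢ tsupport χ
  have hsub : ∀ p : ℝ × ℝ, p ∈ Z → τ / 4 ≤ p.1 ∧ p.1 ≤ 2 * T ∧ |p.2| ≤ δ := fun p hp =>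
    ⟨(tsupport_timeCut hτ (hτ.trans_le hT) hp.1).1, (tsupport_timeCut hτ (hτ.trans_le hT) hp.1).2,
      abs_le.2 (tsupport_cutθ hδ hp.2)⟩
  have hz : ∀ p : ℝ × ℝ, p ∉ Z →
      Heat.cutErr Φ χ P p.1 p.2 = 0 ∧ Heat.timeOp S.a S.k (Heat.cut Φ χ P) p.1 p.2 = 0 := by
    intro p hp
    rw [Set.mem_prod, not_and_or] at hp
    have hd : ∀ {g : ℝ → ℝ} {x : ℝ}, x ∉ tsupport g →
        g x = 0 ∧ deriv g x = 0 ∧ deriv (deriv g) x = 0 := fun {g x} hx =>
      ⟨image_eq_zero_of_notMem_tsupport hx, by_contra fun h => hx (support_deriv_subset h),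
        by_contra fun h => hx (closure_minimal support_deriv_subset (isClosed_tsupport _)
          (support_deriv_subset h))⟩
    have hrule := Heat.cutRule S.a S.k Φ χ P univ isOpen_univ (contDiff_timeCut τ T (n := 2))
      (contDiff_cutθ δ) hP.contDiffOn p.1 (mem_univ _) p.2
    rcases hp with hp | hp <;> obtain ⟨z0, z1, z2⟩ := hd hp <;>
      exact ⟨by simp [Heat.cutErr, z0, z1, z2], by rw [hrule]; simp [Heat.cutErr, z0, z1, z2]⟩
  have hpt : ∀ p : ℝ × ℝ, |tred S f p.1 p.2 * Heat.cutErr Φ χ P p.1 p.2| +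
      |tred S f p.1 p.2 * Heat.timeOp S.a S.k (Heat.cut Φ χ P) p.1 p.2| ≤
      Ω.indicator (fun p => E * H p) p := fun p => by
    by_cases hp : p ∈ Z
    swap
    · obtain ⟨z1, z2⟩ := hz p hp
      rw [z1, z2, mul_zero, abs_zero, add_zero]
      exact Set.indicator_nonneg (fun q _ => by
        have := wt_nonneg τ q.2
        simp only [H, c0, c2, c]
        positivity) p
    obtain ⟨hσ1, hσ2, hy⟩ := hsub p hp
    rw [Set.indicator_of_mem (show p ∈ Ω from ⟨hσ2, trivial⟩)]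
    have hu := hu p.1 p.2 hσ1 hσ2 hy
    obtain ⟨w8, w8y, w8yy⟩ := weight_absorb hτ p.2
    obtain ⟨f0, f1, f2⟩ := hφ p.1
    obtain ⟨g0, g1, g2⟩ := hχ p.2
    have ht := term_bound (a := S.a) (k := S.k) (P := P p.1 p.2) (Py := Heat.dY P p.1 p.2)
      (Pt := Heat.dT P p.1 p.2) (Pyy := Heat.dY (Heat.dY P) p.1 p.2)
      (Ptt := Heat.dT (Heat.dT P) p.1 p.2) hτ hτ1 (by linarith : 1 ≤ N)
      (by linarith : 0 ≤ p.1) (by linarith) (hy.trans (by linarith)) hCt hCs (by positivity) w8 w8y w8yy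
      f0 f1 f2 g0 g1 g2
    have hrule := Heat.cutRule S.a S.k Φ χ P univ isOpen_univ (contDiff_timeCut τ T (n := 2))
      (contDiff_cutθ δ) hP.contDiffOn p.1 (mem_univ _) p.2
    rw [abs_mul, abs_mul, ← mul_add, hrule]
    refine (mul_le_mul_of_nonneg_right hu (add_nonneg (abs_nonneg _) (abs_nonneg _))).trans ?_
    rw [mul_assoc]
    exact mul_le_mul_of_nonneg_left ht hE0
  set g := Ω.indicator fun p => E * H p
  have hEH : IntegrableOn (fun p => E * H p) Ω := hHi.const_mul E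
  have hgi : Integrable g := hEH.integrable_indicator hΩ
  have habs : ∀ {u v : ℝ × ℝ → ℝ}, (∀ p, |u p| + |v p| ≤ g p) →
      Integrable u → Integrable v → |∫ p, u p| + |∫ p, v p| ≤ ∫ p, g p := fun {u v} h hu hv => by
    refine (add_le_add abs_integral_le_integral_abs abs_integral_le_integral_abs).trans ?_
    rw [← integral_add hu.abs hv.abs]
    exact integral_mono (hu.abs.add hv.abs) hgi h
  have hZ : IsCompact Z :=
    (isCompact_Icc.of_isClosed_subset (isClosed_tsupport _) (tsupport_timeCut hτ (hτ.trans_le hT))).prod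
      (isCompact_Icc.of_isClosed_subset (isClosed_tsupport _) (tsupport_cutθ hδ))
  set V : Set (ℝ × ℝ) := Ioo 0 S.R₁⁻¹ ×ˢ Ioo (-(1 / 2)) (1 / 2)
  have hR₁ : 0 < S.R₁ := by linarith [one_le_R₁ S]
  have hZV : Z ⊆ V := fun p hp => by
    obtain ⟨h1, h2, h3⟩ := hsub p hp
    obtain ⟨h4, h5⟩ := abs_le.1 h3
    refine ⟨⟨by linarith, ?_⟩, by linarith, by linarith⟩
    rw [inv_eq_one_div, lt_div_iff₀ hR₁]
    have := mul_le_mul_of_nonneg_right h2 hR₁.le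
    have := mul_le_mul_of_nonneg_left hRS (by linarith : 0 ≤ T)
    linarith
  have hu : ContinuousOn (fun p : ℝ × ℝ => tred S f p.1 p.2) V :=
    Heat.continuousOn_red (one_le_R₁ S) hf.continuousOn
  have hint : ∀ G : ℝ × ℝ → ℝ, Continuous G → (∀ p ∉ Z, G p = 0) →
      Integrable fun p => tred S f p.1 p.2 * G p := fun G hG hG0 =>
    Heat.integrable_of_zero_off (isOpen_Ioo.prod isOpen_Ioo) hZ hZV (hu.mul hG.continuousOn)
      fun p hp => by rw [hG0 p hp, mul_zero]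
  have hχ1 : ContDiff ℝ 1 (deriv χ) :=
    ((contDiff_succ_iff_deriv (n := 1)).1 (contDiff_cutθ δ)).2.2
  have hcutc : ContDiff ℝ 2 (Function.uncurry (Heat.cut Φ χ P)) :=
    (((contDiff_timeCut τ T (n := 2)).comp contDiff_fst).mul ((contDiff_cutθ δ).comp contDiff_snd)).mul hP
  have hc1 : Continuous fun p : ℝ × ℝ => Heat.cutErr Φ χ P p.1 p.2 := by
    have c1 : Continuous fun p : ℝ × ℝ => P p.1 p.2 := hP.continuous
    have c2 : Continuous fun p : ℝ × ℝ => Heat.dY P p.1 p.2 :=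
      Heat.continuous_dY (hP.of_le (by norm_num))
    have c3 := (contDiff_timeCut τ T (n := 2)).continuous
    have c4 := hχ1.continuous
    have c5 := hχ1.continuous_deriv le_rfl
    unfold Heat.cutErr
    fun_prop
  have hc2 : Continuous fun p : ℝ × ℝ => Heat.timeOp S.a S.k (Heat.cut Φ χ P) p.1 p.2 :=
    continuousOn_univ.1 (Heat.contDiffOn_timeOp S.a S.k isOpen_univ hcutc.contDiffOn)
  refine (habs hpt (hint _ hc1 fun p hp => (hz p hp).1)
    (hint _ hc2 fun p hp => (hz p hp).2)).trans ?_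
  rw [integral_indicator hΩ, integral_const_mul]
  refine mul_le_mul_of_nonneg_left ?_ hE0
  simp only [hH]
  rw [integral_add (((k0.fun_add k1).fun_add k2).fun_add k3) k4,
    integral_add ((k0.fun_add k1).fun_add k2) k3, integral_add (k0.fun_add k1) k2, integral_add k0 k1, integral_const_mul, integral_const_mul,
    integral_const_mul, integral_const_mul, integral_const_mul]
  gcongr

/-- The limit bookkeeping. -/
lemma arith {N Cu C c0 c1 c2 D τ q KM G : ℝ} (hc0 : 0 ≤ c0) (hc2 : 0 ≤ c2) (hC : 0 ≤ C) (hD : 0 < D)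
    (hτ : 0 < τ) (hτ1 : τ ≤ 1) (hKM : 0 ≤ KM) (hG : 0 ≤ G) (hCu : 0 ≤ Cu) (hq : 0 ≤ q)
    (hDq : Cu * (4 * N ^ 2 * C) ≤ q / 2 * D)
    (hτq : Cu * (c0 * C + c1 * C + (c2 + 1) * C * (D + 2)) * Real.sqrt τ ≤ q / 2) :
    Cu * KM * G * (c0 * (C * τ) + c1 * (C * Real.sqrt τ) +
      c2 * τ * (C * (D + |Real.log τ|)) + τ * (C * (D + |Real.log τ|)) +
      4 * N ^ 2 * τ ^ 2 * (C / (D * τ ^ 2))) ≤ q * (1 + KM) * G := by
  set s := Real.sqrt τ
  have hs0 : 0 < s := Real.sqrt_pos.2 hτ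
  have hs1 : s ≤ 1 := Real.sqrt_le_one.2 hτ1
  have hss : s * s = τ := Real.mul_self_sqrt hτ.le
  have hτs : τ ≤ s := hss ▸ mul_le_of_le_one_left hs0.le hs1
  have hlog : τ * |Real.log τ| ≤ 2 * s := by
    have h1 : |Real.log τ| ≤ 2 / s := by
      rw [abs_of_nonpos (Real.log_nonpos hτ.le hτ1), ← Real.log_inv,
        show τ⁻¹ = (1 / s) ^ 2 by rw [div_pow, one_pow, pow_two, hss, one_div], Real.log_pow]
      have := Real.log_le_sub_one_of_pos (show (0 : ℝ) < 1 / s by positivity)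
      rw [show (2 : ℝ) / s = 2 * (1 / s) by ring]
      push_cast
      linarith
    refine (mul_le_mul_of_nonneg_left h1 hτ.le).trans (le_of_eq ?_)
    rw [← hss]
    field_simp
  have hL : τ * (C * (D + |Real.log τ|)) ≤ C * (D + 2) * s := by
    nlinarith [mul_le_mul_of_nonneg_left hτs (mul_nonneg hC hD.le),
      mul_le_mul_of_nonneg_left hlog hC]
  have h0 := mul_le_mul_of_nonneg_left hτs (mul_nonneg hc0 hC)
  have h2 := mul_le_mul_of_nonneg_left hL hc2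
  have hN8 : 0 ≤ Cu := hCu
  have e4 : 4 * N ^ 2 * τ ^ 2 * (C / (D * τ ^ 2)) = 4 * N ^ 2 * C / D := by field_simp
  have hDq' : Cu * (4 * N ^ 2 * C / D) ≤ q / 2 := by
    rw [← mul_div_assoc, div_le_iff₀ hD]; exact hDq
  have key : Cu * (c0 * (C * τ) + c1 * (C * s) + c2 * τ * (C * (D + |Real.log τ|)) +
      τ * (C * (D + |Real.log τ|)) + 4 * N ^ 2 * τ ^ 2 * (C / (D * τ ^ 2))) ≤ q := by
    rw [e4, mul_add]
    refine le_trans (add_le_add ((mul_le_mul_of_nonneg_left (show _ ≤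
      (c0 * C + c1 * C + (c2 + 1) * C * (D + 2)) * s by linarith) hN8).trans
        (show _ ≤ q / 2 by rw [← mul_assoc]; exact hτq)) hDq') (le_of_eq (by ring))
  calc _ = Cu * (c0 * (C * τ) + c1 * (C * s) + c2 * τ * (C * (D + |Real.log τ|)) +
        τ * (C * (D + |Real.log τ|)) + 4 * N ^ 2 * τ ^ 2 * (C / (D * τ ^ 2))) * (KM * G) := by ring
    _ ≤ q * (KM * G) := mul_le_mul_of_nonneg_right key (mul_nonneg hKM hG)
    _ ≤ _ := by nlinarith [mul_nonneg hq hG]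

end Curv

/-- The terms of the space cut-off and of the curvature. -/
theorem curvStmt_of (hP : PotBoundStmt) : CurvStmt := by
  intro S Sw K N q hSw hK hN hq
  have hκ : 0 < S.κ := one_div_pos.2 (by linarith [S.data.a_pos])
  obtain ⟨C, hC, hb⟩ := hP S.κ Sw N hκ hSw hN
  obtain ⟨Ct, hCt, hφ⟩ := Curv.timeCut_bounds
  obtain ⟨Cu, hCu, hu⟩ := exists_tred_le hN
  refine ⟨Cu * (4 * N ^ 2 * C) / (q / 2), fun D hD hD1 => ?_⟩
  refine ⟨1 / 4, by norm_num, fun δ hδ hδle => ?_⟩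
  obtain ⟨Cs, hCs, hχ⟩ := Curv.cutθ_bounds hδ
  set c := |2 + 2 * (S.k / S.a)|
  set c0 := 4 * Cs + 2 * |S.k / S.a| + Ct * c * (2 * N) + Ct * (4 * N ^ 2)
  set c2 := c * (2 * N) + Ct * (8 * N ^ 2)
  set Z := Cu * (c0 * C + (4 * Cs + 2) * C + (c2 + 1) * C * (D + 2))
  refine ⟨max S.R₁ ((2 * Z / q) ^ 2), fun R M η hPar hL ν f hf τ θ T hW hTR => ?_⟩
  obtain ⟨hR1, hR2⟩ := max_le_iff.1 hPar.R_ge
  have hR : 0 ≤ R := by linarith [one_le_R₁ S]
  have hτ := hW.τ_pos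
  have hT10 := hW.T_ge
  have hτ1 : τ ≤ 1 := by linarith [hW.small]
  have hτT : τ ≤ T := by linarith
  obtain ⟨-, i0, i1, i2, i3, i4⟩ := hb D τ θ T hW
  refine (Curv.window_sum hK hPar.M_nonneg hPar.η_nonneg hf hW hN hR1 hTR hδ hδle hCu
    (fun σ y h1 h2 h3 => hu S δ R K M η ν f hL hf hK hPar.M_nonneg hPar.η_nonneg (by linarith)
      τ T σ y hτ hW.T_le hW.small hTR (by linarith [one_le_R₁ S]) h1 h2 h3) hCt hCs
    (hφ τ T hτ hT10)
    hχ i0 i1 i2 i3 i4).trans ?_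
  rw [add_assoc 1 K M]
  have hc0 : 0 ≤ c0 := by positivity
  have hc2 : 0 ≤ c2 := by positivity
  refine Curv.arith hc0 hc2 hC (by linarith) hτ hτ1 (by linarith [hPar.M_nonneg]) ?_ hCu hq.le ?_ ?_
  · have := hPar.η_nonneg
    positivity
  · rw [div_le_iff₀ (by positivity)] at hD
    linarith
  · have hRτ : R * τ ≤ 1 := by nlinarith [mul_le_mul_of_nonneg_left hT10 hR]
    have h : (2 * Z / q * Real.sqrt τ) ^ 2 ≤ 1 := by
      rw [mul_pow, Real.sq_sqrt hτ.le]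
      exact (mul_le_mul_of_nonneg_right hR2 hτ.le).trans hRτ
    have h' : 2 * Z / q * Real.sqrt τ ≤ 1 :=
      (le_abs_self _).trans (abs_le_one_iff_mul_self_le_one.2 (by rwa [← pow_two]))
    rw [div_mul_eq_mul_div, div_le_iff₀ hq] at h'
    linarith

end Vale.Agent.P363.Ext.Growth
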