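import Vale.Agent.P363.Ext.Growth.JumpBox
import Vale.Agent.P363.Ext.Heat.Singular

/-!
`PotBoundStmt`: the bounds of the potential of the box.
-/

noncomputable section

namespace Vale.Agent.P363.Ext.Growth

open MeasureTheory Filter Set
open scoped BigOperators Topology

theorem wt_nonneg (τ y : ℝ) : 0 ≤ wt τ y := by unfold wt; positivity

theorem wt_le_mul (τ y y' : ℝ) : wt τ y ≤ wt τ y' * wt τ (y - y') := by
  rw [wt, wt, wt, ← mul_pow]
  refine pow_le_pow_left₀ (by positivity) ?_ 18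
  have h1 : |y| / Real.sqrt τ ≤ |y'| / Real.sqrt τ + |y - y'| / Real.sqrt τ := by
    rw [← add_div]
    gcongr
    simpa using abs_add_le y' (y - y')
  have h2 : 0 ≤ |y'| / Real.sqrt τ * (|y - y'| / Real.sqrt τ) := by positivity
  nlinarith

theorem wt_le_split (τ y : ℝ) : wt τ y ≤ 2 ^ 17 * (1 + |y| ^ 18 / Real.sqrt τ ^ 18) := by
  rw [← div_pow]
  refine (add_pow_le zero_le_one (by positivity) 18).trans (le_of_eq ?_)
  norm_num

/-- Weighted integrals from the moments of order `0` and `18`. -/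
theorem wt_split {F : ℝ × ℝ → ℝ} {Ω : Set (ℝ × ℝ)} {τ B₀ B₁ : ℝ}
    (h0 : IntegrableOn (fun p : ℝ × ℝ => |p.2| ^ 0 * |F p|) Ω)
    (h1 : IntegrableOn (fun p : ℝ × ℝ => |p.2| ^ 18 * |F p|) Ω)
    (b0 : ∫ p in Ω, |p.2| ^ 0 * |F p| ≤ B₀) (b1 : ∫ p in Ω, |p.2| ^ 18 * |F p| ≤ B₁) :
    ∫ p in Ω, wt τ p.2 * |F p| ≤ 2 ^ 17 * (B₀ + B₁ / Real.sqrt τ ^ 18) := by
  have hi := (Integrable.add h0 (h1.div_const (Real.sqrt τ ^ 18))).const_mul (2 ^ 17 : ℝ)
  refine (integral_mono_of_nonneg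
    (Eventually.of_forall fun p => mul_nonneg (wt_nonneg _ _) (abs_nonneg _)) hi
    (Eventually.of_forall fun p => ?_)).trans ?_
  · refine (mul_le_mul_of_nonneg_right (wt_le_split τ p.2) (abs_nonneg _)).trans (le_of_eq ?_)
    simp only [Pi.add_apply]
    ring
  · rw [integral_const_mul]
    refine mul_le_mul_of_nonneg_left ?_ (by positivity)
    simp only [Pi.add_apply]
    rw [integral_add h0 (h1.div_const _), integral_div]
    exact add_le_add b0 (div_le_div_of_nonneg_right b1 (by positivity))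

/-- The kernel against the weight. -/
theorem exists_kern_wt (m : ℕ) {V : ℝ} (hV : 0 < V) : ∃ C, 0 ≤ C ∧ ∀ τ v x, 0 < τ → 0 < v →
    v ≤ V * τ →
    wt τ x * |Heat.kernD m v x| ≤ C / Real.sqrt v ^ (m + 1) * Real.exp (-(x ^ 2 / (8 * v))) := by
  obtain ⟨C, hC, hb⟩ := Heat.exists_kernD_bound m
  have hc : (0 : ℝ) < 1 / (8 * V) := by positivity
  refine ⟨C * ((18 : ℕ).factorial * Real.exp (1 + 1 / (2 * (1 / (8 * V))))), by positivity,
    fun τ v x hτ hv hle => ?_⟩
  have key : wt τ x * Real.exp (-(x ^ 2 / (8 * v))) ≤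
      (18 : ℕ).factorial * Real.exp (1 + 1 / (2 * (1 / (8 * V)))) := by
    have h := Heat.pow_mul_exp_le 18 hc (x / Real.sqrt τ)
    rw [abs_div, abs_of_pos (Real.sqrt_pos.2 hτ)] at h
    refine le_trans (mul_le_mul_of_nonneg_left (Real.exp_le_exp.2 ?_) (wt_nonneg _ _))
      (h.trans (mul_le_of_le_one_right (by positivity) (Real.exp_le_one_iff.2 ?_)))
    · rw [neg_le_neg_iff, div_pow, Real.sq_sqrt hτ.le, div_mul_div_comm, one_mul, mul_assoc]
      exact div_le_div_of_nonneg_left (sq_nonneg x) (by positivity)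
        (mul_le_mul_of_nonneg_left hle (by norm_num))
    · rw [neg_nonpos]
      positivity
  calc wt τ x * |Heat.kernD m v x|
      ≤ wt τ x * (C / Real.sqrt v ^ (m + 1) * Real.exp (-(x ^ 2 / (4 * v)))) :=
        mul_le_mul_of_nonneg_left (hb v x hv) (wt_nonneg _ _)
    _ = C / Real.sqrt v ^ (m + 1) * Real.exp (-(x ^ 2 / (8 * v))) *
          (wt τ x * Real.exp (-(x ^ 2 / (8 * v)))) := by
        rw [show -(x ^ 2 / (4 * v)) = -(x ^ 2 / (8 * v)) + -(x ^ 2 / (8 * v)) by
          field_simp; ring, Real.exp_add]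
        ring
    _ ≤ C / Real.sqrt v ^ (m + 1) * Real.exp (-(x ^ 2 / (8 * v))) *
          ((18 : ℕ).factorial * Real.exp (1 + 1 / (2 * (1 / (8 * V))))) :=
        mul_le_mul_of_nonneg_left key (by positivity)
    _ = _ := by ring

theorem Unit1.exists_bound {g : ℝ → ℝ} (hg : Unit1 g) : ∃ M, 0 ≤ M ∧ ∀ z, |g z| ≤ M := by
  obtain ⟨M, hM⟩ := hg.compact.exists_bound_of_continuous hg.smooth.continuous
  exact ⟨M, (norm_nonneg (g 0)).trans (hM 0), fun z => hM z⟩

/-- A weighted supremum bound for the potential of a product source. -/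
theorem exists_sup_bound {κ V K : ℝ} (hκ : 0 < κ) (hV : 0 < V) {g₁ g₂ : ℝ → ℝ} (h₁ : Unit1 g₁)
    (h₂ : Unit1 g₂) : ∃ C, 0 ≤ C ∧ ∀ (a b c d lam τ σ y : ℝ), 0 < a → 0 < b → 0 < τ →
      |d| + b ≤ K * Real.sqrt τ → 2 * κ * (σ - (c - a)) ≤ V * τ →
      wt τ y * |Heat.potD κ 0 (fun s z => lam * tens g₁ g₂ a b c d s z) σ y| ≤ C * |lam| * a := by
  obtain ⟨C₀, hC₀, hk⟩ := exists_kern_wt 0 hV
  obtain ⟨M₂, hM₂, hg₂⟩ := h₂.exists_bound
  set I₁ := ∫ z, |g₁ z| with hI₁
  have hI0 : 0 ≤ I₁ := integral_nonneg fun z => abs_nonneg _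
  refine ⟨(1 + |K|) ^ 18 * C₀ * M₂ * Real.sqrt (8 * Real.pi) * I₁, by positivity,
    fun a b c d lam τ σ y ha hb hτ hdb hV' => ?_⟩
  have hsτ := Real.sqrt_pos.2 hτ
  set Q := (1 + |K|) ^ 18 * C₀ * M₂ * |lam| with hQ
  set G : ℝ → ℝ → ℝ := fun z s => if s < σ then
      Q * |g₁ ((s - c) / a)| *
        (Real.exp (-((y - z) ^ 2 / (8 * (2 * κ * (σ - s))))) / Real.sqrt (2 * κ * (σ - s)))
    else 0 with hG
  have hG0 : ∀ z s, 0 ≤ G z s := fun z s => by
    simp only [hG]; split_ifs <;> positivity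
  have hGm : Measurable (Function.uncurry G) := by
    have c1 : Continuous fun x => |g₁ x| := h₁.smooth.continuous.abs
    have m1 : Measurable fun p : ℝ × ℝ => |g₁ ((p.2 - c) / a)| :=
      c1.measurable.comp ((measurable_snd.sub_const c).div_const a)
    exact Measurable.ite (measurableSet_lt measurable_snd measurable_const)
      ((m1.const_mul Q).mul (by fun_prop)) measurable_const
  set B : ℝ → ℝ := fun s => Q * Real.sqrt (8 * Real.pi) * |g₁ ((s - c) / a)| with hB
  have hBi : Integrable B :=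
    (((h₁.integrable_abs).comp_div ha.ne').comp_sub_right c).const_mul _
  have hgauss : ∀ v, 0 < v → Integrable (fun z => Real.exp (-((y - z) ^ 2 / (8 * v)))) ∧
      ∫ z, Real.exp (-((y - z) ^ 2 / (8 * v))) = Real.sqrt (8 * Real.pi) * Real.sqrt v := by
    intro v hv
    have e : (fun z : ℝ => Real.exp (-((y - z) ^ 2 / (8 * v)))) =
        fun z => Real.exp (-(1 / (8 * v)) * (z - y) ^ 2) := by
      funext z; congr 1; ring
    have hi := (integrable_exp_neg_mul_sq (show (0 : ℝ) < 1 / (8 * v) by positivity)).comp_sub_right y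
    refine ⟨by rw [e]; exact hi, ?_⟩
    rw [e, integral_sub_right_eq_self (fun z : ℝ => Real.exp (-(1 / (8 * v)) * z ^ 2)) y,
      integral_gaussian, ← Real.sqrt_mul (by positivity)]
    congr 1
    field_simp
  obtain ⟨hGi, -, hle⟩ := Heat.dominate (μ := (volume : Measure ℝ)) (ν := (volume : Measure ℝ))
    (G := G) (B := B) hGm.aestronglyMeasurable hG0 hBi (Eventually.of_forall fun s => by
      rcases lt_or_ge s σ with h | h
      · have hv : 0 < 2 * κ * (σ - s) := mul_pos (by linarith) (sub_pos.2 h)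
        obtain ⟨i, e⟩ := hgauss _ hv
        simp only [hG, if_pos h]
        refine ⟨((i.div_const _).const_mul _), le_of_eq ?_⟩
        rw [integral_const_mul, integral_div, e, hB]
        have := (Real.sqrt_pos.2 hv).ne'
        field_simp
      · simp only [hG, if_neg (not_lt.2 h)]
        refine ⟨integrable_zero _ _ _, ?_⟩
        simp only [integral_zero, hB]
        positivity)
  set F : ℝ × ℝ → ℝ := fun p => G p.2 p.1 with hF
  have hFi : Integrable F := hGi.swap
  have hFle : ∫ p, F p ≤ ∫ s, B s := by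
    rw [Measure.volume_eq_prod, integral_prod _ hFi, integral_integral_swap hFi]
    exact hle
  have habs := (abs_integral_le_integral_abs (μ := (volume : Measure (ℝ × ℝ)))
    (f := fun q : ℝ × ℝ => Heat.kernD 0 (2 * κ * (σ - q.1)) (y - q.2) *
      (lam * tens g₁ g₂ a b c d q.1 q.2)))
  refine (mul_le_mul_of_nonneg_left habs (wt_nonneg τ y)).trans ?_
  rw [← integral_const_mul]
  refine (integral_mono_of_nonneg (Eventually.of_forall fun q =>
    mul_nonneg (wt_nonneg _ _) (abs_nonneg _)) hFi (Eventually.of_forall fun q => ?_)).trans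
      (hFle.trans (le_of_eq ?_))
  · simp only [hF]
    rcases eq_or_ne (tens g₁ g₂ a b c d q.1 q.2) 0 with h0 | h0
    · simpa [h0] using hG0 q.2 q.1
    obtain ⟨hq1, hq2⟩ := tens_supp h₁ h₂ ha hb h0
    rcases le_or_gt σ q.1 with h | h
    · rw [Heat.kernD_of_nonpos (mul_nonpos_of_nonneg_of_nonpos (by linarith) (by linarith))]
      simpa using hG0 q.2 q.1
    have hv : 0 < 2 * κ * (σ - q.1) := mul_pos (by linarith) (sub_pos.2 h)
    have hvV : 2 * κ * (σ - q.1) ≤ V * τ := by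
      refine le_trans (mul_le_mul_of_nonneg_left ?_ (by linarith)) hV'
      linarith [(abs_le.1 hq1).1]
    have hwy : wt τ q.2 ≤ (1 + |K|) ^ 18 := by
      refine pow_le_pow_left₀ (by positivity) (add_le_add le_rfl ((div_le_iff₀ hsτ).2 ?_)) 18
      have : |q.2| ≤ |d| + |q.2 - d| := by simpa using abs_add_le d (q.2 - d)
      nlinarith [le_abs_self K]
    simp only [hG, if_pos h]
    calc wt τ y * |Heat.kernD 0 (2 * κ * (σ - q.1)) (y - q.2) *
          (lam * tens g₁ g₂ a b c d q.1 q.2)|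
        ≤ (wt τ q.2 * wt τ (y - q.2)) * |Heat.kernD 0 (2 * κ * (σ - q.1)) (y - q.2) *
            (lam * tens g₁ g₂ a b c d q.1 q.2)| :=
          mul_le_mul_of_nonneg_right (wt_le_mul _ _ _) (abs_nonneg _)
      _ = wt τ q.2 * |lam| * |g₁ ((q.1 - c) / a)| * |g₂ ((q.2 - d) / b)| *
            (wt τ (y - q.2) * |Heat.kernD 0 (2 * κ * (σ - q.1)) (y - q.2)|) := by
          simp only [tens, abs_mul]; ring
      _ ≤ (1 + |K|) ^ 18 * |lam| * |g₁ ((q.1 - c) / a)| * M₂ *
            (C₀ / Real.sqrt (2 * κ * (σ - q.1)) ^ (0 + 1) *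
              Real.exp (-((y - q.2) ^ 2 / (8 * (2 * κ * (σ - q.1)))))) := by
          have hgM := hg₂ ((q.2 - d) / b)
          have hkk := hk τ (2 * κ * (σ - q.1)) (y - q.2) hτ hv hvV
          have := wt_nonneg τ (y - q.2)
          have := wt_nonneg τ q.2
          gcongr
      _ = _ := by rw [hQ]; ring
  · simp only [hB]
    rw [integral_const_mul, integral_sub_right_eq_self (fun x => |g₁ (x / a)|) c,
      Measure.integral_comp_div (fun z => |g₁ z|) a, abs_of_pos ha, smul_eq_mul, hQ, hI₁]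
    ring

/-- The weighted bounds after the box has stopped. -/
theorem exists_late_bound {κ Sw V : ℝ} (hκ : 0 < κ) (hV : 0 < V) (m : ℕ) :
    ∃ C, 0 ≤ C ∧ ∀ (D τ θ σ y : ℝ), 0 < D → 0 < τ → τ ≤ 1 → |θ| ≤ Sw * Real.sqrt τ →
      2 * (D * τ ^ 2) ≤ σ - τ → 2 * κ * (σ - (τ - D * τ ^ 2)) ≤ V * τ →
      wt τ y * |Heat.potD κ m (box D τ θ) σ y| ≤ C / Real.sqrt (σ - τ) ^ (m + 1) := by
  obtain ⟨C₀, hC₀, hk⟩ := exists_kern_wt m hV
  obtain ⟨C₁, hC₁, hmom⟩ := exists_box_moments
  refine ⟨(1 + (|Sw| + 1)) ^ 18 * C₀ * C₁ / Real.sqrt κ ^ (m + 1), by positivity,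
    fun D τ θ σ y hD hτ hτ1 hθ hσ hV' => ?_⟩
  have hsτ := Real.sqrt_pos.2 hτ
  have hτs : τ ≤ Real.sqrt τ := Real.le_sqrt_of_sq_le (by nlinarith)
  have hd : 0 < σ - τ := lt_of_lt_of_le (by positivity) hσ
  have hw := source_box hD hτ θ
  set Q := (1 + (|Sw| + 1)) ^ 18 * C₀ / Real.sqrt κ ^ (m + 1) / Real.sqrt (σ - τ) ^ (m + 1) with hQ
  have habs := (abs_integral_le_integral_abs (μ := (volume : Measure (ℝ × ℝ)))
    (f := fun q : ℝ × ℝ => Heat.kernD m (2 * κ * (σ - q.1)) (y - q.2) * box D τ θ q.1 q.2))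
  refine (mul_le_mul_of_nonneg_left habs (wt_nonneg τ y)).trans ?_
  rw [← integral_const_mul]
  refine (integral_mono_of_nonneg (Eventually.of_forall fun q =>
    mul_nonneg (wt_nonneg _ _) (abs_nonneg _))
    ((hw.integrable_abs).const_mul Q) (Eventually.of_forall fun q => ?_)).trans ?_
  · simp only
    rcases eq_or_ne (box D τ θ q.1 q.2) 0 with h0 | h0
    · simp [h0]
    obtain ⟨h1, h2⟩ := box_supp hD hτ h0
    rw [abs_le] at h1
    have hv : κ * (σ - τ) ≤ 2 * κ * (σ - q.1) := by nlinarith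
    have hv0 : 0 < 2 * κ * (σ - q.1) := lt_of_lt_of_le (mul_pos hκ hd) hv
    have hvV : 2 * κ * (σ - q.1) ≤ V * τ :=
      le_trans (mul_le_mul_of_nonneg_left (by linarith) (by linarith)) hV'
    have hwy : wt τ q.2 ≤ (1 + (|Sw| + 1)) ^ 18 := by
      refine pow_le_pow_left₀ (by positivity) (add_le_add le_rfl ((div_le_iff₀ hsτ).2 ?_)) 18
      have : |q.2| ≤ |θ| + |q.2 - θ| := by simpa using abs_add_le θ (q.2 - θ)
      nlinarith [le_abs_self Sw]
    calc wt τ y * |Heat.kernD m (2 * κ * (σ - q.1)) (y - q.2) * box D τ θ q.1 q.2|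
        ≤ (wt τ q.2 * wt τ (y - q.2)) *
            |Heat.kernD m (2 * κ * (σ - q.1)) (y - q.2) * box D τ θ q.1 q.2| :=
          mul_le_mul_of_nonneg_right (wt_le_mul _ _ _) (abs_nonneg _)
      _ = wt τ q.2 * |box D τ θ q.1 q.2| *
            (wt τ (y - q.2) * |Heat.kernD m (2 * κ * (σ - q.1)) (y - q.2)|) := by
          rw [abs_mul]; ring
      _ ≤ (1 + (|Sw| + 1)) ^ 18 * |box D τ θ q.1 q.2| *
            (C₀ / (Real.sqrt κ ^ (m + 1) * Real.sqrt (σ - τ) ^ (m + 1))) := by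
          refine mul_le_mul (mul_le_mul_of_nonneg_right hwy (abs_nonneg _))
            ((hk τ _ _ hτ hv0 hvV).trans ((mul_le_of_le_one_right (by positivity)
              (Real.exp_le_one_iff.2 ?_)).trans ?_))
            (mul_nonneg (wt_nonneg _ _) (abs_nonneg _)) (by positivity)
          · rw [neg_nonpos]; positivity
          · rw [← mul_pow, ← Real.sqrt_mul hκ.le]
            exact div_le_div_of_nonneg_left hC₀ (by positivity)
              (pow_le_pow_left₀ (Real.sqrt_nonneg _) (Real.sqrt_le_sqrt hv) _)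
      _ = _ := by rw [hQ, ← div_div]; ring
  · rw [integral_const_mul]
    have hm0 := (hmom D τ θ 0 0 (|θ| + τ + Real.sqrt 0) hD hτ le_rfl).1
    simp only [Heat.moment, pow_zero, mul_one] at hm0
    refine (mul_le_mul_of_nonneg_left hm0 (by positivity)).trans (le_of_eq ?_)
    rw [hQ]
    ring

end Vale.Agent.P363.Ext.Growth
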