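import Vale.Agent.P363.Ext.Growth.JumpPot

/-!
Assembly of `PotBoundStmt`.
-/

noncomputable section

namespace Vale.Agent.P363.Ext.Growth

open MeasureTheory Filter Set
open scoped BigOperators Topology

theorem mem_cases (σ τ a : ℝ) :
    (|σ - τ| ≤ 2 * a) ∨ σ - τ < -a ∨ 2 * a ≤ σ - τ := by
  rcases le_or_gt (2 * a) (σ - τ) with h | h
  · exact Or.inr (Or.inr h)
  rcases lt_or_ge (σ - τ) (-a) with h' | h'
  · exact Or.inr (Or.inl h')
  exact Or.inl (abs_le.2 ⟨by linarith, h.le⟩)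

theorem window_small {κ Sw N D τ θ T σ : ℝ} (hκ : 0 < κ) (hW : Window Sw N D τ θ T)
    (hσ : σ ≤ 2 * T) : τ ≤ 1 ∧ 0 < D * τ ^ 2 ∧ |θ| + τ ≤ (|Sw| + 1) * Real.sqrt τ ∧
      2 * κ * (σ - (τ - D * τ ^ 2)) ≤ 4 * κ * N * τ := by
  obtain ⟨hτ, hθ, hT1, hT2, hD, hbox, hsmall⟩ := hW
  have hD0 : 0 < D := by linarith
  have hτ1 : τ ≤ 1 := by linarith
  have hτs : τ ≤ Real.sqrt τ :=
    Real.le_sqrt_of_sq_le (by rw [sq]; exact mul_le_of_le_one_left hτ.le hτ1)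
  have hb : 4 * (D * τ ^ 2) ≤ τ :=
    calc 4 * (D * τ ^ 2) = 4 * D * τ * τ := by ring
      _ ≤ τ := mul_le_of_le_one_left hτ.le hbox
  refine ⟨hτ1, by positivity, ?_, ?_⟩
  · rw [add_mul, one_mul]
    exact add_le_add (hθ.trans (mul_le_mul_of_nonneg_right (le_abs_self Sw) (Real.sqrt_nonneg τ)))
      hτs
  · refine le_trans (mul_le_mul_of_nonneg_left (show σ - (τ - D * τ ^ 2) ≤ 2 * N * τ by linarith)
      (by linarith)) (le_of_eq ?_)
    ring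

/-- The weighted pointwise bound of the potential. -/
theorem exists_pot_sup {κ Sw N : ℝ} (hκ : 0 < κ) (hN : 10 ≤ N) : ∃ C, 0 ≤ C ∧
    ∀ D τ θ T : ℝ, Window Sw N D τ θ T → ∀ σ y, σ ≤ 2 * T →
      wt τ y * |boxPot κ D τ θ σ y| ≤ C * D / (τ + Real.sqrt |σ - τ|) := by
  have hV : (0 : ℝ) < 4 * κ * N := by positivity
  have b := unit1_bump1
  obtain ⟨A, hA, s0⟩ := exists_sup_bound (κ := κ) (V := 4 * κ * N) (K := |Sw| + 1) hκ hV b b
  obtain ⟨B, hB, l0⟩ := exists_late_bound (κ := κ) (Sw := Sw) (V := 4 * κ * N) hκ hV 0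
  refine ⟨3 * A + B, by positivity, fun D τ θ T hW σ y hσ => ?_⟩
  obtain ⟨hτ1, ha, hdb, hVV⟩ := window_small hκ hW hσ
  have hτ := hW.τ_pos
  have hθ := hW.θ_le
  have hD := hW.D_ge
  have hD0 : 0 < D := by linarith
  have hsrc := source_box hD0 hτ θ
  set X := wt τ y * |boxPot κ D τ θ σ y| with hX
  have hX0 : 0 ≤ X := mul_nonneg (wt_nonneg _ _) (abs_nonneg _)
  have e : boxPot κ D τ θ σ y = Heat.potD κ 0 (box D τ θ) σ y := Heat.pot_eq_potD _ _ _ _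
  have h1 : X * τ ≤ A := by
    have h := s0 (D * τ ^ 2) τ τ θ (D * τ ^ 3)⁻¹ τ σ y ha hτ hτ hdb hVV
    rw [← box_eq, ← e, abs_of_pos (by positivity : 0 < (D * τ ^ 3)⁻¹)] at h
    calc X * τ ≤ A * (D * τ ^ 3)⁻¹ * (D * τ ^ 2) * τ := mul_le_mul_of_nonneg_right h hτ.le
      _ = _ := by field_simp
  have h2 : X * Real.sqrt |σ - τ| ≤ 2 * A * D + B * D := by
    have hbD : 0 ≤ B * D := mul_nonneg hB hD0.le
    have hAD : 0 ≤ 2 * A * D := by positivity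
    rcases mem_cases σ τ (D * τ ^ 2) with h | h | h
    · have hs : Real.sqrt |σ - τ| ≤ 2 * D * τ := by
        rw [Real.sqrt_le_left (by positivity)]
        refine h.trans ?_
        calc 2 * (D * τ ^ 2) = 2 * 1 * (D * τ ^ 2) := by ring
          _ ≤ 4 * D * (D * τ ^ 2) :=
            mul_le_mul_of_nonneg_right (by linarith) ha.le
          _ = _ := by ring
      calc X * Real.sqrt |σ - τ| ≤ X * (2 * D * τ) := mul_le_mul_of_nonneg_left hs hX0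
        _ = 2 * D * (X * τ) := by ring
        _ ≤ 2 * D * A := mul_le_mul_of_nonneg_left h1 (by positivity)
        _ = 2 * A * D := by ring
        _ ≤ _ := le_add_of_nonneg_right hbD
    · have h0 : boxPot κ D τ θ σ y = 0 :=
        (Heat.potProps κ hκ _ _ _ hsrc).2.2.1 σ y (by linarith)
      rw [hX, h0, abs_zero, mul_zero, zero_mul]
      exact add_nonneg hAD hbD
    · have hpos : 0 < σ - τ := lt_of_lt_of_le (by positivity) h
      have h' := l0 D τ θ σ y hD0 hτ hτ1 hθ h hVV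
      rw [← e, zero_add, pow_one, ← hX, le_div_iff₀ (Real.sqrt_pos.2 hpos)] at h'
      rw [abs_of_pos hpos]
      exact h'.trans ((le_mul_of_one_le_right hB hD).trans (le_add_of_nonneg_left hAD))
  rw [le_div_iff₀ (by positivity), mul_add]
  refine (add_le_add (h1.trans (le_mul_of_one_le_right hA hD)) h2).trans (le_of_eq ?_)
  ring

/-- The weighted pointwise bound of the space derivative of the potential. -/
theorem exists_dY_sup {κ Sw N : ℝ} (hκ : 0 < κ) (hN : 10 ≤ N) : ∃ C, 0 ≤ C ∧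
    ∀ D τ θ T : ℝ, Window Sw N D τ θ T → ∀ σ y, σ ≤ 2 * T →
      wt τ y * |Heat.dY (boxPot κ D τ θ) σ y| ≤ C * D / (τ ^ 2 + |σ - τ|) := by
  have hV : (0 : ℝ) < 4 * κ * N := by positivity
  have b := unit1_bump1
  obtain ⟨A, hA, s1⟩ := exists_sup_bound (κ := κ) (V := 4 * κ * N) (K := |Sw| + 1) hκ hV b b.deriv
  obtain ⟨B, hB, l1⟩ := exists_late_bound (κ := κ) (Sw := Sw) (V := 4 * κ * N) hκ hV 1
  refine ⟨3 * A + B, by positivity, fun D τ θ T hW σ y hσ => ?_⟩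
  obtain ⟨hτ1, ha, hdb, hVV⟩ := window_small hκ hW hσ
  have hτ := hW.τ_pos
  have hθ := hW.θ_le
  have hD := hW.D_ge
  have hD0 : 0 < D := by linarith
  have hsrc := source_box hD0 hτ θ
  set X := wt τ y * |Heat.dY (boxPot κ D τ θ) σ y| with hX
  have hX0 : 0 ≤ X := mul_nonneg (wt_nonneg _ _) (abs_nonneg _)
  have e : Heat.dY (boxPot κ D τ θ) σ y = Heat.potD κ 1 (box D τ θ) σ y :=
    Heat.dY_pot_eq hκ hsrc.csrc σ y
  have eY : Heat.dY (box D τ θ) = fun s z =>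
      ((D * τ ^ 3)⁻¹ / τ) * tens bump1 (deriv bump1) (D * τ ^ 2) τ τ θ s z := by
    funext s z
    rw [box_eq, Heat.dY, deriv_const_mul_field, ← Heat.dY, dY_tens b]
    ring
  have h1 : X * τ ^ 2 ≤ A := by
    have h := s1 (D * τ ^ 2) τ τ θ ((D * τ ^ 3)⁻¹ / τ) τ σ y ha hτ hτ hdb hVV
    rw [← eY, ← Heat.pot_eq_potD, ← Heat.dY_pot hκ hsrc.csrc,
      abs_of_pos (by positivity : 0 < (D * τ ^ 3)⁻¹ / τ)] at h
    calc X * τ ^ 2 ≤ A * ((D * τ ^ 3)⁻¹ / τ) * (D * τ ^ 2) * τ ^ 2 :=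
          mul_le_mul_of_nonneg_right h (sq_nonneg τ)
      _ = _ := by field_simp
  have h2 : X * |σ - τ| ≤ 2 * A * D + B * D := by
    have hbD : 0 ≤ B * D := mul_nonneg hB hD0.le
    have hAD : 0 ≤ 2 * A * D := by positivity
    rcases mem_cases σ τ (D * τ ^ 2) with h | h | h
    · calc X * |σ - τ| ≤ X * (2 * (D * τ ^ 2)) := mul_le_mul_of_nonneg_left h hX0
        _ = 2 * D * (X * τ ^ 2) := by ring
        _ ≤ 2 * D * A := mul_le_mul_of_nonneg_left h1 (by positivity)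
        _ = 2 * A * D := by ring
        _ ≤ _ := le_add_of_nonneg_right hbD
    · have h0 : Heat.dY (boxPot κ D τ θ) σ y = 0 := by
        have hz : boxPot κ D τ θ σ = fun _ => 0 :=
          funext fun z => (Heat.potProps κ hκ _ _ _ hsrc).2.2.1 σ z (by linarith)
        rw [Heat.dY, hz]
        simp
      rw [hX, h0, abs_zero, mul_zero, zero_mul]
      exact add_nonneg hAD hbD
    · have hpos : 0 < σ - τ := lt_of_lt_of_le (by positivity) h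
      have h' := l1 D τ θ σ y hD0 hτ hτ1 hθ h hVV
      rw [← e, show (1 : ℕ) + 1 = 2 from rfl, ← hX, Real.sq_sqrt hpos.le,
        le_div_iff₀ hpos] at h'
      rw [abs_of_pos hpos]
      exact h'.trans ((le_mul_of_one_le_right hB hD).trans (le_add_of_nonneg_left hAD))
  rw [le_div_iff₀ (by positivity), mul_add]
  refine (add_le_add (h1.trans (le_mul_of_one_le_right hA hD)) h2).trans (le_of_eq ?_)
  ring

/-- The length of the time interval in the estimates. -/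
def span (D τ T : ℝ) : ℝ := 2 * T - (τ - D * τ ^ 2)

/-- The width in `y` of the estimates. -/
def widC (Sw N : ℝ) : ℝ := Sw + 1 + Real.sqrt (2 * N)

/-- What is used of the geometry of a window. -/
structure Geo (Sw N D τ θ T : ℝ) : Prop where
  τ_pos : 0 < τ
  τ_le : τ ≤ 1
  D_pos : 0 < D
  h_pos : 0 < 2 * (D * τ ^ 2)
  L_nonneg : 0 ≤ span D τ T
  h_le : 2 * (2 * (D * τ ^ 2)) ≤ span D τ T
  L_le : span D τ T ≤ 2 * N * τ
  sum : τ - D * τ ^ 2 + span D τ T = 2 * T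
  wid : |θ| + τ + Real.sqrt (span D τ T) ≤ widC Sw N * Real.sqrt τ

theorem Window.geo {Sw N D τ θ T : ℝ} (hN : 10 ≤ N) (hW : Window Sw N D τ θ T) :
    Geo Sw N D τ θ T := by
  obtain ⟨hτ, hθ, hT1, hT2, hD, hbox, hsmall⟩ := hW
  have hD0 : 0 < D := by linarith
  have hbτ : 4 * (D * τ ^ 2) ≤ τ :=
    calc 4 * (D * τ ^ 2) = 4 * D * τ * τ := by ring
      _ ≤ τ := mul_le_of_le_one_left hτ.le hbox
  have h0 : 0 < D * τ ^ 2 := by positivity
  have hτ1 : τ ≤ 1 := by linarith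
  have hτs : τ ≤ Real.sqrt τ := Real.le_sqrt_of_sq_le (by rw [sq]; exact mul_le_of_le_one_left hτ.le hτ1)
  have hL : span D τ T ≤ 2 * N * τ := by rw [span]; linarith
  refine ⟨hτ, hτ1, hD0, by positivity, by rw [span]; linarith, by rw [span]; linarith, hL,
    by rw [span]; ring, ?_⟩
  have : Real.sqrt (span D τ T) ≤ Real.sqrt (2 * N) * Real.sqrt τ := by
    rw [← Real.sqrt_mul (by linarith)]
    exact Real.sqrt_le_sqrt hL
  rw [widC, add_mul, add_mul, one_mul]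
  linarith

theorem widC_pow {Sw N τ : ℝ} (hτ : 0 < τ) :
    (widC Sw N * Real.sqrt τ) ^ 18 / Real.sqrt τ ^ 18 = widC Sw N ^ 18 := by
  have := (Real.sqrt_pos.2 hτ).ne'
  rw [mul_pow]
  field_simp

/-- Both moments at once. -/
theorem wt_moments {G : ℝ × ℝ → ℝ} {Ω : Set (ℝ × ℝ)} {Sw N τ a b Cb E : ℝ} (hτ : 0 < τ)
    (i0 : IntegrableOn (fun p : ℝ × ℝ => |p.2| ^ 0 * |G p|) Ω)
    (i8 : IntegrableOn (fun p : ℝ × ℝ => |p.2| ^ 18 * |G p|) Ω)
    (b0 : ∫ p in Ω, |p.2| ^ 0 * |G p| ≤ |a| * (Cb * E))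
    (b8 : ∫ p in Ω, |p.2| ^ 18 * |G p| ≤
      |b| * (Cb * (widC Sw N * Real.sqrt τ) ^ 18 * E)) :
    ∫ p in Ω, wt τ p.2 * |G p| ≤ 2 ^ 17 * ((|a| + |b| * widC Sw N ^ 18) * Cb) * E := by
  refine (wt_split i0 i8 b0 b8).trans (le_of_eq ?_)
  rw [← widC_pow (Sw := Sw) (N := N) hτ]
  ring

theorem exists_int_pot {κ Sw N : ℝ} (hκ : 0 < κ) (hN : 10 ≤ N) : ∃ C, 0 ≤ C ∧
    ∀ D τ θ T : ℝ, Window Sw N D τ θ T →
      (∫ p in Iic (2 * T) ×ˢ univ, wt τ p.2 * |boxPot κ D τ θ p.1 p.2|) ≤ C * τ := by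
  obtain ⟨Cb, hCb, hmom⟩ := exists_box_moments
  obtain ⟨a, ha⟩ := Heat.allTime_le κ hκ 0 0 zero_le_one
  obtain ⟨b, hb⟩ := Heat.allTime_le κ hκ 18 0 zero_le_one
  have hw0 : 0 ≤ widC Sw N ^ 18 := Even.pow_nonneg (by decide) _
  refine ⟨2 ^ 17 * ((|a| + |b| * widC Sw N ^ 18) * Cb) * (2 * N), by positivity,
    fun D τ θ T hW => ?_⟩
  obtain ⟨hτ, -, hD, -, hL, -, hLN, hsum, hwid⟩ := hW.geo hN
  have hsrc := source_box hD hτ θ
  have hs : ∀ σ y, box D τ θ σ y ≠ 0 → τ - D * τ ^ 2 ≤ σ := fun σ y h => (hsrc.supp σ y h).1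
  obtain ⟨i0, b0⟩ := (ha _ _ _ hsrc.smooth.continuous hsrc.compact hs hL).1
  obtain ⟨i8, b8⟩ := (hb _ _ _ hsrc.smooth.continuous hsrc.compact hs hL).1
  have m0 := (hmom D τ θ (span D τ T) 0 _ hD hτ hwid).1
  have m8 := (hmom D τ θ (span D τ T) 18 _ hD hτ hwid).1
  rw [hsum] at i0 b0 i8 b8
  simp only [← Heat.pot_eq_potD, Nat.sub_zero, Real.sq_sqrt hL] at i0 b0 i8 b8
  rw [mul_assoc _ (2 * N) τ]
  refine (wt_moments (Sw := Sw) (N := N) (a := a) (b := b) (Cb := Cb) (E := span D τ T) hτ i0 i8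
    (b0.trans ?_) (b8.trans ?_)).trans (mul_le_mul_of_nonneg_left hLN (by positivity))
  · rw [mul_assoc, mul_comm Cb]
    refine mul_le_mul (le_abs_self _) (mul_le_mul_of_nonneg_left ?_ hL)
      (mul_nonneg hL (Heat.moment_nonneg _ _ _)) (abs_nonneg _)
    simpa using m0
  · rw [mul_assoc, mul_comm (Cb * _)]
    exact mul_le_mul (le_abs_self _) (mul_le_mul_of_nonneg_left m8 hL)
      (mul_nonneg hL (Heat.moment_nonneg _ _ _)) (abs_nonneg _)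

theorem exists_int_dY {κ Sw N : ℝ} (hκ : 0 < κ) (hN : 10 ≤ N) : ∃ C, 0 ≤ C ∧
    ∀ D τ θ T : ℝ, Window Sw N D τ θ T →
      (∫ p in Iic (2 * T) ×ˢ univ, wt τ p.2 * |Heat.dY (boxPot κ D τ θ) p.1 p.2|) ≤
        C * Real.sqrt τ := by
  obtain ⟨Cb, hCb, hmom⟩ := exists_box_moments
  obtain ⟨a, ha⟩ := Heat.allTime_le κ hκ 0 1 le_rfl
  obtain ⟨b, hb⟩ := Heat.allTime_le κ hκ 18 1 le_rfl
  have hw0 : 0 ≤ widC Sw N ^ 18 := Even.pow_nonneg (by decide) _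
  refine ⟨2 ^ 17 * ((|a| + |b| * widC Sw N ^ 18) * Cb) * Real.sqrt (2 * N), by positivity,
    fun D τ θ T hW => ?_⟩
  obtain ⟨hτ, -, hD, -, hL, -, hLN, hsum, hwid⟩ := hW.geo hN
  have hsrc := source_box hD hτ θ
  have hs : ∀ σ y, box D τ θ σ y ≠ 0 → τ - D * τ ^ 2 ≤ σ := fun σ y h => (hsrc.supp σ y h).1
  obtain ⟨i0, b0⟩ := (ha _ _ _ hsrc.smooth.continuous hsrc.compact hs hL).1
  obtain ⟨i8, b8⟩ := (hb _ _ _ hsrc.smooth.continuous hsrc.compact hs hL).1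
  have m0 := (hmom D τ θ (span D τ T) 0 _ hD hτ hwid).1
  have m8 := (hmom D τ θ (span D τ T) 18 _ hD hτ hwid).1
  rw [hsum] at i0 b0 i8 b8
  simp only [← Heat.dY_pot_eq hκ hsrc.csrc, show (2 : ℕ) - 1 = 1 from rfl, pow_one]
    at i0 b0 i8 b8
  rw [mul_assoc _ (Real.sqrt (2 * N)), ← Real.sqrt_mul (by linarith)]
  have hsL := Real.sqrt_nonneg (span D τ T)
  refine (wt_moments (Sw := Sw) (N := N) (a := a) (b := b) (Cb := Cb)
    (E := Real.sqrt (span D τ T)) hτ i0 i8 (b0.trans ?_) (b8.trans ?_)).trans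
      (mul_le_mul_of_nonneg_left (Real.sqrt_le_sqrt hLN) (by positivity))
  · rw [mul_assoc, mul_comm Cb]
    refine mul_le_mul (le_abs_self _) (mul_le_mul_of_nonneg_left ?_ hsL)
      (mul_nonneg hsL (Heat.moment_nonneg _ _ _)) (abs_nonneg _)
    simpa using m0
  · rw [mul_assoc, mul_comm (Cb * _)]
    exact mul_le_mul (le_abs_self _) (mul_le_mul_of_nonneg_left m8 hsL)
      (mul_nonneg hsL (Heat.moment_nonneg _ _ _)) (abs_nonneg _)

/-- `allTime_le` at order zero gives integrability of the moments of a potential. -/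
theorem moment_integrable {κ t₀ L T : ℝ} (hκ : 0 < κ) {g : ℝ → ℝ → ℝ}
    (hc : Continuous (Function.uncurry g)) (hk : HasCompactSupport (Function.uncurry g))
    (hs : ∀ σ y, g σ y ≠ 0 → t₀ ≤ σ) (hL : 0 ≤ L) (hT : t₀ + L = T) (q : ℕ) :
    IntegrableOn (fun p : ℝ × ℝ => |p.2| ^ q * |Heat.pot κ g p.1 p.2|) (Iic T ×ˢ univ) := by
  obtain ⟨a, ha⟩ := Heat.allTime_le κ hκ q 0 zero_le_one
  have := (ha g t₀ L hc hk hs hL).1.1
  simp only [← Heat.pot_eq_potD, hT] at this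
  exact this

theorem log_span_le {N D τ T : ℝ} (hN : 10 ≤ N) (hτ : 0 < τ) (hD : 1 ≤ D)
    (hL : span D τ T ≤ 2 * N * τ) (h2 : 2 * (2 * (D * τ ^ 2)) ≤ span D τ T) :
    0 ≤ Real.log (span D τ T / (2 * (D * τ ^ 2))) ∧
      Real.log (span D τ T / (2 * (D * τ ^ 2))) ≤ Real.log (2 * N) + |Real.log τ| := by
  have hh : 0 < 2 * (D * τ ^ 2) := by positivity
  refine ⟨Real.log_nonneg ((le_div_iff₀ hh).2 (by linarith)), ?_⟩
  have hle : span D τ T / (2 * (D * τ ^ 2)) ≤ 2 * N / τ := by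
    rw [div_le_div_iff₀ hh hτ]
    calc span D τ T * τ ≤ 2 * N * τ * τ := mul_le_mul_of_nonneg_right hL hτ.le
      _ = 2 * N * τ ^ 2 := by ring
      _ ≤ 2 * N * (2 * (D * τ ^ 2)) := by
        refine mul_le_mul_of_nonneg_left ?_ (by linarith)
        linarith [mul_le_mul_of_nonneg_right hD (sq_nonneg τ), sq_nonneg τ]
  refine (Real.log_le_log (div_pos (by linarith) hh) hle).trans ?_
  rw [Real.log_div (by linarith) hτ.ne']
  linarith [neg_le_abs (Real.log τ)]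

/-- The two orders of two derivatives with a logarithm. -/
theorem log_alg {Z D l l₀ lg : ℝ} (hZ : 0 ≤ Z) (hD : 1 ≤ D) (hlg : 0 ≤ lg) (hl₀ : 0 ≤ l₀)
    (hl : l ≤ l₀ + lg) : 2 * D * Z + (1 + l) * Z ≤ Z * ((4 + l₀) * (D + lg)) := by
  have h1 : l₀ ≤ l₀ * D := le_mul_of_one_le_right hl₀ hD
  have h2 : 0 ≤ l₀ * lg := mul_nonneg hl₀ hlg
  calc 2 * D * Z + (1 + l) * Z = Z * (2 * D + 1 + l) := by ring
    _ ≤ _ := mul_le_mul_of_nonneg_left (by linarith) hZ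

theorem exists_int_dT {κ Sw N : ℝ} (hκ : 0 < κ) (hN : 10 ≤ N) : ∃ C, 0 ≤ C ∧
    ∀ D τ θ T : ℝ, Window Sw N D τ θ T →
      (∫ p in Iic (2 * T) ×ˢ univ, wt τ p.2 * |Heat.dT (boxPot κ D τ θ) p.1 p.2|) ≤
        C * (D + |Real.log τ|) := by
  obtain ⟨Cb, hCb, hmom⟩ := exists_box_moments
  obtain ⟨a, ha⟩ := Heat.singular κ hκ 0
  obtain ⟨b, hb⟩ := Heat.singular κ hκ 18
  have hw0 : 0 ≤ widC Sw N ^ 18 := Even.pow_nonneg (by decide) _
  have hl0 : 0 ≤ Real.log (2 * N) := Real.log_nonneg (by linarith)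
  refine ⟨2 ^ 17 * ((|a| + |b| * widC Sw N ^ 18) * Cb) * (4 + Real.log (2 * N)), by positivity,
    fun D τ θ T hW => ?_⟩
  have hD1 := hW.D_ge
  obtain ⟨hτ, -, hD, hh, hL, h2, hLN, hsum, hwid⟩ := hW.geo hN
  have hsrc := source_box hD hτ θ
  have hs : ∀ σ y, box D τ θ σ y ≠ 0 → τ - D * τ ^ 2 ≤ σ := fun σ y h => (hsrc.supp σ y h).1
  obtain ⟨hTs, -⟩ := Heat.CSrc.deriv' hsrc.smooth hsrc.compact
  have e : ∀ p : ℝ × ℝ, Heat.dT (boxPot κ D τ θ) p.1 p.2 =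
      Heat.pot κ (Heat.dT (box D τ θ)) p.1 p.2 := fun p =>
    (Heat.potProps κ hκ _ _ _ hsrc).2.2.2.1 _ _
  have i0 := moment_integrable hκ hTs.smooth.continuous hTs.compact (Heat.dT_support hs) hL hsum 0
  have i8 := moment_integrable hκ hTs.smooth.continuous hTs.compact (Heat.dT_support hs) hL hsum 18
  obtain ⟨⟨-, b0, -⟩, -⟩ := ha _ _ _ _ hsrc hh h2
  obtain ⟨⟨-, b8, -⟩, -⟩ := hb _ _ _ _ hsrc hh h2
  obtain ⟨hlog0, hlog⟩ := log_span_le hN hτ hD1 hLN h2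
  have hm0 := hmom D τ θ (span D τ T) 0 _ hD hτ hwid
  have hm8 := hmom D τ θ (span D τ T) 18 _ hD hτ hwid
  rw [hsum] at b0 b8
  simp only [boxPot] at e ⊢
  simp only [e] at b0 b8 ⊢
  have key : ∀ (q : ℕ) (Z : ℝ), 0 ≤ Z →
      Heat.moment q (span D τ T) (Heat.dT (box D τ θ)) ≤ Z / (D * τ ^ 2) →
      Heat.moment q (span D τ T) (box D τ θ) ≤ Z →
      2 * (D * τ ^ 2) * Heat.moment q (span D τ T) (Heat.dT (box D τ θ)) +
        (1 + Real.log (span D τ T / (2 * (D * τ ^ 2)))) * Heat.moment q (span D τ T) (box D τ θ) ≤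
        Z * ((4 + Real.log (2 * N)) * (D + |Real.log τ|)) := by
    intro q Z hZ m1 m2
    refine le_trans (add_le_add ?_ (mul_le_mul_of_nonneg_left m2 (by linarith)))
      (log_alg hZ hD1 (abs_nonneg _) hl0 hlog)
    refine (mul_le_mul_of_nonneg_left m1 hh.le).trans (le_of_eq_of_le ?_
      (mul_le_mul_of_nonneg_right (show (2 : ℝ) ≤ 2 * D by linarith) hZ))
    field_simp
  rw [mul_assoc _ (4 + Real.log (2 * N))]
  have hn : ∀ q, 0 ≤ 2 * (D * τ ^ 2) * Heat.moment q (span D τ T) (Heat.dT (box D τ θ)) +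
      (1 + Real.log (span D τ T / (2 * (D * τ ^ 2)))) * Heat.moment q (span D τ T) (box D τ θ) :=
    fun q => add_nonneg (mul_nonneg hh.le (Heat.moment_nonneg _ _ _))
      (mul_nonneg (by linarith) (Heat.moment_nonneg _ _ _))
  exact wt_moments (Sw := Sw) (N := N) (a := a) (b := b) (Cb := Cb) hτ i0 i8
    (b0.trans (mul_le_mul (le_abs_self _)
      (key 0 Cb hCb (by simpa using hm0.2.1) (by simpa using hm0.1)) (hn 0) (abs_nonneg _)))
    (b8.trans (mul_le_mul (le_abs_self _)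
      (key 18 _ (mul_nonneg hCb (Even.pow_nonneg (by decide) _)) hm8.2.1 hm8.1) (hn 18)
      (abs_nonneg _)))

theorem exists_int_dYY {κ Sw N : ℝ} (hκ : 0 < κ) (hN : 10 ≤ N) : ∃ C, 0 ≤ C ∧
    ∀ D τ θ T : ℝ, Window Sw N D τ θ T →
      (∫ p in Iic (2 * T) ×ˢ univ,
          wt τ p.2 * |Heat.dY (Heat.dY (boxPot κ D τ θ)) p.1 p.2|) ≤
        C * (D + |Real.log τ|) := by
  obtain ⟨Cb, hCb, hmom⟩ := exists_box_moments
  obtain ⟨a, ha⟩ := Heat.singular κ hκ 0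
  obtain ⟨b, hb⟩ := Heat.singular κ hκ 18
  have hw0 : 0 ≤ widC Sw N ^ 18 := Even.pow_nonneg (by decide) _
  have hl0 : 0 ≤ Real.log (2 * N) := Real.log_nonneg (by linarith)
  refine ⟨2 ^ 17 * ((|a| + |b| * widC Sw N ^ 18) * Cb) * (4 + Real.log (2 * N)), by positivity,
    fun D τ θ T hW => ?_⟩
  have hD1 := hW.D_ge
  obtain ⟨hτ, -, hD, hh, hL, h2, hLN, hsum, hwid⟩ := hW.geo hN
  have hsrc := source_box hD hτ θ
  have hs : ∀ σ y, box D τ θ σ y ≠ 0 → τ - D * τ ^ 2 ≤ σ := fun σ y h => (hsrc.supp σ y h).1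
  obtain ⟨-, hYs⟩ := Heat.CSrc.deriv' hsrc.smooth hsrc.compact
  have e : ∀ p : ℝ × ℝ, Heat.dY (Heat.dY (boxPot κ D τ θ)) p.1 p.2 =
      Heat.pot κ (Heat.dY (Heat.dY (box D τ θ))) p.1 p.2 := fun p =>
    (Heat.potProps κ hκ _ _ _ hsrc).2.2.2.2.2.2.1 _ _
  have hs2 := Heat.dY_support (Heat.dY_support hs)
  have i0 := moment_integrable hκ (Heat.continuous_dY hYs.smooth) (Heat.compact_dY hYs) hs2 hL
    hsum 0
  have i8 := moment_integrable hκ (Heat.continuous_dY hYs.smooth) (Heat.compact_dY hYs) hs2 hL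
    hsum 18
  obtain ⟨⟨-, -, b0⟩, -⟩ := ha _ _ _ _ hsrc hh h2
  obtain ⟨⟨-, -, b8⟩, -⟩ := hb _ _ _ _ hsrc hh h2
  obtain ⟨hlog0, hlog⟩ := log_span_le hN hτ hD1 hLN h2
  have hm0 := hmom D τ θ (span D τ T) 0 _ hD hτ hwid
  have hm8 := hmom D τ θ (span D τ T) 18 _ hD hτ hwid
  rw [hsum] at b0 b8
  simp only [boxPot] at e ⊢
  simp only [e] at b0 b8 ⊢
  have key : ∀ (q : ℕ) (Z : ℝ), 0 ≤ Z →
      Heat.moment q (span D τ T) (Heat.dY (Heat.dY (box D τ θ))) ≤ Z / τ ^ 2 →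
      Heat.moment q (span D τ T) (box D τ θ) ≤ Z →
      2 * (D * τ ^ 2) * Heat.moment q (span D τ T) (Heat.dY (Heat.dY (box D τ θ))) +
        (1 + Real.log (span D τ T / (2 * (D * τ ^ 2)))) * Heat.moment q (span D τ T) (box D τ θ) ≤
        Z * ((4 + Real.log (2 * N)) * (D + |Real.log τ|)) := by
    intro q Z hZ m1 m2
    refine le_trans (add_le_add ?_ (mul_le_mul_of_nonneg_left m2 (by linarith)))
      (log_alg hZ hD1 (abs_nonneg _) hl0 hlog)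
    refine (mul_le_mul_of_nonneg_left m1 hh.le).trans (le_of_eq ?_)
    field_simp
  rw [mul_assoc _ (4 + Real.log (2 * N))]
  have hn : ∀ q, 0 ≤ 2 * (D * τ ^ 2) *
        Heat.moment q (span D τ T) (Heat.dY (Heat.dY (box D τ θ))) +
      (1 + Real.log (span D τ T / (2 * (D * τ ^ 2)))) * Heat.moment q (span D τ T) (box D τ θ) :=
    fun q => add_nonneg (mul_nonneg hh.le (Heat.moment_nonneg _ _ _))
      (mul_nonneg (by linarith) (Heat.moment_nonneg _ _ _))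
  exact wt_moments (Sw := Sw) (N := N) (a := a) (b := b) (Cb := Cb) hτ i0 i8
    (b0.trans (mul_le_mul (le_abs_self _)
      (key 0 Cb hCb (by simpa using hm0.2.2.2) (by simpa using hm0.1)) (hn 0) (abs_nonneg _)))
    (b8.trans (mul_le_mul (le_abs_self _)
      (key 18 _ (mul_nonneg hCb (Even.pow_nonneg (by decide) _)) hm8.2.2.2 hm8.1) (hn 18)
      (abs_nonneg _)))

theorem exists_int_dTT {κ Sw N : ℝ} (hκ : 0 < κ) (hN : 10 ≤ N) : ∃ C, 0 ≤ C ∧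
    ∀ D τ θ T : ℝ, Window Sw N D τ θ T →
      (∫ p in Iic (2 * T) ×ˢ univ,
          wt τ p.2 * |Heat.dT (Heat.dT (boxPot κ D τ θ)) p.1 p.2|) ≤
        C / (D * τ ^ 2) := by
  obtain ⟨Cb, hCb, hmom⟩ := exists_box_moments
  obtain ⟨a, ha⟩ := Heat.singular κ hκ 0
  obtain ⟨b, hb⟩ := Heat.singular κ hκ 18
  have hw0 : 0 ≤ widC Sw N ^ 18 := Even.pow_nonneg (by decide) _
  refine ⟨2 ^ 17 * ((|a| + |b| * widC Sw N ^ 18) * Cb) * 4, by positivity,
    fun D τ θ T hW => ?_⟩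
  obtain ⟨hτ, -, hD, hh, hL, h2, hLN, hsum, hwid⟩ := hW.geo hN
  have hsrc := source_box hD hτ θ
  have hs : ∀ σ y, box D τ θ σ y ≠ 0 → τ - D * τ ^ 2 ≤ σ := fun σ y h => (hsrc.supp σ y h).1
  obtain ⟨hTs, -⟩ := Heat.CSrc.deriv' hsrc.smooth hsrc.compact
  have e : ∀ p : ℝ × ℝ, Heat.dT (Heat.dT (boxPot κ D τ θ)) p.1 p.2 =
      Heat.pot κ (Heat.dT (Heat.dT (box D τ θ))) p.1 p.2 := fun p =>
    (Heat.potProps κ hκ _ _ _ hsrc).2.2.2.2.2.1 _ _
  have hs2 := Heat.dT_support (Heat.dT_support hs)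
  have i0 := moment_integrable hκ (Heat.continuous_dT hTs.smooth) (Heat.compact_dT hTs) hs2 hL
    hsum 0
  have i8 := moment_integrable hκ (Heat.continuous_dT hTs.smooth) (Heat.compact_dT hTs) hs2 hL
    hsum 18
  obtain ⟨⟨b0, -, -⟩, -⟩ := ha _ _ _ _ hsrc hh h2
  obtain ⟨⟨b8, -, -⟩, -⟩ := hb _ _ _ _ hsrc hh h2
  have hm0 := hmom D τ θ (span D τ T) 0 _ hD hτ hwid
  have hm8 := hmom D τ θ (span D τ T) 18 _ hD hτ hwid
  rw [hsum] at b0 b8
  simp only [boxPot] at e ⊢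
  simp only [e] at b0 b8 ⊢
  have key : ∀ (q : ℕ) (Z : ℝ), 0 ≤ Z →
      Heat.moment q (span D τ T) (Heat.dT (Heat.dT (box D τ θ))) ≤ Z / (D * τ ^ 2) ^ 2 →
      Heat.moment q (span D τ T) (box D τ θ) ≤ Z →
      2 * (D * τ ^ 2) * Heat.moment q (span D τ T) (Heat.dT (Heat.dT (box D τ θ))) +
        Heat.moment q (span D τ T) (box D τ θ) / (2 * (D * τ ^ 2)) ≤ Z * (4 / (D * τ ^ 2)) := by
    intro q Z hZ m1 m2
    refine (add_le_add (mul_le_mul_of_nonneg_left m1 hh.le)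
      (div_le_div_of_nonneg_right m2 hh.le)).trans ?_
    have hq : (0 : ℝ) < D * τ ^ 2 := by positivity
    rw [show 2 * (D * τ ^ 2) * (Z / (D * τ ^ 2) ^ 2) + Z / (2 * (D * τ ^ 2)) =
      Z * ((5 / 2) / (D * τ ^ 2)) by field_simp; ring]
    exact mul_le_mul_of_nonneg_left (div_le_div_of_nonneg_right (by norm_num) hq.le) hZ
  rw [mul_div_assoc _ (4 : ℝ)]
  have hn : ∀ q, 0 ≤ 2 * (D * τ ^ 2) *
        Heat.moment q (span D τ T) (Heat.dT (Heat.dT (box D τ θ))) +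
      Heat.moment q (span D τ T) (box D τ θ) / (2 * (D * τ ^ 2)) :=
    fun q => add_nonneg (mul_nonneg hh.le (Heat.moment_nonneg _ _ _))
      (div_nonneg (Heat.moment_nonneg _ _ _) hh.le)
  exact wt_moments (Sw := Sw) (N := N) (a := a) (b := b) (Cb := Cb) hτ i0 i8
    (b0.trans (mul_le_mul (le_abs_self _)
      (key 0 Cb hCb (by simpa using hm0.2.2.1) (by simpa using hm0.1)) (hn 0) (abs_nonneg _)))
    (b8.trans (mul_le_mul (le_abs_self _)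
      (key 18 _ (mul_nonneg hCb (Even.pow_nonneg (by decide) _)) hm8.2.2.1 hm8.1) (hn 18)
      (abs_nonneg _)))

theorem boxPot_nonneg {κ D τ : ℝ} (hD : 0 ≤ D) (hτ : 0 ≤ τ) (θ σ y : ℝ) :
    0 ≤ boxPot κ D τ θ σ y := by
  refine integral_nonneg fun q => mul_nonneg ?_ (box_nonneg hD hτ _ _ _)
  unfold Heat.kern
  positivity

/-- What is used about the potential of the box. -/
theorem potBound : PotBoundStmt := by
  intro κ Sw N hκ hSw hN
  obtain ⟨C, hC, hp⟩ := exists_pot_sup (Sw := Sw) hκ hN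
  obtain ⟨C', hC', hp'⟩ := exists_dY_sup (Sw := Sw) hκ hN
  obtain ⟨C₀, hC₀, h0⟩ := exists_int_pot (Sw := Sw) hκ hN
  obtain ⟨C₁, hC₁, h1⟩ := exists_int_dY (Sw := Sw) hκ hN
  obtain ⟨C₂, hC₂, h2⟩ := exists_int_dT (Sw := Sw) hκ hN
  obtain ⟨C₃, hC₃, h3⟩ := exists_int_dYY (Sw := Sw) hκ hN
  obtain ⟨C₄, hC₄, h4⟩ := exists_int_dTT (Sw := Sw) hκ hN
  set B := C + C' + C₀ + C₁ + C₂ + C₃ + C₄ with hB
  refine ⟨B, by positivity, fun D τ θ T hW => ?_⟩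
  have hτ := hW.τ_pos
  have hD : 0 ≤ D := by linarith [hW.D_ge]
  refine ⟨fun σ y => ⟨boxPot_nonneg hD hτ.le θ σ y, fun hσ => ⟨?_, ?_⟩⟩,
    (h0 D τ θ T hW).trans ?_, (h1 D τ θ T hW).trans ?_, (h2 D τ θ T hW).trans ?_,
    (h3 D τ θ T hW).trans ?_, (h4 D τ θ T hW).trans ?_⟩
  · refine ((mul_le_mul_of_nonneg_left (le_abs_self _) (wt_nonneg _ _)).trans
      (hp D τ θ T hW σ y hσ)).trans ?_
    gcongr
    linarith
  · refine (hp' D τ θ T hW σ y hσ).trans ?_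
    gcongr
    linarith
  all_goals gcongr; linarith

end Vale.Agent.P363.Ext.Growth
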