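import Vale.Agent.P363.Ext.Growth.JumpWin
import Vale.Agent.P363.Ext.Growth.Band
import Vale.Agent.P363.Ext.Growth.DefectPart

/-!
P363, `JumpEstStmt`: the potential term. In space it is the sum of the parts below and above the
edge; there `|W| ≤ |X| + (X - W)` almost everywhere.
-/

noncomputable section

namespace Vale.Agent.P363.Ext.Growth

open MeasureTheory Filter Set
open scoped BigOperators Topology Real

/-- Integrability passes through `τ = 1 / r`. -/
theorem integrable_inv_fst {F : ℝ × ℝ → ℝ} (hF : Integrable F)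
    (h0 : ∀ p : ℝ × ℝ, p.1 ≤ 0 → F p = 0) :
    Integrable fun p : ℝ × ℝ => F (p.1⁻¹, p.2) / p.1 ^ 2 := by
  set H : Set (ℝ × ℝ) := Ioi 0 ×ˢ univ with hH
  have hHm : MeasurableSet H := measurableSet_Ioi.prod MeasurableSet.univ
  have himg : (fun p : ℝ × ℝ => (p.1⁻¹, p.2)) '' H = H := by
    refine Subset.antisymm ?_ fun p hp =>
      ⟨(p.1⁻¹, p.2), ⟨inv_pos.2 (show 0 < p.1 from hp.1), trivial⟩, by simp⟩
    rintro _ ⟨p, hp, rfl⟩
    exact ⟨inv_pos.2 (show 0 < p.1 from hp.1), trivial⟩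
  have h := (integrableOn_image_iff_integrableOn_abs_det_fderiv_smul (μ := volume) hHm
    (fun p hp => (((hasDerivAt_inv (ne_of_gt hp.1)).hasFDerivAt).prodMap p
      (hasFDerivAt_id p.2)).hasFDerivWithinAt)
    (fun p _ q _ e => Prod.ext (inv_injective (congrArg Prod.fst e)) (congrArg Prod.snd e :)) F).1
    (himg.symm ▸ hF.integrableOn)
  refine (integrableOn_iff_integrable_of_support_subset fun p hp => ?_).1
    (h.congr_fun (fun p hp => ?_) hHm)
  · by_contra hn
    exact hp (show F (p.1⁻¹, p.2) / p.1 ^ 2 = 0 by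
      rw [h0 (p.1⁻¹, p.2) (inv_nonpos.2 (not_lt.1 fun h => hn ⟨h, trivial⟩)), zero_div])
  · have hdet : ((ContinuousLinearMap.toSpanSingleton ℝ (-(p.1 ^ 2)⁻¹)).prodMap
        (ContinuousLinearMap.id ℝ ℝ)).det = -(p.1 ^ 2)⁻¹ := by
      rw [ContinuousLinearMap.det, ContinuousLinearMap.coe_prodMap, LinearMap.det_prodMap]
      rw [show LinearMap.det ((ContinuousLinearMap.id ℝ ℝ).toLinearMap) = 1 from LinearMap.det_id,
        mul_one]
      exact ContinuousLinearMap.det_toSpanSingleton _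
    simp only [hdet, abs_neg, abs_inv, abs_pow, sq_abs, smul_eq_mul, Prod.map, id]
    ring

theorem rot_norm (φ : ℝ) (x : Space) : ‖rot φ x‖ = ‖x‖ := (axIso false φ).norm_map x

theorem W_axial (S : Setup) : AxialSym S.W := by
  refine ⟨fun φ x => ?_, fun x => ?_⟩
  · simp only [Setup.W, S.axial_v.1, rot_norm]
  · have hn : ‖mirror x‖ = ‖x‖ := by simpa [axMap, rot_zero_angle] using (axIso true 0).norm_map x
    simp only [Setup.W, S.axial_v.2, hn]

theorem measurable_indicator_profile {S : Setup} {ν : ℝ} {f : Space → ℝ} (hf : Profile S ν f) :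
    Measurable ((belt S.R₁).indicator f) := by
  classical
  rw [← piecewise_eq_indicator]
  exact hf.continuousOn.measurable_piecewise continuousOn_const (isOpen_belt _).measurableSet

/-- The potential on the window, from its three parts in space. -/
def WLoadStmt : Prop :=
  ∀ (S : Setup) (Sw K N q : ℝ), 0 < Sw → 0 ≤ K → 10 ≤ N → 0 < q →
    ∀ D : ℝ, 1 ≤ D → ∃ δ₀ : ℝ, 0 < δ₀ ∧ ∀ δ : ℝ, 0 < δ → δ ≤ δ₀ →
      ∃ R₀ : ℝ, ∀ R M η : ℝ, Params R₀ δ₀ δ R M η → Level S δ R K M η →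
        ∀ (ν : ℝ) (f : Space → ℝ), Profile S ν f → ∀ τ θ T : ℝ, Window Sw N D τ θ T →
          4 * T * R ≤ 1 →
          IntegrableOn (fun p : ℝ × ℝ => boxPot S.κ D τ θ p.1 p.2 * |S.W (pt p.1⁻¹ p.2)| *
              |tred S f p.1 p.2| / p.1 ^ 2) (Icc (τ / 4) (2 * T) ×ˢ Icc (-δ) δ) ∧
          ∫ p in Icc (τ / 4) (2 * T) ×ˢ Icc (-δ) δ, boxPot S.κ D τ θ p.1 p.2 *
              |S.W (pt p.1⁻¹ p.2)| * |tred S f p.1 p.2| / p.1 ^ 2 ≤
            q * (1 + K + M) * (τ ^ 4 + η * Real.sqrt τ)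

/-- The weighted potential over the upper half of the window. -/
theorem shell_load (hP : PotBoundStmt) (hEx : ExcessStmt) (S : Setup) (Sw K N q : ℝ) (hSw : 0 < Sw)
    (hK : 0 ≤ K) (hN : 10 ≤ N) (hq : 0 < q) (D : ℝ) (hD : 1 ≤ D) :
    ∃ δ₀ : ℝ, 0 < δ₀ ∧ δ₀ ≤ 1 / 4 ∧ ∀ δ : ℝ, 0 < δ → δ ≤ δ₀ →
      ∃ R₀ : ℝ, S.R₁ ≤ R₀ ∧ ∀ R M η : ℝ, Params R₀ δ₀ δ R M η → Level S δ R K M η →
        ∀ (ν : ℝ) (f : Space → ℝ), Profile S ν f → ∀ τ θ T : ℝ, Window Sw N D τ θ T →
          4 * T * R ≤ 1 →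
          IntegrableOn (fun x => |S.W x| * symWt S f D τ θ x) (shell δ τ T) ∧
          ∫ x in shell δ τ T, |S.W x| * symWt S f D τ θ x ≤
            q * (1 + K + M) * (τ ^ 4 + η * Real.sqrt τ) := by
  obtain ⟨a, ha, A⟩ := band hP S Sw K N (q / 3) hSw hK hN (by linarith) D hD
  obtain ⟨b, hb, B⟩ := defectPart hP S Sw K N (q / 3) hSw hK hN (by linarith) D hD
  obtain ⟨c, hc, C⟩ := hEx S Sw K N (q / 3) hSw hK hN (by linarith) D hD
  refine ⟨min (min a b) (min c (1 / 4)), lt_min (lt_min ha hb) (lt_min hc (by norm_num)),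
    (min_le_right _ _).trans (min_le_right _ _), fun δ hδ hδle => ?_⟩
  obtain ⟨ra, A⟩ := A δ hδ (hδle.trans ((min_le_left _ _).trans (min_le_left _ _)))
  obtain ⟨rb, B⟩ := B δ hδ (hδle.trans ((min_le_left _ _).trans (min_le_right _ _)))
  obtain ⟨rc, C⟩ := C δ hδ (hδle.trans ((min_le_right _ _).trans (min_le_left _ _)))
  refine ⟨max (max ra rb) (max rc S.R₁), (le_max_right _ _).trans (le_max_right _ _),
    fun R M η hp hL ν f hf τ θ T hW hTR => ?_⟩
  obtain ⟨hd0, hd, hR, hM, hη, hη1⟩ := hp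
  simp only [max_le_iff] at hR
  simp only [le_min_iff] at hd
  obtain ⟨iA, eA⟩ := A R M η ⟨hd0, hd.1.1, hR.1.1, hM, hη, hη1⟩ hL ν f hf τ θ T hW hTR
  obtain ⟨iB, eB⟩ := B R M η ⟨hd0, hd.1.2, hR.1.2, hM, hη, hη1⟩ hL ν f hf τ θ T hW hTR
  obtain ⟨iC, eC⟩ := C R M η ⟨hd0, hd.2.1, hR.2.1, hM, hη, hη1⟩ hL ν f hf τ θ T hW hTR
  have hτ := hW.τ_pos
  have hT : 0 < T := by linarith [hW.T_ge]
  set E := shell δ τ T
  set Lo : Set Space := {x | height x < edge T * ‖x‖}
  set Hi : Set Space := {x | edge T * ‖x‖ ≤ height x}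
  have hh : Measurable height := by unfold height; fun_prop
  have hEm : MeasurableSet E := measurableSet_shell δ τ T
  have hHm : MeasurableSet (E ∩ Hi) :=
    hEm.inter (measurableSet_le (measurable_norm.const_mul _) hh)
  have hsub : E ⊆ belt S.R₁ :=
    shell_subset_belt hτ hT hTR hR.2.2 (by linarith [one_le_R₁ S]) hd.2.2
  have hnn : ∀ x ∈ E, 0 ≤ symWt S f D τ θ x := fun x hx => by
    obtain ⟨hr, -⟩ := shell_bounds hτ hT hTR hx
    exact div_nonneg (mul_nonneg (add_nonneg (boxPot_nonneg (by linarith) hτ.le _ _ _)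
      (boxPot_nonneg (by linarith) hτ.le _ _ _)) (abs_nonneg _))
      (mul_nonneg (by positivity) (tailG_pos _ _ hr).le)
  have hle : ∀ᵐ x ∂volume.restrict (E ∩ Hi), |S.W x| * symWt S f D τ θ x ≤
      |S.X x| * symWt S f D τ θ x + (S.X x - S.W x) * symWt S f D τ θ x := by
    refine (ae_restrict_iff' hHm).2 (S.defect_ge.mono fun x hx hxE => ?_)
    rw [← add_mul]
    refine mul_le_mul_of_nonneg_right ?_ (hnn x hxE.1)
    have h : S.W x ≤ S.X x := hx (hsub hxE.1).1
    calc |S.W x| = |S.X x - (S.X x - S.W x)| := by ring_nf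
      _ ≤ |S.X x| + |S.X x - S.W x| := abs_sub _ _
      _ = _ := by rw [abs_of_nonneg (sub_nonneg.2 h)]
  have iH : IntegrableOn (fun x => |S.W x| * symWt S f D τ θ x) (E ∩ Hi) := by
    refine Integrable.mono' (Integrable.add iB iC)
      ((measurable_defectW S).norm.aestronglyMeasurable.mul
        (meas_symWt hf (by linarith) hτ hHm (inter_subset_left.trans hsub))) ?_
    filter_upwards [hle, ae_restrict_mem hHm] with x hx hxE
    rw [Real.norm_eq_abs, abs_of_nonneg (mul_nonneg (abs_nonneg _) (hnn x hxE.1))]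
    exact hx
  have hsplit : E ∩ Lo ∪ E ∩ Hi = E := by
    rw [← inter_union_distrib_left, inter_eq_left]
    exact fun x _ => lt_or_ge (height x) (edge T * ‖x‖)
  have hdis : Disjoint (E ∩ Lo) (E ∩ Hi) :=
    Set.disjoint_left.2 fun x hx hx' => not_le.2 (show height x < edge T * ‖x‖ from hx.2) hx'.2
  refine ⟨hsplit ▸ iA.union iH, ?_⟩
  calc ∫ x in E, |S.W x| * symWt S f D τ θ x
      = (∫ x in E ∩ Lo, |S.W x| * symWt S f D τ θ x) +
          ∫ x in E ∩ Hi, |S.W x| * symWt S f D τ θ x := by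
        rw [← setIntegral_union hdis hHm iA iH, hsplit]
    _ ≤ q / 3 * (1 + K + M) * (τ ^ 4 + η * Real.sqrt τ) +
          (q / 3 * (1 + K + M) * (τ ^ 4 + η * Real.sqrt τ) +
            q / 3 * (1 + K + M) * (τ ^ 4 + η * Real.sqrt τ)) := by
        refine add_le_add eA ((integral_mono_ae iH (Integrable.add iB iC) hle).trans ?_)
        refine (integral_add' iB iC).trans_le ?_
        exact add_le_add eB eC
    _ = _ := by ring

/-- The potential term in space. -/
def spaceLoad (S : Setup) (f : Space → ℝ) (D τ θ : ℝ) (Q : Set (ℝ × ℝ)) : ℝ × ℝ → ℝ :=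
  {p : ℝ × ℝ | (p.1⁻¹, p.2) ∈ Q}.indicator fun p =>
    boxPot S.κ D τ θ p.1⁻¹ p.2 * |S.W (pt p.1 p.2)| *
      |(belt S.R₁).indicator f (pt p.1 p.2)| / (p.1 ^ 3 * tailG S.a S.k p.1)

/-- The potential term on the window. -/
theorem wLoad (hP : PotBoundStmt) (hEx : ExcessStmt) : WLoadStmt := by
  intro S Sw K N q hSw hK hN hq D hD
  obtain ⟨δ₀, hδ₀, hδ4, H⟩ := shell_load hP hEx S Sw K N q hSw hK hN hq D hD
  refine ⟨δ₀, hδ₀, fun δ hδ hδle => ?_⟩
  obtain ⟨R₀, hR₀, H⟩ := H δ hδ hδle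
  refine ⟨R₀, fun R M η hp hL ν f hf τ θ T hW hTR => ?_⟩
  obtain ⟨iE, eE⟩ := H R M η hp hL ν f hf τ θ T hW hTR
  have hτ := hW.τ_pos
  have hT : 0 < T := by linarith [hW.T_ge]
  have hD0 : 0 < D := by linarith
  have hκ : 0 < S.κ := one_div_pos.2 (by linarith [S.data.a_pos])
  set Q : Set (ℝ × ℝ) := Icc (τ / 4) (2 * T) ×ˢ Icc (-δ) δ with hQ
  set E := shell δ τ T
  have hEm : MeasurableSet E := measurableSet_shell δ τ T
  have hsub : E ⊆ belt S.R₁ :=
    shell_subset_belt hτ hT hTR (hR₀.trans hp.R_ge) (by linarith [one_le_R₁ S]) (hp.δ_le.trans hδ4)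
  set g := (belt S.R₁).indicator f with hg
  set G : Space → ℝ := E.indicator fun x => |S.W x| * symWt S f D τ θ x with hG
  have iG : Integrable G := (integrable_indicator_iff hEm).2 iE
  have hmp : MeasurePreserving (mirror : Space → Space) := by
    have e : (mirror : Space → Space) = axIso true 0 := by
      funext x; simp [axIso, axMap, rot_zero_angle]
    rw [e]
    exact (axIso true 0).measurePreserving
  have iG' : Integrable fun x => G (mirror x) :=
    hmp.integrable_comp_of_integrable iG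
  have hemb : MeasurableEmbedding (mirror : Space → Space) := by
    have e : (mirror : Space → Space) = axIso true 0 := by
      funext x; simp [axIso, axMap, rot_zero_angle]
    rw [e]
    exact (axIso true 0).toHomeomorph.measurableEmbedding
  set F := spaceLoad S f D τ θ Q with hF
  have hgm := measurable_indicator_profile hf
  have hsrc := source_box hD0 hτ θ
  have hPc : Continuous (Function.uncurry (boxPot S.κ D τ θ)) :=
    (Heat.contDiff_pot (n := 2) hκ hsrc.smooth hsrc.compact).continuous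
  have hinv : Measurable fun p : ℝ × ℝ => (p.1⁻¹, p.2) :=
    measurable_fst.inv.prodMk measurable_snd
  have hFm : Measurable F := by
    refine Measurable.indicator ?_ (hinv (measurableSet_Icc.prod measurableSet_Icc))
    refine (((hPc.measurable.comp hinv).mul ((measurable_defectW S).comp measurable_pt).abs).mul
      (hgm.comp measurable_pt).abs).div ?_
    unfold tailG
    fun_prop
  have hgrot : ∀ φ x, g (rot φ x) = g x := fun φ x => by
    have hb : rot φ x ∈ belt S.R₁ ↔ x ∈ belt S.R₁ := by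
      simp [belt, rot_norm, height]
    by_cases hx : x ∈ belt S.R₁
    · rw [hg, indicator_of_mem hx, indicator_of_mem (hb.2 hx), hf.axial.1]
    · rw [hg, indicator_of_notMem hx, indicator_of_notMem fun h => hx (hb.1 h)]
  have hF0 : ∀ p, 0 ≤ F p := fun p => by
    refine indicator_nonneg (fun p hp => ?_) p
    have hp1 : 0 < p.1 := inv_pos.1 (lt_of_lt_of_le (by linarith) hp.1.1)
    exact div_nonneg (mul_nonneg (mul_nonneg (boxPot_nonneg hD0.le hτ.le _ _ _) (abs_nonneg _))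
      (abs_nonneg _)) (mul_nonneg (by positivity) (tailG_pos _ _ hp1).le)
  have hFG : ∀ x, F (polMap x) ≤ G x + G (mirror x) := by
    intro x
    have hG0 : ∀ y, 0 ≤ G y := fun y => indicator_nonneg (fun y hy => by
      obtain ⟨hr, -⟩ := shell_bounds hτ hT hTR hy
      exact mul_nonneg (abs_nonneg _) (div_nonneg (mul_nonneg (add_nonneg
        (boxPot_nonneg hD0.le hτ.le _ _ _) (boxPot_nonneg hD0.le hτ.le _ _ _)) (abs_nonneg _))
        (mul_nonneg (by positivity) (tailG_pos _ _ hr).le))) y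
    by_cases hm : polMap x ∈ {p : ℝ × ℝ | (p.1⁻¹, p.2) ∈ Q}
    swap
    · rw [hF, spaceLoad, indicator_of_notMem hm]
      exact add_nonneg (hG0 _) (hG0 _)
    obtain ⟨⟨h1, h2⟩, h3⟩ := hm
    change τ / 4 ≤ ‖x‖⁻¹ at h1
    change ‖x‖⁻¹ ≤ 2 * T at h2
    change height x / ‖x‖ ∈ Icc (-δ) δ at h3
    have hr : 0 < ‖x‖ := inv_pos.1 (lt_of_lt_of_le (by linarith) h1)
    have hn : ‖mirror x‖ = ‖x‖ := by simpa [axMap, rot_zero_angle] using (axIso true 0).norm_map x
    have hFe : F (polMap x) = boxPot S.κ D τ θ ‖x‖⁻¹ (height x / ‖x‖) * |S.W x| * |g x| /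
        (‖x‖ ^ 3 * S.G x) := by
      rw [hF, spaceLoad, indicator_of_mem (show polMap x ∈ {p : ℝ × ℝ | (p.1⁻¹, p.2) ∈ Q} from
        ⟨⟨h1, h2⟩, h3⟩), comp_polMap (W_axial S).1]
      simp only [comp_polMap (g := (belt S.R₁).indicator f) (hg ▸ hgrot), hg]
      rfl
    have hden : 0 < ‖x‖ ^ 3 * S.G x := mul_pos (by positivity) (tailG_pos _ _ hr)
    obtain ⟨h3a, h3b⟩ := h3
    rw [le_div_iff₀ hr] at h3a
    rw [div_le_iff₀ hr] at h3b
    rcases le_or_gt 0 (height x) with hz | hz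
    · have hxE : x ∈ E := ⟨h1, h2, hz, h3b⟩
      refine le_trans ?_ (le_add_of_nonneg_right (hG0 _))
      rw [hFe, hG, indicator_of_mem hxE, symWt, hg, indicator_of_mem (hsub hxE), ← mul_div_assoc,
        mul_comm (boxPot S.κ D τ θ _ _) |S.W x|, mul_assoc]
      refine div_le_div_of_nonneg_right (mul_le_mul_of_nonneg_left
        (mul_le_mul_of_nonneg_right (le_add_of_nonneg_right (boxPot_nonneg hD0.le hτ.le _ _ _))
          (abs_nonneg _)) (abs_nonneg _)) hden.le
    · have hxE : mirror x ∈ E := by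
        refine ⟨by rwa [hn], by rwa [hn], ?_, ?_⟩
        · rw [height_mirror]; linarith
        · rw [height_mirror, hn]; linarith
      have hxb : x ∈ belt S.R₁ := by
        have h := hsub hxE
        simpa [belt, hn, height_mirror] using h
      refine le_trans ?_ (le_add_of_nonneg_left (hG0 _))
      rw [hFe, hG, indicator_of_mem hxE, symWt, (W_axial S).2, hf.axial.2,
        show S.G (mirror x) = S.G x by simp [Setup.G, hn], hn, height_mirror, neg_div, neg_neg,
        hg, indicator_of_mem hxb, ← mul_div_assoc,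
        mul_comm (boxPot S.κ D τ θ _ _) |S.W x|, mul_assoc]
      refine div_le_div_of_nonneg_right (mul_le_mul_of_nonneg_left
        (mul_le_mul_of_nonneg_right (le_add_of_nonneg_left (boxPot_nonneg hD0.le hτ.le _ _ _))
          (abs_nonneg _)) (abs_nonneg _)) hden.le
  have iF : Integrable fun x : Space => F (polMap x) :=
    (iG.add iG').mono' ((hFm.comp measurable_polMap).aestronglyMeasurable)
      (Eventually.of_forall fun x => by
        rw [Real.norm_eq_abs, abs_of_nonneg (hF0 _)]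
        exact hFG x)
  have eF : ∫ x : Space, F (polMap x) ≤ 2 * ∫ x in E, |S.W x| * symWt S f D τ θ x := by
    refine (integral_mono iF (iG.add iG') hFG).trans (le_of_eq ?_)
    simp only [Pi.add_apply]
    rw [integral_add iG iG', hmp.integral_comp hemb, hG, integral_indicator hEm]
    ring
  obtain ⟨hi1, he1⟩ := integral_polMap hFm
  set F₂ : ℝ × ℝ → ℝ := fun p => p.1 ^ 2 * F p with hF₂
  have hsupp : ∀ p, F₂ p ≠ 0 → p ∈ strip := fun p hne => by
    by_contra hn
    refine hne ?_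
    simp only [hF₂, hF, spaceLoad]
    rw [indicator_of_notMem, mul_zero]
    intro h
    refine hn ⟨inv_pos.1 (lt_of_lt_of_le (by linarith) h.1.1), ?_, ?_⟩
    · linarith [h.2.1, hp.δ_le, hδ4]
    · linarith [h.2.2, hp.δ_le, hδ4]
  have i2 : Integrable F₂ :=
    (integrableOn_iff_integrable_of_support_subset fun p hp => hsupp p hp).1 (hi1.1 iF)
  have e2 : ∫ p, F₂ p = ∫ p in strip, p.1 ^ 2 * F p :=
    (setIntegral_eq_integral_of_forall_compl_eq_zero fun p hp => by_contra fun h =>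
      hp (hsupp p h)).symm
  have h0 : ∀ p : ℝ × ℝ, p.1 ≤ 0 → F₂ p = 0 := fun p hp => by_contra fun h =>
    absurd (hsupp p h).1 (not_lt.2 hp)
  have i3 := integrable_inv_fst i2 h0
  have e3 := Heat.integral_inv_fst F₂ h0
  have e4 : (fun p : ℝ × ℝ => F₂ (p.1⁻¹, p.2) / p.1 ^ 2) = Q.indicator fun p =>
      boxPot S.κ D τ θ p.1 p.2 * |S.W (pt p.1⁻¹ p.2)| * |tred S f p.1 p.2| / p.1 ^ 2 := by
    funext p
    simp only [hF₂, hF, spaceLoad]
    by_cases hp' : p ∈ Q
    · have hm : (p.1⁻¹, p.2) ∈ {p : ℝ × ℝ | (p.1⁻¹, p.2) ∈ Q} := by simpa using hp'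
      rw [indicator_of_mem hm, indicator_of_mem hp']
      have hp1 : 0 < p.1 := lt_of_lt_of_le (by linarith) hp'.1.1
      have hb : pt p.1⁻¹ p.2 ∈ belt S.R₁ := by
        refine Heat.pt_mem_belt (by linarith [one_le_R₁ S]) ?_ ?_
        · rw [lt_inv_comm₀ (by linarith [one_le_R₁ S]) hp1, inv_eq_one_div,
            lt_div_iff₀ (by linarith [one_le_R₁ S])]
          nlinarith [hp'.1.2, mul_le_mul_of_nonneg_left (hR₀.trans hp.R_ge) hT.le]
        · rcases abs_cases p.2 with ⟨e, -⟩ | ⟨e, -⟩ <;> rw [e] <;>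
            linarith [hp'.2.1, hp'.2.2, hp.δ_le, hδ4]
      have hG' : 0 < tailG S.a S.k p.1⁻¹ := tailG_pos _ _ (inv_pos.2 hp1)
      simp only [inv_inv, indicator_of_mem hb, tred, red, abs_div, abs_of_pos
        (mul_pos (inv_pos.2 hp1) hG')]
      field_simp
    · have hm : (p.1⁻¹, p.2) ∉ {p : ℝ × ℝ | (p.1⁻¹, p.2) ∈ Q} := by simpa using hp'
      rw [indicator_of_notMem hm, indicator_of_notMem hp', mul_zero, zero_div]
  have hQm : MeasurableSet Q := measurableSet_Icc.prod measurableSet_Icc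
  rw [e4] at i3 e3
  refine ⟨(integrable_indicator_iff hQm).1 i3, ?_⟩
  rw [← integral_indicator hQm, ← e3, e2]
  have hpi := Real.pi_gt_three
  have hnn : 0 ≤ ∫ x : Space, F (polMap x) := integral_nonneg fun x => hF0 _
  nlinarith [he1, eF, eE]

end Vale.Agent.P363.Ext.Growth
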