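import Vale.Agent.P363.Ext.Growth.Spec

/-!
P363, Kohn-Sham side: the parts of `JumpEstStmt`.

The jump identity is used with `Z = Φ (σ) χ (y) P (σ, y)`, `P = pot κ (box D τ θ)`. In the window
`τ / 4 ≤ σ ≤ 2 T` all times are comparable. `PotBoundStmt` lists what is used about `P`. The
potential term is split on the upper half, with the symmetrised `P`, at the height `edge T`:
`BandStmt` below it; above it `|W| ≤ |X| + (X - W)`, `DefectPartStmt` and `ExcessStmt`.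
`CurvStmt` bounds the terms of the cut-off in `y` and of the curvature.
-/

noncomputable section

namespace Vale.Agent.P363.Ext.Growth

open MeasureTheory Filter Set
open scoped BigOperators Topology

/-- The geometry of the parameters of a jump. -/
structure Window (Sw N D τ θ T : ℝ) : Prop where
  τ_pos : 0 < τ
  θ_le : |θ| ≤ Sw * Real.sqrt τ
  T_ge : 10 * τ ≤ T
  T_le : T ≤ N * τ
  D_ge : 1 ≤ D
  box_le : 4 * D * τ ≤ 1
  small : 4 * T ≤ 1

/-- The weight against the polynomial growth of the bounds. -/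
def wt (τ y : ℝ) : ℝ := (1 + |y| / Real.sqrt τ) ^ 18

/-- The potential of the box. -/
def boxPot (κ D τ θ : ℝ) : ℝ → ℝ → ℝ := Heat.pot κ (box D τ θ)

/-- What is used about the potential of the box. -/
def PotBoundStmt : Prop :=
  ∀ κ Sw N : ℝ, 0 < κ → 0 < Sw → 10 ≤ N → ∃ C : ℝ, 0 ≤ C ∧
    ∀ D τ θ T : ℝ, Window Sw N D τ θ T →
      (∀ σ y, 0 ≤ boxPot κ D τ θ σ y ∧
        (σ ≤ 2 * T → wt τ y * boxPot κ D τ θ σ y ≤ C * D / (τ + Real.sqrt |σ - τ|) ∧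
          wt τ y * |Heat.dY (boxPot κ D τ θ) σ y| ≤ C * D / (τ ^ 2 + |σ - τ|))) ∧
      ((∫ p in Iic (2 * T) ×ˢ univ, wt τ p.2 * |boxPot κ D τ θ p.1 p.2|) ≤ C * τ) ∧
      ((∫ p in Iic (2 * T) ×ˢ univ, wt τ p.2 * |Heat.dY (boxPot κ D τ θ) p.1 p.2|) ≤
        C * Real.sqrt τ) ∧
      ((∫ p in Iic (2 * T) ×ˢ univ, wt τ p.2 * |Heat.dT (boxPot κ D τ θ) p.1 p.2|) ≤
        C * (D + |Real.log τ|)) ∧
      ((∫ p in Iic (2 * T) ×ˢ univ, wt τ p.2 * |Heat.dY (Heat.dY (boxPot κ D τ θ)) p.1 p.2|) ≤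
        C * (D + |Real.log τ|)) ∧
      (∫ p in Iic (2 * T) ×ˢ univ, wt τ p.2 * |Heat.dT (Heat.dT (boxPot κ D τ θ)) p.1 p.2|) ≤
        C / (D * τ ^ 2)

/-- The height `|θ|` of the band in which the potential is treated crudely. -/
def edge (T : ℝ) : ℝ := 8 * T ^ 2

/-- The symmetrised test weight against `|f|`, in space. -/
def symWt (S : Setup) (f : Space → ℝ) (D τ θ : ℝ) (x : Space) : ℝ :=
  (boxPot S.κ D τ θ ‖x‖⁻¹ (height x / ‖x‖) + boxPot S.κ D τ θ ‖x‖⁻¹ (-(height x / ‖x‖))) *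
    |f x| / (‖x‖ ^ 3 * S.G x)

/-- The window in space, upper half. -/
def shell (δ τ T : ℝ) : Set Space :=
  {x | τ / 4 ≤ ‖x‖⁻¹ ∧ ‖x‖⁻¹ ≤ 2 * T ∧ 0 ≤ height x ∧ height x ≤ δ * ‖x‖}

/-- An estimate of a part of the potential term, in the quantifiers of `JumpEstStmt`. -/
def PartEst (F : Setup → Space → ℝ) (part : ℝ → Set Space) : Prop :=
  ∀ (S : Setup) (Sw K N q : ℝ), 0 < Sw → 0 ≤ K → 10 ≤ N → 0 < q →
    ∀ D : ℝ, 1 ≤ D → ∃ δ₀ : ℝ, 0 < δ₀ ∧ ∀ δ : ℝ, 0 < δ → δ ≤ δ₀ →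
      ∃ R₀ : ℝ, ∀ R M η : ℝ, Params R₀ δ₀ δ R M η → Level S δ R K M η →
        ∀ (ν : ℝ) (f : Space → ℝ), Profile S ν f → ∀ τ θ T : ℝ, Window Sw N D τ θ T →
          4 * T * R ≤ 1 →
          IntegrableOn (fun x => F S x * symWt S f D τ θ x) (shell δ τ T ∩ part T) ∧
          ∫ x in shell δ τ T ∩ part T, F S x * symWt S f D τ θ x ≤
            q * (1 + K + M) * (τ ^ 4 + η * Real.sqrt τ)

/-- The potential below the edge. -/
def BandStmt : Prop :=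
  PartEst (fun S x => |S.W x|) fun T => {x | height x < edge T * ‖x‖}

/-- The defect above the edge. -/
def DefectPartStmt : Prop :=
  PartEst (fun S x => |S.X x|) fun T => {x | edge T * ‖x‖ ≤ height x}

/-- The excess above the edge, from the budget. -/
def ExcessStmt : Prop :=
  PartEst (fun S x => S.X x - S.W x) fun T => {x | edge T * ‖x‖ ≤ height x}

/-- The time cut-off: the window `[τ / 4, 2 T]`, one on `[τ / 2, T]`. -/
def timeCut (τ T σ : ℝ) : ℝ := (1 - downT (τ / 4) σ) * downT T σ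

/-- The terms of the space cut-off and of the curvature. -/
def CurvStmt : Prop :=
  ∀ (S : Setup) (Sw K N q : ℝ), 0 < Sw → 0 ≤ K → 10 ≤ N → 0 < q →
    ∃ D₀ : ℝ, ∀ D : ℝ, D₀ ≤ D → 1 ≤ D → ∃ δ₀ : ℝ, 0 < δ₀ ∧ ∀ δ : ℝ, 0 < δ → δ ≤ δ₀ →
      ∃ R₀ : ℝ, ∀ R M η : ℝ, Params R₀ δ₀ δ R M η → Level S δ R K M η →
        ∀ (ν : ℝ) (f : Space → ℝ), Profile S ν f → ∀ τ θ T : ℝ, Window Sw N D τ θ T →
          4 * T * R ≤ 1 →
          |∫ p : ℝ × ℝ, tred S f p.1 p.2 *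
              Heat.cutErr (timeCut τ T) (cutθ δ) (boxPot S.κ D τ θ) p.1 p.2| +
            |∫ p : ℝ × ℝ, tred S f p.1 p.2 *
              Heat.timeOp S.a S.k (Heat.cut (timeCut τ T) (cutθ δ) (boxPot S.κ D τ θ)) p.1 p.2| ≤
            q * (1 + K + M) * (τ ^ 4 + η * Real.sqrt τ)

end Vale.Agent.P363.Ext.Growth
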