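import Vale.Agent.P363.Ext.Growth.Basic
import Vale.Agent.P363.Tool.Barrier.Calculus
import Vale.Agent.P363.Tool.MaxPrinciple

/-!
P363, Kohn-Sham side, `GrowthStmt`: the monomials `r G θ ^ m τ ^ p` as comparison functions.
-/

noncomputable section

namespace Vale.Agent.P363.Ext.Growth

open MeasureTheory Filter Set
open scoped BigOperators Topology

/-- `r G θ ^ m τ ^ p`, as `z ^ m` times a tail. -/
def mono (S : Setup) (m : ℕ) (p : ℝ) (x : Space) : ℝ :=
  height x ^ m * Bar.tail (S.k / S.a - 1 - m - p) S.a ‖x‖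

/-- The coefficient of the curvature. -/
def curv (S : Setup) (C : ℝ) (m : ℕ) (p : ℝ) : ℝ :=
  (S.k / S.a - 1 - m - p) * (S.k / S.a - p + m) + 2 * C

/-- The reduced operator on `θ ^ m τ ^ p`. -/
def opMono (S : Setup) (C : ℝ) (m : ℕ) (p τ θ : ℝ) : ℝ :=
  (m : ℝ) * ((m : ℝ) - 1) * θ ^ (m - 2) * τ ^ p + 2 * S.a * p * θ ^ m * τ ^ (p - 1) +
    curv S C m p * θ ^ m * τ ^ p

variable {S : Setup} {m : ℕ} {p : ℝ} {x : Space}

lemma mono_eq (hx : x ≠ 0) : mono S m p x =
    ‖x‖ * S.G x * ((height x / ‖x‖) ^ m * (‖x‖⁻¹) ^ p) := by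
  have hr : 0 < ‖x‖ := norm_pos_iff.2 hx
  show _ = ‖x‖ * Bar.tail (S.k / S.a - 2) S.a ‖x‖ * _
  rw [mono, show S.k / S.a - 1 - m - p = S.k / S.a - 2 + (1 - m - p) by ring, Bar.tail_add _ _ _ hr,
    Real.inv_rpow hr.le, Real.rpow_sub hr, Real.rpow_sub hr, Real.rpow_one, Real.rpow_natCast,
    div_pow]
  field_simp

lemma contDiffOn_mono (S : Setup) (m : ℕ) (p : ℝ) :
    ContDiffOn ℝ 2 (mono S m p) {y | y ≠ 0} := by
  unfold mono
  exact Bar.contDiffOn_mul_tail (Bar.contDiff_height.pow m) _ _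

lemma lap_height_pow (m : ℕ) (x : Space) :
    lap (fun y => height y ^ m) x = (m : ℝ) * ((m : ℝ) - 1) * height x ^ (m - 2) ∧
      ∑ a : Fin 3, x a * deriv3 a (fun y => height y ^ m) x = (m : ℝ) * height x ^ m := by
  have hd : ∀ (n : ℕ) a, deriv3 a (fun y => height y ^ n) =
      fun y => (n : ℝ) * height y ^ (n - 1) * (if (2 : Fin 3) = a then 1 else 0) := fun n a =>
    funext fun y => by
      simp only [deriv3]
      rw [fderiv_fun_pow n (Bar.contDiff_height.differentiable two_ne_zero y)]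
      rw [← Bar.deriv3_height a y]
      simp [deriv3]
  constructor
  · have h2 : ∀ a, deriv3 a (deriv3 a fun y => height y ^ m) x =
        (if (2 : Fin 3) = a then 1 else 0) * ((m : ℝ) * ((m - 1 : ℕ) : ℝ) * height x ^ (m - 2)) := by
      intro a
      rw [hd]
      by_cases h : (2 : Fin 3) = a
      · simp only [h, if_true, mul_one, one_mul]
        rw [deriv3_const_mul ((Bar.contDiff_height (m := 2)).pow (m - 1) |>.differentiable
          two_ne_zero x), hd, h]
        simp [Nat.sub_sub, mul_assoc]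
      · simp [h, deriv3]
    simp only [lap, h2, Fin.sum_univ_three]
    rcases m with _ | m
    · simp
    · simp
  · simp only [hd, Fin.sum_univ_three]
    rcases m with _ | m
    · simp
    · simp [height]; ring

/-- The Laplacian of a monomial. -/
lemma lap_mono (C : ℝ) (hx : x ≠ 0) : lap (mono S m p) x =
    2 * (farPot S.a S.k ‖x‖ - C / ‖x‖ ^ 2) * mono S m p x +
      S.G x / ‖x‖ * opMono S C m p ‖x‖⁻¹ (height x / ‖x‖) := by
  have hr : 0 < ‖x‖ := norm_pos_iff.2 hx
  have ha : S.a ≠ 0 := S.data.a_pos.ne'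
  unfold mono
  rw [Bar.lap_mul_tail (Bar.contDiff_height.pow m) _ _ hx, (lap_height_pow m x).1,
    (lap_height_pow m x).2]
  show _ = _ + Bar.tail (S.k / S.a - 2) S.a ‖x‖ / ‖x‖ * _
  rw [show S.k / S.a - 1 - m - p = S.k / S.a - 2 + (1 - m - p) by ring, Bar.tail_add _ _ _ hr,
    opMono, curv, farPot, Real.inv_rpow hr.le, Real.inv_rpow hr.le, Real.rpow_sub hr,
    Real.rpow_sub hr, Real.rpow_sub hr, Real.rpow_one, Real.rpow_natCast, div_pow, div_pow]
  rcases m with _ | _ | m
  · simp only [Nat.cast_zero, zero_mul, pow_zero]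
    field_simp
    ring
  · simp only [Nat.cast_one, sub_self, mul_zero, zero_mul, pow_one, zero_add]
    field_simp
    ring
  · simp only [Nat.cast_add, Nat.cast_one, pow_succ,
      show m + 1 + 1 - 2 = m by omega]
    field_simp
    ring

/-- Finite combinations of monomials. -/
def combo (S : Setup) {ι : Type} [Fintype ι] (c : ι → ℝ) (m : ι → ℕ) (p : ι → ℝ) (x : Space) : ℝ :=
  ∑ i, c i * mono S (m i) (p i) x

variable {ι : Type} [Fintype ι] {c : ι → ℝ} {m' : ι → ℕ} {p' : ι → ℝ}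

lemma contDiffOn_combo : ContDiffOn ℝ 2 (combo S c m' p') {y | y ≠ 0} := by
  unfold combo
  exact ContDiffOn.sum fun i _ => contDiffOn_const.mul (contDiffOn_mono S _ _)

lemma lap_combo (C : ℝ) (hx : x ≠ 0) : lap (combo S c m' p') x =
    2 * (farPot S.a S.k ‖x‖ - C / ‖x‖ ^ 2) * combo S c m' p' x +
      S.G x / ‖x‖ * ∑ i, c i * opMono S C (m' i) (p' i) ‖x‖⁻¹ (height x / ‖x‖) := by
  classical
  have hU : IsOpen {y : Space | y ≠ 0} := isOpen_ne
  have key : ∀ s : Finset ι, lap (fun y => ∑ i ∈ s, c i * mono S (m' i) (p' i) y) x =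
      ∑ i ∈ s, c i * lap (mono S (m' i) (p' i)) x := by
    intro s
    induction s using Finset.induction with
    | empty => simp [lap_const]
    | insert j t hj ih =>
      simp only [Finset.sum_insert hj]
      rw [lap_add hU (f := fun y => c j * mono S (m' j) (p' j) y)
        (g := fun y => ∑ i ∈ t, c i * mono S (m' i) (p' i) y)
        (contDiffOn_const.mul (contDiffOn_mono S _ _))
        (ContDiffOn.sum fun i _ => contDiffOn_const.mul (contDiffOn_mono S _ _)) hx,
        lap_const_mul _ hU (contDiffOn_mono S _ _) hx, ih]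
  unfold combo
  rw [key, Finset.mul_sum, Finset.mul_sum, ← Finset.sum_add_distrib]
  refine Finset.sum_congr rfl fun i _ => ?_
  rw [lap_mono C hx]
  ring

lemma combo_eq (hx : x ≠ 0) : combo S c m' p' x =
    ‖x‖ * S.G x * ∑ i, c i * ((height x / ‖x‖) ^ m' i * (‖x‖⁻¹) ^ p' i) := by
  rw [combo, Finset.mul_sum]
  refine Finset.sum_congr rfl fun i _ => ?_
  rw [mono_eq hx]
  ring

end Vale.Agent.P363.Ext.Growth
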