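import Vale.Agent.P363.Ext.Growth.JumpBox
import Vale.Agent.P363.Ext.Growth.Basic
import Vale.Agent.P363.Ext.Ring
import Vale.Agent.P363.Ext.Heat.Pot

/-!
P363, Kohn-Sham side: shared tools for the parts of the potential term in the jump estimate.

On the shell `τ / 4 ≤ σ ≤ 2 T` the symmetrised test weight is at most
`C D (K + M) (τ⁴ + η √τ) τ² / (τ + √|σ - τ|)`, by the weighted bound of the box potential and
`bd ≤ C (1 + |y| / √τ) ^ 18 (K + M) (τ⁴ + η √τ)`.
-/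

noncomputable section

namespace Vale.Agent.P363.Ext.Growth

open MeasureTheory Filter Set Metric
open scoped BigOperators Topology ENNReal Real

lemma wt_one_le (τ y : ℝ) : 1 ≤ wt τ y :=
  one_le_pow₀ (le_add_of_nonneg_right (div_nonneg (abs_nonneg y) (Real.sqrt_nonneg τ)))

lemma wt_neg (τ y : ℝ) : wt τ (-y) = wt τ y := by simp [wt]

/-- The bound of the induction against the weight. -/
lemma bd_le_wt {K M η τ σ N : ℝ} (hK : 0 ≤ K) (hM : 0 ≤ M) (hη : 0 ≤ η) (hτ : 0 < τ)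
    (hσ : 0 ≤ σ) (hσ1 : σ ≤ 1) (hN : 1 ≤ N) (hσN : σ ≤ 2 * N * τ) (y : ℝ) :
    bd K M η σ y ≤ (2 * N) ^ 8 * ((K + M) * (τ ^ 4 + η * Real.sqrt τ)) * wt τ y := by
  have hs : 0 < Real.sqrt τ := Real.sqrt_pos.2 hτ
  set u := |y| / Real.sqrt τ with hu
  have hu0 : 0 ≤ u := by positivity
  have hσs : Real.sqrt σ ≤ 2 * N * Real.sqrt τ := by
    refine Real.sqrt_le_iff.2 ⟨by positivity, hσN.trans ?_⟩
    rw [mul_pow, Real.sq_sqrt hτ.le]
    exact mul_le_mul_of_nonneg_right (le_self_pow₀ (by linarith) two_ne_zero) hτ.le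
  have hy : |y| = u * Real.sqrt τ := by rw [hu]; field_simp
  set k := 2 * N * (1 + u) with hk
  have hk1 : 1 ≤ k := by rw [hk]; nlinarith
  have hsum : Real.sqrt σ + |y| ≤ k * Real.sqrt τ := by
    rw [hy, hk]
    nlinarith [mul_nonneg hu0 hs.le]
  have h8 : Real.sqrt τ ^ 8 = τ ^ 4 := by
    rw [show 8 = 2 * 4 from rfl, pow_mul, Real.sq_sqrt hτ.le]
  have hscale : scale η σ y ≤ k ^ 8 * (τ ^ 4 + η * Real.sqrt τ) := by
    rw [scale, mul_add (k ^ 8), ← h8, ← mul_pow]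
    refine add_le_add (pow_le_pow_left₀ (by positivity) hsum 8) ?_
    calc η * (Real.sqrt σ + |y|) ≤ η * (k * Real.sqrt τ) := mul_le_mul_of_nonneg_left hsum hη
      _ ≤ η * (k ^ 8 * Real.sqrt τ) := by
          gcongr; exact le_self_pow₀ hk1 (by norm_num)
      _ = _ := by ring
  have hkw : k ^ 8 ≤ (2 * N) ^ 8 * wt τ y := by
    rw [hk, mul_pow]
    exact mul_le_mul_of_nonneg_left (pow_le_pow_right₀ (by linarith) (by norm_num)) (by positivity)
  calc bd K M η σ y ≤ (K + M) * scale η σ y := bd_le_scale hK hM hη hσ hσ1 y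
    _ ≤ (K + M) * ((2 * N) ^ 8 * wt τ y * (τ ^ 4 + η * Real.sqrt τ)) :=
        mul_le_mul_of_nonneg_left (hscale.trans (mul_le_mul_of_nonneg_right hkw (by positivity)))
          (by positivity)
    _ = _ := by ring

lemma contOn_profile {S : Setup} {ν : ℝ} {f : Space → ℝ} (hf : Profile S ν f) :
    ContinuousOn f (belt S.R₁) := by
  obtain ⟨s, α, -, -, rfl⟩ := hf.comb
  exact continuousOn_finsetSum s fun j _ => (S.cont_ψ j).const_smul (α j)

lemma measurableSet_shell (δ τ T : ℝ) : MeasurableSet (shell δ τ T) := by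
  have hh : Measurable height := by unfold height; fun_prop
  exact (measurableSet_le measurable_const measurable_norm.inv).inter
    ((measurableSet_le measurable_norm.inv measurable_const).inter
      ((measurableSet_le measurable_const hh).inter
        (measurableSet_le hh (measurable_const.mul measurable_norm))))

/-- Geometry of a point of the shell. -/
lemma shell_bounds {δ τ T R : ℝ} (hτ : 0 < τ) (hT : 0 < T) (hR : 4 * T * R ≤ 1) {x : Space}
    (hx : x ∈ shell δ τ T) :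
    0 < ‖x‖ ∧ ‖x‖ ≤ 4 / τ ∧ 1 / (2 * T) ≤ ‖x‖ ∧ 2 * R ≤ ‖x‖ := by
  obtain ⟨h1, h2, -, -⟩ := hx
  have hr : 0 < ‖x‖ := inv_pos.1 (lt_of_lt_of_le (by positivity) h1)
  have h3 : 1 / (2 * T) ≤ ‖x‖ := by
    rw [inv_eq_one_div, div_le_iff₀ hr] at h2
    rw [div_le_iff₀ (by positivity)]
    linarith
  refine ⟨hr, ?_, h3, le_trans ?_ h3⟩
  · rw [inv_eq_one_div, le_div_iff₀ hr] at h1
    rw [le_div_iff₀ hτ]
    linarith
  · rw [le_div_iff₀ (by positivity)]
    linarith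

lemma shell_subset_belt {δ τ T R R₁ : ℝ} (hτ : 0 < τ) (hT : 0 < T) (hR : 4 * T * R ≤ 1)
    (hR₁ : R₁ ≤ R) (h0 : 0 < R₁) (hδ : δ ≤ 1 / 4) : shell δ τ T ⊆ belt R₁ := by
  intro x hx
  obtain ⟨hr, -, -, h2⟩ := shell_bounds hτ hT hR hx
  obtain ⟨-, -, h3, h4⟩ := hx
  refine ⟨by linarith, ?_⟩
  rw [abs_of_nonneg h3]
  nlinarith

/-- The test weight is measurable on the shell. -/
lemma meas_symWt {S : Setup} {ν : ℝ} {f : Space → ℝ} (hf : Profile S ν f) {D τ θ : ℝ}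
    (hD : 0 < D) (hτ : 0 < τ) {A : Set Space} (hA : MeasurableSet A) (hsub : A ⊆ belt S.R₁) :
    AEStronglyMeasurable (symWt S f D τ θ) (volume.restrict A) := by
  have hκ : 0 < S.κ := one_div_pos.2 (by linarith [S.data.a_pos])
  have hs := source_box hD hτ θ
  have hc : Continuous (Function.uncurry (boxPot S.κ D τ θ)) :=
    (Heat.contDiff_pot (n := 2) hκ hs.smooth hs.compact).continuous
  have hne : ∀ x ∈ A, ‖x‖ ≠ 0 := fun x hx => by
    have := (hsub hx).1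
    linarith [one_le_R₁ S]
  have hn : ContinuousOn (fun x : Space => ‖x‖) A := continuous_norm.continuousOn
  have hi : ContinuousOn (fun x : Space => ‖x‖⁻¹) A := hn.inv₀ hne
  have hy : ContinuousOn (fun x : Space => height x / ‖x‖) A :=
    (show Continuous height by unfold height; fun_prop).continuousOn.div hn hne
  have h1 := hc.comp_continuousOn (hi.prodMk hy)
  have h2 := hc.comp_continuousOn (hi.prodMk hy.neg)
  have hG : ContinuousOn S.G A := by
    unfold Setup.G tailG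
    exact (hn.rpow_const fun x hx => Or.inl (hne x hx)).mul
      ((continuous_const.mul continuous_norm).neg.rexp.continuousOn)
  refine ContinuousOn.aestronglyMeasurable ?_ hA
  exact ((h1.add h2).mul (((contOn_profile hf).mono hsub).abs)).div ((hn.pow 3).mul hG) fun x hx =>
    mul_ne_zero (pow_ne_zero 3 (hne x hx)) (tailG_pos _ _ ((norm_nonneg x).lt_of_ne' (hne x hx))).ne'

/-- The test weight on the shell. -/
theorem exists_symWt_le (hP : PotBoundStmt) (S : Setup) {Sw N : ℝ} (hSw : 0 < Sw) (hN : 10 ≤ N) :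
    ∃ C : ℝ, 0 ≤ C ∧ ∀ (δ R K M η : ℝ), 0 ≤ K → 0 ≤ M → 0 ≤ η → Level S δ R K M η →
      ∀ (ν : ℝ) (f : Space → ℝ), Profile S ν f → ∀ D τ θ T : ℝ, Window Sw N D τ θ T →
        4 * T * R ≤ 1 → ∀ x ∈ shell δ τ T, 0 ≤ symWt S f D τ θ x ∧
          symWt S f D τ θ x ≤ C * D * ((K + M) * (τ ^ 4 + η * Real.sqrt τ)) *
            (τ ^ 2 / (τ + Real.sqrt |‖x‖⁻¹ - τ|)) := by
  have hκ : 0 < S.κ := one_div_pos.2 (by linarith [S.data.a_pos])
  obtain ⟨C₀, hC₀, hb⟩ := hP S.κ Sw N hκ hSw hN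
  refine ⟨2 * C₀ * (2 * N) ^ 8 * (4 * N ^ 2), by positivity,
    fun δ R K M η hK hM hη hL ν f hf D τ θ T hw hTR x hx => ?_⟩
  obtain ⟨hpos, -⟩ := hb D τ θ T hw
  obtain ⟨hτ, -, hT10, hTN, hD, -, hT4⟩ := hw
  have hT : 0 < T := by linarith
  obtain ⟨hr, -, -, hrR⟩ := shell_bounds hτ hT hTR hx
  obtain ⟨hx1, hx2, hz0, hzδ⟩ := hx
  have hG : 0 < S.G x := tailG_pos _ _ hr
  have hσ : 0 < ‖x‖⁻¹ := inv_pos.2 hr
  set σ := ‖x‖⁻¹ with hσdef
  set y := height x / ‖x‖ with hydef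
  obtain ⟨hp0, hp1⟩ := hpos σ y
  obtain ⟨hm0, hm1⟩ := hpos σ (-y)
  obtain ⟨hp2, -⟩ := hp1 hx2
  obtain ⟨hm2, -⟩ := hm1 hx2
  rw [wt_neg] at hm2
  set P := boxPot S.κ D τ θ σ y + boxPot S.κ D τ θ σ (-y) with hPdef
  have hP0 : 0 ≤ P := add_nonneg hp0 hm0
  set den := τ + Real.sqrt |σ - τ| with hden
  have hden0 : 0 < den := by positivity
  set E := (K + M) * (τ ^ 4 + η * Real.sqrt τ) with hE
  have hE0 : 0 ≤ E := by positivity
  have hLx : |f x| ≤ ‖x‖ * S.G x * bd K M η σ y := by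
    refine hL ν f hf x ?_ ?_
    · nlinarith
    · rwa [abs_of_nonneg hz0]
  have hbd := bd_le_wt (K := K) (M := M) (η := η) hK hM hη hτ hσ.le (by linarith)
    (show (1 : ℝ) ≤ N by linarith) (by linarith) y
  refine ⟨div_nonneg (mul_nonneg hP0 (abs_nonneg _)) (by positivity), ?_⟩
  calc symWt S f D τ θ x = P * |f x| / (‖x‖ ^ 3 * S.G x) := rfl
    _ ≤ P * (‖x‖ * S.G x * bd K M η σ y) / (‖x‖ ^ 3 * S.G x) := by gcongr
    _ = P * bd K M η σ y * σ ^ 2 := by rw [hσdef]; field_simp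
    _ ≤ P * ((2 * N) ^ 8 * E * wt τ y) * σ ^ 2 := by gcongr
    _ = (2 * N) ^ 8 * E * (wt τ y * P) * σ ^ 2 := by ring
    _ ≤ (2 * N) ^ 8 * E * (2 * (C₀ * D / den)) * (4 * N ^ 2 * τ ^ 2) := by
        have h1 : wt τ y * P ≤ 2 * (C₀ * D / den) := by
          rw [hPdef, mul_add]; linarith
        have h2 : σ ^ 2 ≤ 4 * N ^ 2 * τ ^ 2 := by
          calc σ ^ 2 ≤ (2 * N * τ) ^ 2 := pow_le_pow_left₀ hσ.le (by linarith) 2
            _ = _ := by ring
        have hw0 : 0 ≤ wt τ y := zero_le_one.trans (wt_one_le τ y)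
        gcongr
    _ = _ := by ring

/-- Volumes of polar boxes. -/
lemma volume_polBox_le {a b h : ℝ} (ha : 0 ≤ a) (hab : a ≤ b) (hh : 0 ≤ h) {A : Set Space}
    (hA : ∀ x ∈ A, a ≤ ‖x‖ ∧ ‖x‖ ≤ b ∧ |height x| ≤ h * ‖x‖) :
    volume A < ∞ ∧ volume.real A ≤ 4 * π * b ^ 2 * (b - a) * h := by
  have hbox : MeasurableSet (Icc a b ×ˢ Icc (-h) h) := measurableSet_Icc.prod measurableSet_Icc
  have hsub : A ⊆ polMap ⁻¹' (Icc a b ×ˢ Icc (-h) h) := by
    intro x hx
    obtain ⟨h1, h2, h3⟩ := hA x hx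
    refine ⟨⟨h1, h2⟩, abs_le.1 ?_⟩
    rw [show (polMap x).2 = height x / ‖x‖ from rfl, abs_div, abs_norm]
    exact div_le_of_le_mul₀ (norm_nonneg x) hh h3
  have hle : volume A ≤ ENNReal.ofReal (4 * π * b ^ 2 * (b - a) * h) := by
    refine (measure_mono hsub).trans ?_
    rw [← Measure.map_apply measurable_polMap hbox, map_polMap, polMeas,
      withDensity_apply _ hbox]
    calc ∫⁻ p in Icc a b ×ˢ Icc (-h) h, ENNReal.ofReal (2 * π * p.1 ^ 2) ∂volume.restrict strip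
        ≤ ∫⁻ _ in Icc a b ×ˢ Icc (-h) h, ENNReal.ofReal (2 * π * b ^ 2) ∂volume.restrict strip := by
          refine setLIntegral_mono measurable_const fun p hp => ENNReal.ofReal_le_ofReal ?_
          have : p.1 ^ 2 ≤ b ^ 2 := pow_le_pow_left₀ (ha.trans hp.1.1) hp.1.2 2
          gcongr
      _ ≤ ENNReal.ofReal (2 * π * b ^ 2) * volume (Icc a b ×ˢ Icc (-h) h) := by
          rw [setLIntegral_const]
          gcongr
          exact Measure.restrict_le_self
      _ = _ := by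
          rw [Measure.volume_eq_prod, Measure.prod_prod, Real.volume_Icc, Real.volume_Icc,
            ← ENNReal.ofReal_mul (by linarith), ← ENNReal.ofReal_mul (by positivity)]
          congr 1
          ring
  refine ⟨hle.trans_lt ENNReal.ofReal_lt_top, ?_⟩
  refine (ENNReal.toReal_mono ENNReal.ofReal_ne_top hle).trans_eq (ENNReal.toReal_ofReal ?_)
  have : 0 ≤ b - a := sub_nonneg.2 hab
  positivity

end Vale.Agent.P363.Ext.Growth
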