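import Vale.Agent.P363.Ext.StepSpec
import Vale.Agent.P363.Ext.Heat.Spec

/-!
P363, Kohn-Sham side: the steps of `GrowthStmt`.

In `(τ, θ) = (1 / r, z / r)` and `u = f / (r G)` the unknown is the constant `M` in
`|u| ≤ K τ⁴ + M (|θ| + τ²) ((√τ + |θ|)⁷ + η)` with `K` fixed: it is finite for every `η > 0` since
`|u| ≤ C (|θ| + τ⁴)`, and the steps improve it to `A + q M`, `q < 1`, uniformly in `η`.
* `PlaneStmt`: the band `|z| ≤ 2 / r`, from second differences at the plane.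
* `BarrierStmt`: `± f + ε (√n - φu)` is a subsolution above the band (no `X - W` term, and
  `X ≥ -C / r²`), so classical barriers carry bounds from the core `|θ| ≍ √τ` to the whole region.
* `CoreStmt`: on `|θ| ≤ Sw √τ` the jump identity from data at the times `T = N τ` and five traces;
  it follows from `JumpEstStmt` and `OscStmt`.
-/

noncomputable section

namespace Vale.Agent.P363.Ext.Growth

open MeasureTheory Filter Set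
open scoped BigOperators Topology

/-- The weight of the linear part. -/
def lin (η τ θ : ℝ) : ℝ := (|θ| + τ ^ 2) * ((Real.sqrt τ + |θ|) ^ 7 + η)

/-- The bound of the induction. -/
def bd (K M η τ θ : ℝ) : ℝ := K * τ ^ 4 + M * lin η τ θ

/-- The size at the parabolic scale. -/
def scale (η τ θ : ℝ) : ℝ := (Real.sqrt τ + |θ|) ^ 8 + η * (Real.sqrt τ + |θ|)

/-- All profiles obey the bound for `‖x‖ ≥ R`, `|z| ≤ δ ‖x‖`. -/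
def Level (S : Setup) (δ R K M η : ℝ) : Prop :=
  ∀ (ν : ℝ) (f : Space → ℝ), Profile S ν f → ∀ x : Space, R ≤ ‖x‖ → |height x| ≤ δ * ‖x‖ →
    |f x| ≤ ‖x‖ * S.G x * bd K M η ‖x‖⁻¹ (height x / ‖x‖)

/-- The parameters of a step. -/
structure Params (R₀ δ₀ δ R M η : ℝ) : Prop where
  δ_pos : 0 < δ
  δ_le : δ ≤ δ₀
  R_ge : R₀ ≤ R
  M_nonneg : 0 ≤ M
  η_nonneg : 0 ≤ η
  η_le : η ≤ 1

/-- `u = f / (r G)` in the time `τ = 1 / r`. -/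
def tred (S : Setup) (f : Space → ℝ) (τ θ : ℝ) : ℝ := red S.a S.k f τ⁻¹ θ

/-- A normalised bump on the line. -/
def bump1 : ℝ → ℝ :=
  (⟨1 / 2, 1, by norm_num, by norm_num⟩ : ContDiffBump (0 : ℝ)).normed volume

/-- The source of width `D τ²` in time and `τ` in `θ` around `(τ, θ)`. -/
def box (D τ θ σ y : ℝ) : ℝ :=
  bump1 ((σ - τ) / (D * τ ^ 2)) * bump1 ((y - θ) / τ) / (D * τ ^ 3)

/-- One up to `T`, zero from `2 T` on. -/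
def downT (T τ : ℝ) : ℝ := Real.smoothTransition (2 - τ / T)

/-- One for `|θ| ≤ δ / 2`, zero for `δ ≤ |θ|`. -/
def cutθ (δ θ : ℝ) : ℝ := Real.smoothTransition (4 / 3 * (1 - (θ / δ) ^ 2))

/-- The data of the jump identity at the times `[T, 2 T]`. -/
def late (S : Setup) (f : Space → ℝ) (δ T : ℝ) (p : ℝ × ℝ) : ℝ :=
  -deriv (downT T) p.1 * cutθ δ p.2 * tred S f p.1 p.2

/-- The band `|z| ≤ 2 / r`. -/
def PlaneStmt : Prop :=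
  ∀ S : Setup, ∃ Kp : ℝ, ∀ q : ℝ, 0 < q → ∃ R₀ : ℝ, ∀ δ R K M η : ℝ,
    Params R₀ (1 / 4) δ R M η → 1 ≤ δ * R → 0 ≤ K → Level S δ R K M η →
    ∀ (ν : ℝ) (f : Space → ℝ), Profile S ν f → ∀ τ θ : ℝ, 0 < τ → 4 * R * τ ≤ 1 →
      |θ| ≤ 2 * τ ^ 2 → |tred S f τ θ| ≤ (Kp + q * K) * τ ^ 4 + q * M * lin η τ θ

/-- From the band and the core to the whole region. -/
def BarrierStmt : Prop :=
  ∀ S : Setup, ∃ s₀ Sw C K₀ : ℝ, 0 < s₀ ∧ s₀ < Sw ∧ 1 ≤ C ∧ 0 ≤ K₀ ∧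
    ∀ K q : ℝ, K₀ ≤ K → 0 < q → ∃ δ₀ : ℝ, 0 < δ₀ ∧ ∀ δ : ℝ, 0 < δ → δ ≤ δ₀ → ∀ L : ℝ, 4 ≤ L →
      ∃ R₀ : ℝ, ∀ R : ℝ, R₀ ≤ R → ∃ A : ℝ, ∀ M M₁ η : ℝ, Params R₀ δ₀ δ R M η →
        Level S δ R K M η → q * M ≤ M₁ → A ≤ M₁ →
        (∀ (ν : ℝ) (f : Space → ℝ), Profile S ν f → ∀ τ θ : ℝ, 0 < τ → L * R * τ ≤ 1 →
          |θ| ≤ 2 * τ ^ 2 → |tred S f τ θ| ≤ K / 2 * τ ^ 4 + M₁ * lin η τ θ) →
        (∀ (ν : ℝ) (f : Space → ℝ), Profile S ν f → ∀ τ θ : ℝ, 0 < τ → L * R * τ ≤ 1 →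
          s₀ * Real.sqrt τ ≤ |θ| → |θ| ≤ Sw * Real.sqrt τ →
          |tred S f τ θ| ≤ M₁ * (τ ^ 4 + η * Real.sqrt τ)) →
        Level S δ R K (C * M₁) η

/-- The core `|θ| ≤ Sw √τ`. -/
def CoreStmt : Prop :=
  ∀ (S : Setup) (Sw K q : ℝ), 0 < Sw → 0 ≤ K → 0 < q →
    ∃ δ₀ : ℝ, 0 < δ₀ ∧ ∀ δ : ℝ, 0 < δ → δ ≤ δ₀ → ∃ R₀ L A : ℝ, 4 ≤ L ∧
      ∀ R M η : ℝ, Params R₀ δ₀ δ R M η → Level S δ R K M η →
        ∀ (ν : ℝ) (f : Space → ℝ), Profile S ν f → ∀ τ θ : ℝ, 0 < τ → L * R * τ ≤ 1 →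
          |θ| ≤ Sw * Real.sqrt τ → |tred S f τ θ| ≤ (A + q * M) * (τ ^ 4 + η * Real.sqrt τ)

/-- The averaged value against the heat average of later data. -/
def JumpEstStmt : Prop :=
  ∀ (S : Setup) (Sw K N q : ℝ), 0 < Sw → 0 ≤ K → 10 ≤ N → 0 < q →
    ∃ D₀ : ℝ, ∀ D : ℝ, D₀ ≤ D → 1 ≤ D → ∃ δ₀ : ℝ, 0 < δ₀ ∧ ∀ δ : ℝ, 0 < δ → δ ≤ δ₀ →
      ∃ R₀ : ℝ, ∀ R M η : ℝ, Params R₀ δ₀ δ R M η → Level S δ R K M η →
        ∀ (ν : ℝ) (f : Space → ℝ), Profile S ν f → ∀ τ θ T : ℝ, 0 < τ →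
          |θ| ≤ Sw * Real.sqrt τ → 10 * τ ≤ T → T ≤ N * τ → 4 * T * R ≤ 1 →
          |(∫ p : ℝ × ℝ, tred S f p.1 p.2 * box D τ θ p.1 p.2) -
              ∫ p : ℝ × ℝ, box D τ θ p.1 p.2 * Heat.heatAvg S.κ (late S f δ T) 0 p.1 p.2| ≤
            q * (1 + K + M) * (τ ^ 4 + η * Real.sqrt τ)

/-- Small oscillation over boxes of width `D` in `r` and `1` in `z`. -/
def OscStmt : Prop :=
  ∀ (S : Setup) (D q : ℝ), 1 ≤ D → 0 < q → ∃ δ₀ : ℝ, 0 < δ₀ ∧ ∀ δ : ℝ, 0 < δ → δ ≤ δ₀ →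
    ∃ R₀ : ℝ, ∀ R K M η : ℝ, Params R₀ δ₀ δ R M η → 0 ≤ K → Level S δ R K M η →
      ∀ (ν : ℝ) (f : Space → ℝ), Profile S ν f → ∀ τ θ σ y : ℝ, 0 < τ → 8 * R * τ ≤ 1 →
        |θ| ≤ δ / 4 → |σ - τ| ≤ D * τ ^ 2 → |y - θ| ≤ τ →
        |tred S f σ y - tred S f τ θ| ≤ q * (K + M) * scale η τ θ

end Vale.Agent.P363.Ext.Growth
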